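import Mathlib

open MeasureTheory Set
open scoped RealInnerProductSpace

namespace Vale.Agent.P243.Coplanar

noncomputable section

variable {E : Type*} [NormedAddCommGroup E] [InnerProductSpace ℝ E] [CompleteSpace E]

/-- Every direction sees `C` with width at least `ω`. -/
def WideGE (C : Set E) (ω : ℝ) : Prop :=
  ∀ n : E, ‖n‖ = 1 → ∃ x ∈ C, ∃ y ∈ C, ω ≤ ⟪n, x - y⟫

theorem exists_long_chord {C : Set E} (hv : Convex ℝ C) (hc : IsCompact C) (hne : C.Nonempty)
    {ω : ℝ} (hω : 0 ≤ ω) (hw : WideGE C ω) {e : E} (he : ‖e‖ = 1) :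
    ∃ p ∈ C, p + ω • e ∈ C := by
  by_contra hcon
  push Not at hcon
  let D := (fun y => y + ω • e) ⁻¹' C
  have hDc : IsClosed D := hc.isClosed.preimage (by fun_prop)
  have hDv : Convex ℝ D := by
    intro a ha b hb w1 w2 h1 h2 h
    simp only [D, mem_preimage] at *
    convert hv ha hb h1 h2 h using 1
    have hz : ω • e = (w1 + w2) • (ω • e) := by rw [h, one_smul]
    nth_rw 1 [hz]
    module
  have hd : Disjoint C D := disjoint_left.mpr fun x hx hx' => hcon x hx hx'
  obtain ⟨f, s, t, hf1, hst, hf2⟩ := geometric_hahn_banach_compact_closed hv hc hDv hDc hd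
  set a := (InnerProductSpace.toDual ℝ E).symm f with ha
  have hfa : ∀ x, f x = ⟪a, x⟫ := fun x => by
    rw [ha, InnerProductSpace.toDual_symm_apply]
  have key : ∀ x ∈ C, ∀ y ∈ C, ⟪a, x⟫ < ⟪a, y⟫ - ω * ⟪a, e⟫ := by
    intro x hx y hy
    have h2 := hf2 (y - ω • e) (by simpa [D] using hy)
    have h1 := hf1 x hx
    rw [hfa] at h1 h2
    rw [inner_sub_right, inner_smul_right] at h2
    linarith
  have ha0 : a ≠ 0 := by
    intro h0
    obtain ⟨x, hx⟩ := hne
    have := key x hx x hx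
    simp [h0] at this
  have han : 0 < ‖a‖ := norm_pos_iff.mpr ha0
  obtain ⟨x, hx, y, hy, hxy⟩ := hw (‖a‖⁻¹ • a) (norm_smul_inv_norm ha0)
  rw [real_inner_smul_left, le_inv_mul_iff₀ han, inner_sub_right] at hxy
  have h3 : -⟪a, e⟫ ≤ ‖a‖ := by
    have := abs_real_inner_le_norm a e
    rw [he, mul_one] at this
    linarith [neg_abs_le ⟪a, e⟫]
  have := key x hx y hy
  nlinarith

/-- One step of Bang's translation argument. -/
theorem wide_step {C : Set E} (hv : Convex ℝ C) (hc : IsCompact C) (hne : C.Nonempty)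
    {ω : ℝ} (hw : WideGE C ω) (v : E) (h2 : 2 * ‖v‖ < ω) :
    ({z | z + v ∈ C} ∩ {z | z - v ∈ C}).Nonempty ∧
      WideGE ({z | z + v ∈ C} ∩ {z | z - v ∈ C}) (ω - 2 * ‖v‖) := by
  rcases eq_or_ne v 0 with rfl | hv0
  · simpa using ⟨hne, hw⟩
  have hn : 0 < ‖v‖ := norm_pos_iff.mpr hv0
  have hω : 0 < ω := by linarith
  obtain ⟨p, hp, hq⟩ := exists_long_chord hv hc hne hω.le hw (norm_smul_inv_norm hv0 : ‖‖v‖⁻¹ • v‖ = 1)
  set r := 2 * ‖v‖ / ω with hr
  have hr0 : 0 ≤ r := by positivity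
  have hr1 : r ≤ 1 := (div_le_one hω).mpr h2.le
  have hrv : (r * ω / 2) • (‖v‖⁻¹ • v) = v := by
    rw [hr, smul_smul, div_mul_cancel₀ _ hω.ne']
    convert one_smul ℝ v using 2
    field_simp
  let φ : E → E := fun x => (1 - r) • x + r • p + (r * ω / 2) • (‖v‖⁻¹ • v)
  have hφ : ∀ x ∈ C, φ x ∈ {z | z + v ∈ C} ∩ {z | z - v ∈ C} := by
    intro x hx
    constructor
    · show φ x + v ∈ C
      convert hv hx hq (by linarith : 0 ≤ 1 - r) hr0 (by ring) using 1
      conv_lhs => arg 2; rw [← hrv]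
      simp only [φ]; module
    · show φ x - v ∈ C
      convert hv hx hp (by linarith : 0 ≤ 1 - r) hr0 (by ring) using 1
      simp only [φ]; rw [hrv]; module
  obtain ⟨x0, hx0⟩ := hne
  refine ⟨⟨φ x0, hφ x0 hx0⟩, fun n hn1 => ?_⟩
  obtain ⟨x, hx, y, hy, hxy⟩ := hw n hn1
  refine ⟨φ x, hφ x hx, φ y, hφ y hy, ?_⟩
  have e : φ x - φ y = (1 - r) • (x - y) := by simp only [φ]; module
  rw [e, inner_smul_right]
  calc ω - 2 * ‖v‖ = (1 - r) * ω := by rw [hr]; field_simp
    _ ≤ _ := mul_le_mul_of_nonneg_left hxy (by linarith)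

theorem exists_all_signs {ι : Type*} [DecidableEq ι] (s : Finset ι) (v : ι → E) :
    ∀ {C : Set E} {ω : ℝ}, Convex ℝ C → IsCompact C → C.Nonempty → WideGE C ω →
      2 * ∑ i ∈ s, ‖v i‖ < ω →
      ∃ x : E, ∀ ε : ι → Bool, x + ∑ i ∈ s, (if ε i then v i else -v i) ∈ C := by
  induction s using Finset.induction_on with
  | empty =>
    intro C ω _ _ hne _ _
    obtain ⟨x, hx⟩ := hne
    exact ⟨x, fun ε => by simpa using hx⟩
  | @insert a s ha ih =>
    intro C ω hv hc hne hw hlt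
    rw [Finset.sum_insert ha] at hlt
    have hs0 : 0 ≤ ∑ i ∈ s, ‖v i‖ := Finset.sum_nonneg fun i _ => norm_nonneg _
    obtain ⟨hne', hw'⟩ := wide_step hv hc hne hw (v a) (by linarith)
    have hv' : Convex ℝ ({z | z + v a ∈ C} ∩ {z | z - v a ∈ C}) := by
      refine Convex.inter ?_ ?_ <;>
      · intro x hx y hy w1 w2 h1 h2 h
        have := hv hx hy h1 h2 h
        simp only [mem_ofPred_eq] at *
        convert this using 1
        have hz : v a = (w1 + w2) • v a := by rw [h, one_smul]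
        nth_rw 1 [hz]
        module
    have hc' : IsCompact ({z | z + v a ∈ C} ∩ {z | z - v a ∈ C}) :=
      ((Homeomorph.addRight (v a)).isCompact_preimage.mpr hc).inter_right
        (hc.isClosed.preimage (by fun_prop : Continuous fun z => z - v a))
    obtain ⟨x, hx⟩ := ih hv' hc' hne' hw' (by linarith)
    refine ⟨x, fun ε => ?_⟩
    rw [Finset.sum_insert ha]
    obtain ⟨h1, h2⟩ := hx ε
    simp only [mem_ofPred_eq] at h1 h2
    by_cases h : ε a
    · simp only [h, if_true]; convert h1 using 1; abel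
    · simp only [h]; convert h2 using 1; simp; abel

/-- Bang: open planks covering `C` have total width at least the width of `C`. -/
theorem bang_planks {ι : Type*} [Fintype ι] {C : Set E} (hv : Convex ℝ C) (hc : IsCompact C)
    (hne : C.Nonempty) {ω : ℝ} (hw : WideGE C ω) (n : ι → E) (hn : ∀ i, ‖n i‖ = 1)
    (c : ι → ℝ) (h : ι → ℝ) (hh : ∀ i, 0 ≤ h i)
    (hcov : ∀ x ∈ C, ∃ i, |⟪n i, x⟫ - c i| < h i) : ω ≤ 2 * ∑ i, h i := by
  classical
  by_contra hlt
  push Not at hlt
  let v : ι → E := fun i => h i • n i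
  have hnv : ∀ i, ‖v i‖ = h i := fun i => by simp [v, norm_smul, hn i, abs_of_nonneg (hh i)]
  obtain ⟨x, hx⟩ := exists_all_signs Finset.univ v hv hc hne hw (by simpa [hnv] using hlt)
  let sg : (ι → Bool) → ι → ℝ := fun ε i => if ε i then 1 else -1
  let T : (ι → Bool) → E := fun ε => ∑ i, sg ε i • v i
  let F : (ι → Bool) → ℝ := fun ε => ‖T ε‖ ^ 2 + 2 * ∑ i, sg ε i * (⟪v i, x⟫ - c i * h i)
  obtain ⟨ε, -, hε⟩ := Finset.exists_max_image (Finset.univ : Finset (ι → Bool)) F
    ⟨fun _ => true, Finset.mem_univ _⟩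
  have hy : x + T ε ∈ C := by
    have e : T ε = ∑ i, (if ε i then v i else -v i) := Finset.sum_congr rfl fun i _ => by
      by_cases hb : ε i <;> simp [sg, hb]
    rw [e]; exact hx ε
  obtain ⟨i, hi⟩ := hcov _ hy
  let ε' := Function.update ε i (!ε i)
  have hsg : ∀ j, sg ε' j = if j = i then -sg ε i else sg ε j := fun j => by
    by_cases hj : j = i
    · subst hj; by_cases hb : ε j <;> simp [sg, ε', hb]
    · simp [sg, ε', hj]
  have hT : T ε' = T ε - (2 * sg ε i) • v i := by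
    have e : ∀ j, sg ε' j • v j = sg ε j • v j - (if j = i then (2 * sg ε i) • v i else 0) := fun j => by
      rw [hsg]; by_cases hj : j = i
      · subst hj; simp; module
      · simp [hj]
    simp only [T, e, Finset.sum_sub_distrib, Finset.sum_ite_eq', Finset.mem_univ, if_true]
  have hS : ∑ j, sg ε' j * (⟪v j, x⟫ - c j * h j)
      = ∑ j, sg ε j * (⟪v j, x⟫ - c j * h j) - 2 * sg ε i * (⟪v i, x⟫ - c i * h i) := by
    have e : ∀ j, sg ε' j * (⟪v j, x⟫ - c j * h j) = sg ε j * (⟪v j, x⟫ - c j * h j)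
        - (if j = i then 2 * sg ε i * (⟪v i, x⟫ - c i * h i) else 0) := fun j => by
      rw [hsg]; by_cases hj : j = i
      · subst hj; simp; ring
      · simp [hj]
    simp only [e, Finset.sum_sub_distrib, Finset.sum_ite_eq', Finset.mem_univ, if_true]
  have h0 := hε ε' (Finset.mem_univ _)
  simp only [F] at h0
  rw [hT, hS, norm_sub_sq_real, inner_smul_right, norm_smul, hnv, real_inner_comm] at h0
  have hs2 : sg ε i ^ 2 = 1 := by by_cases hb : ε i <;> simp [sg, hb]
  have hnrm : (‖2 * sg ε i‖ * h i) ^ 2 = 4 * h i ^ 2 := by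
    rw [mul_pow, Real.norm_eq_abs, sq_abs, mul_pow, hs2]; ring
  rw [hnrm] at h0
  have hvy : sg ε i * ((⟪n i, x + T ε⟫ - c i) * h i) = sg ε i * (⟪v i, x⟫ - c i * h i) + sg ε i * ⟪v i, T ε⟫ := by
    simp only [v, real_inner_smul_left, inner_add_right]; ring
  have hge : h i ^ 2 ≤ sg ε i * ((⟪n i, x + T ε⟫ - c i) * h i) := by rw [hvy]; linarith
  have hpos : 0 < h i := lt_of_le_of_lt (abs_nonneg _) hi
  have habs : sg ε i * ((⟪n i, x + T ε⟫ - c i) * h i) ≤ |⟪n i, x + T ε⟫ - c i| * h i := by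
    rw [← mul_assoc]
    refine mul_le_mul_of_nonneg_right ?_ hpos.le
    by_cases hb : ε i
    · simp [sg, hb, le_abs_self]
    · simpa [sg, hb] using neg_le_abs (⟪n i, x + T ε⟫ - c i)
  nlinarith

/-- Bang's theorem for measurable unions of planks in finitely many directions. -/
theorem bang_sets {ι : Type*} [Fintype ι] {C : Set E} (hv : Convex ℝ C) (hc : IsCompact C)
    (hne : C.Nonempty) {ω : ℝ} (hw : WideGE C ω) (n : ι → E) (hn : ∀ i, ‖n i‖ = 1)
    (M : ι → Set ℝ) (hcov : ∀ x ∈ C, ∃ i, ⟪n i, x⟫ ∈ M i) :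
    ENNReal.ofReal ω ≤ ∑ i, volume (M i) := by
  classical
  refine ENNReal.le_of_forall_pos_le_add fun δ hδ hfin => ?_
  set ε : ENNReal := (δ : ENNReal) / (Fintype.card ι + 1) with hεdef
  have hε0 : ε ≠ 0 := ENNReal.div_ne_zero.mpr ⟨by simpa using hδ.ne', by simp⟩
  have hMfin : ∀ i, volume (M i) ≠ ⊤ := fun i =>
    ne_top_of_le_ne_top hfin.ne (Finset.single_le_sum (f := fun j => volume (M j)) (fun _ _ => zero_le) (Finset.mem_univ i))
  choose U hMU hUo hUvol using fun i => (M i).exists_isOpen_lt_add (μ := volume) (hMfin i) hε0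
  -- components of the open sets
  let J : ι → ℝ → Set ℝ := fun i s => connectedComponentIn (U i) s
  let pl : (ι × Set ℝ) → Set E := fun q => (fun x => ⟪n q.1, x⟫) ⁻¹' q.2
  let Q : Set (ι × Set ℝ) := {q | ∃ s ∈ U q.1, q.2 = J q.1 s}
  have hQo : ∀ q : Q, IsOpen (pl q) := fun q => by
    obtain ⟨s, -, hs⟩ := q.2
    simp only [pl, hs, J]
    exact ((hUo _).connectedComponentIn).preimage (by fun_prop)
  have hQc : C ⊆ ⋃ q : Q, pl q := fun x hx => by
    obtain ⟨i, hi⟩ := hcov x hx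
    exact mem_iUnion.mpr ⟨⟨(i, J i ⟪n i, x⟫), ⟨_, hMU i hi, rfl⟩⟩,
      mem_connectedComponentIn (hMU i hi)⟩
  obtain ⟨S, hS⟩ := hc.elim_finite_subcover (fun q : Q => pl q) hQo hQc
  have hvolU : ∀ i, volume (U i) < ⊤ := fun i => (hUvol i).trans_le le_top
  have hcomp : ∀ q : Q, ∃ c h : ℝ, 0 ≤ h ∧ (∀ s ∈ (q : ι × Set ℝ).2, |s - c| < h) ∧
      ENNReal.ofReal (2 * h) ≤ volume ((q : ι × Set ℝ).2) := by
    intro q
    obtain ⟨s, hs, hq⟩ := q.2
    rw [hq]
    set T := J (q : ι × Set ℝ).1 s with hT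
    have hTo : IsOpen T := (hUo _).connectedComponentIn
    have hTc : IsPreconnected T := isPreconnected_connectedComponentIn
    have hTs : s ∈ T := mem_connectedComponentIn hs
    have hTfin : volume T < ⊤ := (measure_mono (connectedComponentIn_subset _ _)).trans_lt (hvolU _)
    have hToc := hTc.ordConnected
    have hbb : BddBelow T := by
      refine ⟨s - (volume T).toReal - 1, fun y hy => ?_⟩
      by_contra hy'
      push Not at hy'
      have h1 := ENNReal.toReal_mono hTfin.ne (measure_mono (μ := volume) (hToc.out hy hTs))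
      have h0 : 0 ≤ (volume T).toReal := ENNReal.toReal_nonneg
      rw [Real.volume_Icc, ENNReal.toReal_ofReal (by linarith)] at h1
      linarith
    have hba : BddAbove T := by
      refine ⟨s + (volume T).toReal + 1, fun y hy => ?_⟩
      by_contra hy'
      push Not at hy'
      have h1 := ENNReal.toReal_mono hTfin.ne (measure_mono (μ := volume) (hToc.out hTs hy))
      have h0 : 0 ≤ (volume T).toReal := ENNReal.toReal_nonneg
      rw [Real.volume_Icc, ENNReal.toReal_ofReal (by linarith)] at h1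
      linarith
    have hinterval : Ioo (sInf T) (sSup T) ⊆ T :=
      IsConnected.Ioo_csInf_csSup_subset ⟨⟨s, hTs⟩, hTc⟩ hbb hba
    have hint : interior (Icc (sInf T) (sSup T)) = Ioo (sInf T) (sSup T) := interior_Icc
    have hsub : T ⊆ Ioo (sInf T) (sSup T) := by
      rw [← hint]
      exact interior_maximal (fun y hy => ⟨csInf_le hbb hy, le_csSup hba hy⟩) hTo
    refine ⟨(sInf T + sSup T) / 2, (sSup T - sInf T) / 2, ?_, fun y hy => ?_, ?_⟩
    · linarith [(hsub hTs).1, (hsub hTs).2]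
    · rw [abs_lt]; constructor <;> linarith [(hsub hy).1, (hsub hy).2]
    · refine le_trans (le_of_eq ?_) (measure_mono hinterval)
      rw [Real.volume_Ioo]; congr 1; ring
  choose cc hh hh0 hcc hvol using hcomp
  have hB : ω ≤ 2 * ∑ q : S, hh (q : Q) := by
    refine bang_planks hv hc hne hw (fun q : S => n ((q : Q) : ι × Set ℝ).1) (fun q => hn _)
      (fun q : S => cc q) (fun q : S => hh q) (fun q => hh0 _) fun x hx => ?_
    obtain ⟨q, hq, hxq⟩ := mem_iUnion₂.mp (hS hx)
    exact ⟨⟨q, hq⟩, hcc q _ hxq⟩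
  have hdisj : ∀ i, ((S.filter fun q : Q => (q : ι × Set ℝ).1 = i : Finset Q) : Set Q).PairwiseDisjoint
      (fun q : Q => (q : ι × Set ℝ).2) := by
    intro i q hq q' hq' hne'
    simp only [Finset.coe_filter, mem_ofPred_eq] at hq hq'
    obtain ⟨s, -, hs⟩ := q.2
    obtain ⟨s', -, hs'⟩ := q'.2
    rw [Function.onFun, disjoint_left]
    intro y hy hy'
    apply hne'
    apply Subtype.ext
    refine Prod.ext (hq.2.trans hq'.2.symm) ?_
    rw [hs] at hy ⊢
    rw [hs'] at hy' ⊢
    simp only [J, hq.2, hq'.2] at hy hy' ⊢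
    rw [connectedComponentIn_eq hy, connectedComponentIn_eq hy']
  calc ENNReal.ofReal ω ≤ ENNReal.ofReal (∑ q ∈ S, 2 * hh q) := by
        refine ENNReal.ofReal_le_ofReal (hB.trans (le_of_eq ?_))
        rw [Finset.sum_coe_sort S hh, Finset.mul_sum]
    _ = ∑ q ∈ S, ENNReal.ofReal (2 * hh q) :=
        ENNReal.ofReal_sum_of_nonneg fun q _ => mul_nonneg (by norm_num) (hh0 q)
    _ ≤ ∑ q ∈ S, volume ((q : ι × Set ℝ).2) := Finset.sum_le_sum fun q _ => hvol q
    _ = ∑ i, ∑ q ∈ S.filter (fun q : Q => (q : ι × Set ℝ).1 = i), volume ((q : ι × Set ℝ).2) :=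
        (Finset.sum_fiberwise S (fun q : Q => (q : ι × Set ℝ).1) _).symm
    _ ≤ ∑ i, volume (U i) := by
        refine Finset.sum_le_sum fun i _ => ?_
        rw [← measure_biUnion_finset (hdisj i) (fun q _ => by
          obtain ⟨s, -, hs⟩ := q.2
          rw [hs]; exact ((hUo _).connectedComponentIn).measurableSet)]
        refine measure_mono (iUnion₂_subset fun q hq => ?_)
        obtain ⟨s, -, hs⟩ := q.2
        rw [hs, ← (Finset.mem_filter.mp hq).2]
        exact connectedComponentIn_subset _ _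
    _ ≤ ∑ i, (volume (M i) + ε) := Finset.sum_le_sum fun i _ => (hUvol i).le
    _ ≤ ∑ i, volume (M i) + δ := by
        rw [Finset.sum_add_distrib, Finset.sum_const, Finset.card_univ, nsmul_eq_mul]
        refine add_le_add le_rfl ?_
        calc (Fintype.card ι : ENNReal) * ε ≤ (Fintype.card ι + 1) * ε :=
              mul_le_mul_left (le_add_right le_rfl) _
          _ ≤ δ := by rw [hεdef]; exact ENNReal.mul_div_le

end

end Vale.Agent.P243.Coplanar
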