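import Mathlib

open MeasureTheory

namespace Vale.Agent.P243

noncomputable section

/-- Euclidean three-space. -/
abbrev Space3 : Type := EuclideanSpace ℝ (Fin 3)

variable {E : Type} [NormedAddCommGroup E] [InnerProductSpace ℝ E]

/-- The hyperplane through the origin orthogonal to `u`. -/
abbrev perpPlane (u : E) : Submodule ℝ E := (ℝ ∙ u)ᗮ

variable [FiniteDimensional ℝ E]

/-- Orthogonal projection onto the hyperplane orthogonal to `u`. -/
def perpProj (u : E) : E → perpPlane u := fun x => (perpPlane u).orthogonalProjectionOnto x

/-- The cylinder `B + ℝ u` with base `B` in the hyperplane orthogonal to `u`. -/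
def cylinder (u : E) (B : Set (perpPlane u)) : Set E := perpProj u ⁻¹' B

variable [MeasurableSpace E] [BorelSpace E]

/-- Lebesgue measure of a subset of the hyperplane orthogonal to `u`. -/
def baseArea (u : E) (B : Set (perpPlane u)) : ENNReal := volume B

/-- Lebesgue measure of the orthogonal projection of `K` onto the hyperplane orthogonal to `u`. -/
def shadowArea (u : E) (K : Set E) : ENNReal := baseArea u (perpProj u '' K)

/-- The plane orthogonal to `u` in three-space. -/
abbrev plane (u : Space3) : Submodule ℝ Space3 := perpPlane u

/-- The cylinder `B + ℝ u` in three-space. -/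
def cyl (u : Space3) (B : Set (plane u)) : Set Space3 := cylinder u B

/-- The area of a base `B` in the plane orthogonal to `u`. -/
def area (u : Space3) (B : Set (plane u)) : ENNReal := baseArea u B

/-- The area of the orthogonal projection of `K` onto the plane orthogonal to `u`. -/
def shadow (u : Space3) (K : Set Space3) : ENNReal := shadowArea u K

theorem cylinder_eq (u : Space3) (hu : ‖u‖ = 1) (B : Set (perpPlane u)) :
    cylinder u B = {x | ∃ b ∈ B, ∃ t : ℝ, x = (b : Space3) + t • u} := by
  ext x
  constructor
  · intro hx
    refine ⟨_, hx, inner ℝ u x, ?_⟩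
    have hm : x - inner ℝ u x • u ∈ perpPlane u := by
      rw [Submodule.mem_orthogonal_singleton_iff_inner_right, inner_sub_right, inner_smul_right,
        real_inner_self_eq_norm_sq, hu]
      ring
    have h : (perpPlane u).orthogonalProjectionOnto ((x - inner ℝ u x • u) + inner ℝ u x • u)
        = ⟨_, hm⟩ := by
      rw [map_add, map_smul, Submodule.orthogonalProjectionOnto_orthogonalComplement_singleton_eq_zero,
        smul_zero, add_zero]
      exact Submodule.orthogonalProjectionOnto_mem_subspace_eq_self (K := perpPlane u) ⟨_, hm⟩
    rw [sub_add_cancel] at h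
    show x = ((perpPlane u).orthogonalProjectionOnto x : Space3) + _
    rw [h]
    simp
  · rintro ⟨b, hb, t, rfl⟩
    show (perpPlane u).orthogonalProjectionOnto _ ∈ B
    rw [map_add, map_smul, Submodule.orthogonalProjectionOnto_orthogonalComplement_singleton_eq_zero,
      smul_zero, add_zero, Submodule.orthogonalProjectionOnto_mem_subspace_eq_self]
    exact hb

end

end Vale.Agent.P243
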