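import Mathlib

open MeasureTheory Set
open scoped Pointwise

namespace Vale.Agent.P243

noncomputable section

abbrev Sp : Type := EuclideanSpace ℝ (Fin 3)

/-- A convex body in the normalised position used in the proof. -/
structure Pos (K : Set Sp) where
  convex : Convex ℝ K
  compact : IsCompact K
  e : Module.Basis (Fin 3) ℝ Sp
  pmem : ∀ i, e i ∈ K
  nmem : ∀ i, -e i ∈ K
  bound : ∀ x ∈ K, ∑ i, |e.repr x i| ≤ 15

theorem exists_simplex {K : Set Sp} (hc : IsCompact K) (hi : (interior K).Nonempty) :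
    ∃ (v : Sp) (f : Module.Basis (Fin 3) ℝ Sp), v ∈ K ∧ (∀ i, v + f i ∈ K) ∧
      ∀ x ∈ K, ∀ i, |f.repr (x - v) i| ≤ 1 := by
  classical
  let b := (EuclideanSpace.basisFun (Fin 3) ℝ).toBasis
  obtain ⟨c, hci⟩ := hi
  obtain ⟨r, hr, hball⟩ := Metric.isOpen_iff.mp isOpen_interior c hci
  let S : Set (Sp × (Fin 3 → Sp)) := K ×ˢ Set.univ.pi (fun _ => K)
  have hS : IsCompact S := hc.prod (isCompact_univ_pi fun _ => hc)
  have hcS : ((c, fun i => c + (r / 2) • b i) : Sp × (Fin 3 → Sp)) ∈ S := by
    refine ⟨interior_subset hci, fun i _ => interior_subset (hball ?_)⟩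
    simp [b, dist_eq_norm, norm_smul, abs_of_pos hr]
    linarith
  have hcont : Continuous fun p : Sp × (Fin 3 → Sp) => |b.det (fun i => p.2 i - p.1)| := by
    simp only [Module.Basis.det_apply, Matrix.det_fin_three, Module.Basis.toMatrix_apply]
    have h : ∀ i j, Continuous fun p : Sp × (Fin 3 → Sp) => b.repr (p.2 j - p.1) i := by
      intro i j
      have := (b.coord i).continuous_of_finiteDimensional
      exact this.comp (f := fun p : Sp × (Fin 3 → Sp) => p.2 j - p.1) (by fun_prop)
    fun_prop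
  obtain ⟨p, hp, hmax⟩ := hS.exists_isMaxOn ⟨_, hcS⟩ hcont.continuousOn
  obtain ⟨v, w⟩ := p
  have hpos : 0 < |b.det (fun i => w i - v)| := by
    have h1 := hmax hcS
    simp only [Set.mem_ofPred_eq, add_sub_cancel_left] at h1
    have h2 : b.det (fun i => (r / 2) • b i) = (r / 2) ^ 3 := by
      have h3 : b.det (fun i => (r / 2) • b i) = (∏ _i : Fin 3, (r / 2)) • b.det b :=
        b.det.toMultilinearMap.map_smul_univ (fun _ => r / 2) b
      rw [h3, b.det_self]
      simp [div_pow]
    rw [h2, abs_of_pos (by positivity)] at h1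
    have : (0:ℝ) < (r / 2) ^ 3 := by positivity
    linarith
  have hne : b.det (fun i => w i - v) ≠ 0 := by simpa using hpos
  have hb := (Module.Basis.is_basis_iff_det b).mpr (isUnit_iff_ne_zero.mpr hne)
  let f := Module.Basis.mk hb.1 hb.2.ge
  have hf : ∀ i, f i = w i - v := fun i => Module.Basis.mk_apply _ _ _
  refine ⟨v, f, hp.1, fun i => by rw [hf]; simpa using hp.2 i (mem_univ i), ?_⟩
  intro x hx i
  have hmem : ((v, Function.update w i x) : Sp × (Fin 3 → Sp)) ∈ S := by
    refine ⟨hp.1, fun j _ => ?_⟩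
    by_cases h : j = i
    · subst h; simpa using hx
    · simpa [h] using hp.2 j (mem_univ j)
  have h1 := hmax hmem
  simp only [Set.mem_ofPred_eq] at h1
  have e1 : (fun j => Function.update w i x j - v) = Function.update (⇑f) i (x - v) := by
    funext j
    by_cases h : j = i
    · subst h; simp
    · simp [h, hf]
  have e2 : (fun j => w j - v) = ⇑f := funext fun j => (hf j).symm
  have h2 : ∀ z, b.det z = b.det f * f.det z := by
    intro z
    have := b.det.eq_smul_basis_det f
    conv_lhs => rw [this]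
    simp
  rw [e1, e2, h2, abs_mul] at h1
  have h3 : f.det (Function.update (⇑f) i (x - v)) = f.repr (x - v) i := by
    rw [Module.Basis.det_apply, Matrix.det_fin_three]
    fin_cases i <;> simp [Module.Basis.toMatrix_apply]
  rw [e2] at hpos
  rw [h3] at h1
  nlinarith

theorem exists_pos {K : Set Sp} (hv : Convex ℝ K) (hc : IsCompact K)
    (hi : (interior K).Nonempty) : ∃ c : Sp, Nonempty (Pos ((fun x => x - c) '' K)) := by
  obtain ⟨v, f, hvK, hf, hb⟩ := exists_simplex hc hi
  let c := v + (1/4 : ℝ) • (f 0 + f 1 + f 2)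
  let e := f.isUnitSMul (w := fun _ => (1/4:ℝ)) (fun _ => isUnit_iff_ne_zero.mpr (by norm_num))
  have he : ∀ i, e i = (1/4:ℝ) • f i := fun i => Module.Basis.isUnitSMul_apply _ i
  have key : ∀ (a b d : Sp), a ∈ K → b ∈ K → d ∈ K →
      (1/2:ℝ) • a + (1/4:ℝ) • b + (1/4:ℝ) • d ∈ K := by
    intro a b d ha hb hd
    have h := hv ha (hv hb hd (by norm_num : (0:ℝ) ≤ 1/2) (by norm_num : (0:ℝ) ≤ 1/2) (by norm_num))
      (by norm_num : (0:ℝ) ≤ 1/2) (by norm_num : (0:ℝ) ≤ 1/2) (by norm_num)
    convert h using 1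
    module
  refine ⟨c, ⟨⟨?_, hc.image (continuous_id.sub continuous_const), e, ?_, ?_, ?_⟩⟩⟩
  · rintro _ ⟨x, hx, rfl⟩ _ ⟨y, hy, rfl⟩ a b ha hb' hab
    refine ⟨a • x + b • y, hv hx hy ha hb' hab, ?_⟩
    have hc1 : (a + b) • c = c := by rw [hab, one_smul]
    simp only [smul_sub]
    nth_rw 1 [← hc1]
    module
  · intro i
    refine ⟨c + e i, ?_, by simp⟩
    fin_cases i
    · convert key _ _ _ (hf 0) (hf 1) (hf 2) using 1; simp [c, he]; module
    · convert key _ _ _ (hf 1) (hf 0) (hf 2) using 1; simp [c, he]; module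
    · convert key _ _ _ (hf 2) (hf 0) (hf 1) using 1; simp [c, he]; module
  · intro i
    refine ⟨c - e i, ?_, by simp⟩
    fin_cases i
    · convert key _ _ _ hvK (hf 1) (hf 2) using 1; simp [c, he]; module
    · convert key _ _ _ hvK (hf 0) (hf 2) using 1; simp [c, he]; module
    · convert key _ _ _ hvK (hf 0) (hf 1) using 1; simp [c, he]; module
  · rintro _ ⟨x, hx, rfl⟩
    have h : ∀ i, e.repr (x - c) i = 4 * (f.repr (x - v) i - 1/4) := by
      intro i
      have : x - c = (x - v) - (1/4:ℝ) • (f 0 + f 1 + f 2) := by simp [c]; abel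
      rw [Module.Basis.repr_isUnitSMul, this]
      fin_cases i <;> simp [Units.smul_def]
    calc ∑ i, |e.repr (x - c) i| ≤ ∑ _i : Fin 3, (5:ℝ) := by
          refine Finset.sum_le_sum fun i _ => ?_
          rw [h, abs_le]
          have := abs_le.mp (hb x hx i)
          constructor <;> linarith
      _ = 15 := by norm_num

end

end Vale.Agent.P243
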