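import Mathlib
import Vale.Agent.P243.Position

open MeasureTheory Set
open scoped Pointwise RealInnerProductSpace

namespace Vale.Agent.P243

noncomputable section

/-- The plane orthogonal to `u`. -/
abbrev Wp (u : Sp) : Submodule ℝ Sp := (ℝ ∙ u)ᗮ

/-- Orthogonal projection onto the plane orthogonal to `u`. -/
abbrev pr (u : Sp) : Sp →L[ℝ] Wp u := (Wp u).orthogonalProjectionOnto

variable {u : Sp}

theorem inner_Wp (z : Wp u) : ⟪u, (z : Sp)⟫ = 0 :=
  Submodule.mem_orthogonal_singleton_iff_inner_right.mp z.2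

theorem inner_self_unit (hu : ‖u‖ = 1) : ⟪u, u⟫ = (1:ℝ) := by
  rw [real_inner_self_eq_norm_sq, hu, one_pow]

theorem pr_u : pr u u = 0 :=
  Submodule.orthogonalProjectionOnto_orthogonalComplement_singleton_eq_zero u

theorem pr_coe (z : Wp u) : pr u (z : Sp) = z :=
  Submodule.orthogonalProjectionOnto_mem_subspace_eq_self z

theorem pr_lift (z : Wp u) (t : ℝ) : pr u ((z : Sp) + t • u) = z := by
  rw [map_add, map_smul, pr_u, pr_coe, smul_zero, add_zero]

theorem pr_decomp (hu : ‖u‖ = 1) (x : Sp) : ((pr u x : Wp u) : Sp) + ⟪u, x⟫ • u = x := by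
  have hm : x - ⟪u, x⟫ • u ∈ Wp u := by
    rw [Submodule.mem_orthogonal_singleton_iff_inner_right, inner_sub_right, inner_smul_right,
      inner_self_unit hu]
    ring
  have h : pr u (((⟨_, hm⟩ : Wp u) : Sp) + ⟪u, x⟫ • u) = ⟨_, hm⟩ := pr_lift _ _
  simp only [sub_add_cancel] at h
  rw [h]
  simp

/-- The linear isometry `(z, t) ↦ z + t u`. -/
def liftIso (hu : ‖u‖ = 1) : WithLp 2 (Wp u × ℝ) ≃ₗᵢ[ℝ] Sp where
  toFun p := ((WithLp.ofLp p).1 : Sp) + (WithLp.ofLp p).2 • u
  invFun x := WithLp.toLp 2 (pr u x, ⟪u, x⟫)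
  map_add' p q := by simp [add_smul]; abel
  map_smul' c p := by simp [mul_smul]
  left_inv p := by
    apply (WithLp.ofLp_injective 2)
    ext <;> simp [inner_add_right, inner_smul_right, inner_Wp, hu, pr_lift]
  right_inv x := pr_decomp hu x
  norm_map' p := by
    rw [← sq_eq_sq₀ (norm_nonneg _) (norm_nonneg _), WithLp.prod_norm_sq_eq_of_L2]
    simp only [LinearEquiv.coe_mk, LinearMap.coe_mk, AddHom.coe_mk]
    rw [norm_add_sq_real, inner_smul_right, real_inner_comm, inner_Wp, norm_smul, hu]
    simp [Real.norm_eq_abs, sq_abs]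

theorem lift_measurePreserving (hu : ‖u‖ = 1) :
    MeasurePreserving (fun p : Wp u × ℝ => (p.1 : Sp) + p.2 • u) volume volume :=
  (liftIso hu).measurePreserving.comp (WithLp.volume_preserving_toLp _ _)

theorem lift_continuous : Continuous (fun p : Wp u × ℝ => (p.1 : Sp) + p.2 • u) := by fun_prop

theorem setLIntegral_lift (hu : ‖u‖ = 1) {A : Set Sp} (hA : MeasurableSet A)
    {g : Sp → ENNReal} (hg : Measurable g) :
    ∫⁻ x in A, g x = ∫⁻ z : Wp u, ∫⁻ t : ℝ, A.indicator g ((z : Sp) + t • u) := by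
  rw [← lintegral_indicator hA, ← (lift_measurePreserving hu).lintegral_comp (hg.indicator hA),
    Measure.volume_eq_prod]
  exact lintegral_prod _ ((hg.indicator hA).comp lift_continuous.measurable).aemeasurable

theorem abs_le_of_lift (hu : ‖u‖ = 1) {K : Set Sp} (hK : IsCompact K) :
    ∃ R : ℝ, ∀ z : Wp u, ∀ t : ℝ, (z : Sp) + t • u ∈ K → |t| ≤ R := by
  obtain ⟨R, hR⟩ := hK.isBounded.exists_norm_le
  refine ⟨R, fun z t h => ?_⟩
  have h1 := abs_real_inner_le_norm u ((z : Sp) + t • u)
  rw [inner_add_right, inner_smul_right, inner_Wp, inner_self_unit hu, hu] at h1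
  simpa using h1.trans (by simpa using hR _ h)

theorem area_pos {K : Set Sp} (hi : (interior K).Nonempty) :
    0 < volume (pr u '' K) := by
  have hs : Function.Surjective (pr u) := fun z => ⟨(z : Sp), pr_coe z⟩
  have ho := (pr u).isOpenMap hs _ (isOpen_interior (s := K))
  exact lt_of_lt_of_le (ho.measure_pos volume (hi.image _)) (measure_mono (image_mono interior_subset))

/-- Rogers–Shephard, with a gain when the chords of length `ℓ` project onto a body containing
a homothet of the shadow. -/
theorem shadow_mul_chord_le (hu : ‖u‖ = 1) {K : Set Sp} (hv : Convex ℝ K) (hK : IsCompact K)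
    {ℓ ε : ℝ} (hℓ : 0 ≤ ℓ) (hε : 0 ≤ ε) (hε1 : ε ≤ 1) (z' : Wp u)
    (hF : ∀ p ∈ pr u '' K, ∃ x ∈ K, x + ℓ • u ∈ K ∧ pr u x = z' + ε • (p - z')) :
    volume.real (pr u '' K) * ℓ * (1 + ε) / 3 ≤ volume.real K := by
  set A := pr u '' K with hA
  have hAf : volume A ≠ ⊤ := (hK.image (pr u).continuous).measure_lt_top.ne
  obtain ⟨R, hR⟩ := abs_le_of_lift hu hK
  let fib : Wp u → ENNReal := fun z => ∫⁻ t : ℝ, K.indicator 1 ((z : Sp) + t • u)
  have hfib : ∀ z, fib z = volume {t : ℝ | (z : Sp) + t • u ∈ K} := fun z => by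
    have hm : MeasurableSet {t : ℝ | (z : Sp) + t • u ∈ K} :=
      hK.isClosed.measurableSet.preimage (by fun_prop)
    rw [← lintegral_indicator_one hm]
    exact lintegral_congr fun t => rfl
  have hfin : ∀ z, fib z ≠ ⊤ := fun z => by
    rw [hfib]
    exact ne_top_of_le_ne_top (by simp : volume (Icc (-R) R) ≠ ⊤)
      (measure_mono fun t ht => abs_le.mp (hR z t ht))
  have hfm : Measurable fib :=
    ((measurable_one.indicator hK.isClosed.measurableSet).comp
      lift_continuous.measurable).lintegral_prod_right'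
  have hV : volume K = ∫⁻ z, ENNReal.ofReal (fib z).toReal := by
    simp only [ENNReal.ofReal_toReal (hfin _), fib]
    rw [← setLIntegral_lift hu hK.isClosed.measurableSet measurable_one]
    simp
  rw [lintegral_eq_lintegral_meas_le volume (.of_forall fun z => ENNReal.toReal_nonneg)
    hfm.ennreal_toReal.aemeasurable] at hV
  rcases eq_or_lt_of_le hℓ with h0 | h0
  · simp [← h0]
  let r : ℝ → ℝ := fun t => 1 - t / ℓ + t / ℓ * ε
  have hsub : ∀ t ∈ Ioc 0 ℓ, ENNReal.ofReal (r t ^ 2 * volume.real A)
      ≤ volume {z | t ≤ (fib z).toReal} := by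
    intro t ht
    set s := t / ℓ with hs
    have hs0 : 0 ≤ s := div_nonneg ht.1.le hℓ
    have hs1 : s ≤ 1 := (div_le_one h0).mpr ht.2
    have hsl : s * ℓ = t := div_mul_cancel₀ t h0.ne'
    have hsubset : (s * (1 - ε)) • z' +ᵥ r t • A ⊆ {z | t ≤ (fib z).toReal} := by
      rintro _ ⟨_, ⟨p, hp, rfl⟩, rfl⟩
      obtain ⟨x, hx, hxl, hxp⟩ := hF p hp
      obtain ⟨y, hy, rfl⟩ := hp
      set q := (1 - s) • y + s • x with hq
      have hq1 : q ∈ K := hv hy hx (by linarith) hs0 (by ring)
      have hq2 : q + t • u ∈ K := by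
        have h := hv hy hxl (by linarith : (0:ℝ) ≤ 1 - s) hs0 (by ring)
        convert h using 1
        rw [← hsl, hq]; module
      have hqp : pr u q = (s * (1 - ε)) • z' + r t • pr u y := by
        rw [hq, map_add, map_smul, map_smul, hxp]
        simp only [r, ← hs]
        module
      change t ≤ (fib ((s * (1 - ε)) • z' + r t • pr u y)).toReal
      rw [← hqp, hfib]
      have hi : Icc ⟪u, q⟫ (⟪u, q⟫ + t) ⊆ {s : ℝ | ((pr u q : Wp u) : Sp) + s • u ∈ K} := by
        intro a ha
        have hc : Convex ℝ {s : ℝ | ((pr u q : Wp u) : Sp) + s • u ∈ K} := by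
          intro a1 h1 a2 h2 w1 w2 hw1 hw2 hw
          have := hv h1 h2 hw1 hw2 hw
          simp only [mem_ofPred_eq] at *
          convert this using 1
          have hz : ((pr u q : Wp u) : Sp) = (w1 + w2) • ((pr u q : Wp u) : Sp) := by rw [hw, one_smul]
          nth_rw 1 [hz]
          simp only [smul_eq_mul]
          module
        refine hc.ordConnected.out ?_ ?_ ha
        · simp only [mem_ofPred_eq]
          rw [pr_decomp hu]
          exact hq1
        · simp only [mem_ofPred_eq]
          rw [add_smul, ← add_assoc, pr_decomp hu]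
          exact hq2
      have hh := measure_mono (μ := volume) hi
      rw [Real.volume_Icc, add_sub_cancel_left] at hh
      rw [← ENNReal.ofReal_le_iff_le_toReal (by rw [← hfib]; exact hfin _)]
      exact hh
    refine le_trans (le_of_eq ?_) (measure_mono hsubset)
    rw [measure_vadd, Measure.addHaar_smul, ENNReal.ofReal_mul (sq_nonneg _), measureReal_def,
      ENNReal.ofReal_toReal hAf]
    have hdim : Module.finrank ℝ (Wp u) = 2 := by
      have : Fact (Module.finrank ℝ Sp = 2 + 1) := ⟨by simp⟩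
      exact Submodule.finrank_orthogonal_span_singleton (by intro h; simp [h] at hu)
    rw [hdim, abs_of_nonneg (sq_nonneg _)]
  have hc : Continuous fun t => r t ^ 2 * volume.real A := by simp only [r]; fun_prop
  have hge : ENNReal.ofReal (∫ t in Ioc 0 ℓ, r t ^ 2 * volume.real A) ≤ volume K := by
    rw [ofReal_integral_eq_lintegral_ofReal hc.integrableOn_Ioc
      (.of_forall fun t => mul_nonneg (sq_nonneg _) measureReal_nonneg), hV]
    exact (setLIntegral_mono' measurableSet_Ioc hsub).trans
      (lintegral_mono_set fun t ht => ht.1)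
  rw [ENNReal.ofReal_le_iff_le_toReal hK.measure_lt_top.ne, ← measureReal_def,
    ← intervalIntegral.integral_of_le hℓ, intervalIntegral.integral_mul_const] at hge
  have hint : ∫ t in (0:ℝ)..ℓ, r t ^ 2 = ℓ * (1 + ε + ε ^ 2) / 3 := by
    have e : ∀ t, r t ^ 2 = 1 + (2 * (ε - 1) / ℓ) * t + ((ε - 1) / ℓ) ^ 2 * t ^ 2 := fun t => by
      simp only [r]; field_simp; ring
    simp only [e]
    rw [intervalIntegral.integral_add (Continuous.intervalIntegrable (by fun_prop) _ _)
        (Continuous.intervalIntegrable (by fun_prop) _ _),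
      intervalIntegral.integral_add (Continuous.intervalIntegrable (by fun_prop) _ _)
        (Continuous.intervalIntegrable (by fun_prop) _ _)]
    rw [intervalIntegral.integral_const_mul, intervalIntegral.integral_const_mul, integral_id,
      integral_pow, intervalIntegral.integral_const, smul_eq_mul]
    field_simp
    ring
  rw [hint] at hge
  refine le_trans ?_ hge
  have : 0 ≤ ℓ * volume.real A * ε ^ 2 := by positivity
  linarith

end

end Vale.Agent.P243
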