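import Mathlib
import Vale.Agent.P243.Split
import Vale.Agent.P243.Bang

open MeasureTheory Set
open scoped RealInnerProductSpace

namespace Vale.Agent.P243.Coplanar

noncomputable section

theorem exists_third (a b : Sp) : ∃ n : Sp, ‖n‖ = 1 ∧ ⟪a, n⟫ = 0 ∧ ⟪b, n⟫ = 0 := by
  set S : Submodule ℝ Sp := Submodule.span ℝ {a, b} with hS
  have hle : Module.finrank ℝ S ≤ 2 := by
    classical
    have := finrank_span_le_card (R := ℝ) ({a, b} : Set Sp)
    refine this.trans ?_
    simp only [Set.toFinset_insert, Set.toFinset_singleton]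
    exact Finset.card_le_two
  have hne : Sᗮ ≠ ⊥ := by
    intro h
    have h2 := Submodule.finrank_add_finrank_orthogonal S
    rw [h, finrank_bot, finrank_euclideanSpace_fin] at h2
    omega
  obtain ⟨x, hx, hx0⟩ := Submodule.exists_mem_ne_zero_of_ne_bot hne
  refine ⟨‖x‖⁻¹ • x, norm_smul_inv_norm hx0, ?_, ?_⟩ <;> rw [inner_smul_right, hx _ ?_, mul_zero] <;>
    exact Submodule.subset_span (by simp)

variable {u v n : Sp}

/-- Coordinates in the plane orthogonal to `u` given by the orthonormal pair `v, n`. -/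
def planeMap (hv : ‖v‖ = 1) (hn : ‖n‖ = 1) (hvn : ⟪v, n⟫ = (0:ℝ)) (huv : ⟪u, v⟫ = (0:ℝ))
    (hun : ⟪u, n⟫ = (0:ℝ)) : WithLp 2 (ℝ × ℝ) →ₗᵢ[ℝ] Wp u where
  toFun p := ⟨(WithLp.ofLp p).1 • v + (WithLp.ofLp p).2 • n, by
    rw [Submodule.mem_orthogonal_singleton_iff_inner_right, inner_add_right, inner_smul_right,
      inner_smul_right, huv, hun]
    ring⟩
  map_add' p q := by ext1; simp [add_smul]; abel
  map_smul' c p := by ext1; simp [mul_smul]
  norm_map' p := by
    rw [← sq_eq_sq₀ (norm_nonneg _) (norm_nonneg _), WithLp.prod_norm_sq_eq_of_L2, Submodule.coe_norm]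
    simp only [LinearMap.coe_mk, AddHom.coe_mk]
    rw [norm_add_sq_real, real_inner_smul_left, inner_smul_right, hvn, norm_smul, norm_smul, hv, hn]
    simp [Real.norm_eq_abs, sq_abs]

variable (hu : ‖u‖ = 1) (hv : ‖v‖ = 1) (hn : ‖n‖ = 1) (hvn : ⟪v, n⟫ = (0:ℝ))
  (huv : ⟪u, v⟫ = (0:ℝ)) (hun : ⟪u, n⟫ = (0:ℝ))

include hu in
theorem finrank_Wp : Module.finrank ℝ (Wp u) = 2 := by
  have : Fact (Module.finrank ℝ Sp = 2 + 1) := ⟨by simp⟩
  exact Submodule.finrank_orthogonal_span_singleton (by intro h; simp [h] at hu)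

theorem finrank_L2 : Module.finrank ℝ (WithLp 2 (ℝ × ℝ)) = 2 := by
  rw [(WithLp.linearEquiv 2 ℝ (ℝ × ℝ)).finrank_eq, Module.finrank_prod, Module.finrank_self]

/-- The coordinates as an isometric equivalence. -/
def planeIso : WithLp 2 (ℝ × ℝ) ≃ₗᵢ[ℝ] Wp u :=
  (planeMap hv hn hvn huv hun).toLinearIsometryEquiv (by rw [finrank_L2, finrank_Wp hu])

include hu hv hn hvn huv hun

theorem pr_coords (x : Sp) :
    pr u x = planeMap hv hn hvn huv hun (WithLp.toLp 2 (⟪v, x⟫, ⟪n, x⟫)) := by
  obtain ⟨p, hp⟩ := (planeIso hu hv hn hvn huv hun).surjective (pr u x)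
  rw [planeIso, LinearIsometry.toLinearIsometryEquiv_apply] at hp
  have hx : x = ((WithLp.ofLp p).1 • v + (WithLp.ofLp p).2 • n) + ⟪u, x⟫ • u := by
    conv_lhs => rw [← pr_decomp hu x, ← hp]
    rfl
  have hvn' : ⟪n, v⟫ = (0:ℝ) := by rw [real_inner_comm]; exact hvn
  have hvu : ⟪v, u⟫ = (0:ℝ) := by rw [real_inner_comm]; exact huv
  have hnu : ⟪n, u⟫ = (0:ℝ) := by rw [real_inner_comm]; exact hun
  have e1 : ⟪v, x⟫ = (WithLp.ofLp p).1 := by
    rw [hx, inner_add_right, inner_add_right, inner_smul_right, inner_smul_right, inner_smul_right,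
      hvn, hvu, inner_self_unit hv]; ring
  have e2 : ⟪n, x⟫ = (WithLp.ofLp p).2 := by
    rw [hx, inner_add_right, inner_add_right, inner_smul_right, inner_smul_right, inner_smul_right,
      hvn', hnu, inner_self_unit hn]; ring
  rw [← hp, e1, e2]

/-- The section at height `t` of a set in the plane orthogonal to `u`. -/
def sec (B : Set (Wp u)) (t : ℝ) : Set ℝ :=
  {s | planeMap hv hn hvn huv hun (WithLp.toLp 2 (t, s)) ∈ B}

theorem plane_area {B : Set (Wp u)} (hB : MeasurableSet B) :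
    volume B = ∫⁻ t : ℝ, volume (sec hv hn hvn huv hun B t) := by
  have hmp : MeasurePreserving (fun p : ℝ × ℝ => planeIso hu hv hn hvn huv hun (WithLp.toLp 2 p)) :=
    (planeIso hu hv hn hvn huv hun).measurePreserving.comp (WithLp.volume_preserving_toLp _ _)
  rw [← hmp.measure_preimage hB.nullMeasurableSet, Measure.volume_eq_prod,
    Measure.prod_apply (hB.preimage hmp.measurable)]
  refine lintegral_congr fun t => ?_
  congr 1

omit hu hv hn hvn huv hun

/-- The image of the slice at height `t` under `⟪n, ·⟫`. -/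
def slab (K : Set Sp) (v n : Sp) (t : ℝ) : Set ℝ := (fun x => ⟪n, x⟫) '' {x ∈ K | ⟪v, x⟫ = t}

/-- **Bang's half-area inequality when all axes are parallel to one plane.** -/
theorem coplanar_bound {K : Set Sp} (hK : Convex ℝ K) (hc : IsCompact K) (hi : (interior K).Nonempty)
    {m : ℕ} (v : Sp) (hv : ‖v‖ = 1) (u : Fin m → Sp) (hu : ∀ i, ‖u i‖ = 1)
    (hperp : ∀ i, ⟪v, u i⟫ = (0:ℝ)) (B : ∀ i, Set (Wp (u i)))
    (hcov : K ⊆ ⋃ i, pr (u i) ⁻¹' B i) :
    ∃ w : Sp, ‖w‖ = 1 ∧ ⟪v, w⟫ = (0:ℝ) ∧ volume (pr w '' K) ≤ 2 * ∑ i, volume (B i) := by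
  have hne : K.Nonempty := hi.mono interior_subset
  have hvc : Continuous fun x : Sp => ⟪v, x⟫ := by fun_prop
  obtain ⟨pa, hpa, hamin⟩ := hc.exists_isMinOn hne hvc.continuousOn
  obtain ⟨pb, hpb, hbmax⟩ := hc.exists_isMaxOn hne hvc.continuousOn
  set a := ⟪v, pa⟫ with ha
  set b := ⟪v, pb⟫ with hb
  have hrange : ∀ x ∈ K, a ≤ ⟪v, x⟫ ∧ ⟪v, x⟫ ≤ b := fun x hx => ⟨hamin hx, hbmax hx⟩
  have hab : a < b := by
    obtain ⟨p, hp⟩ := hi
    obtain ⟨r, hr, hball⟩ := Metric.isOpen_iff.mp isOpen_interior p hp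
    have h1 := (hrange (p + (r / 2) • v) (interior_subset (hball (by
      simp [dist_eq_norm, norm_smul, hv, abs_of_pos hr]; linarith)))).2
    have h2 := (hrange p (interior_subset hp)).1
    rw [inner_add_right, inner_smul_right, inner_self_unit hv] at h1
    linarith
  set c := (a + b) / 2 with hcdef
  have hslice : ∀ t ∈ Icc a b, ∃ x ∈ K, ⟪v, x⟫ = t := by
    intro t ht
    exact (hK.isConnected hne).isPreconnected.intermediate_value hpa hpb hvc.continuousOn ht
  set Kc := {x ∈ K | ⟪v, x⟫ = c} with hKc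
  have hKcc : IsCompact Kc := hc.inter_right (isClosed_eq hvc continuous_const)
  obtain ⟨xc, hxc⟩ := hslice c ⟨by linarith, by linarith⟩
  have hKcne : Kc.Nonempty := ⟨xc, hxc⟩
  -- width of the middle slice in the direction `n`
  let F : Sp → ℝ := fun n => sSup ((fun p : Sp × Sp => ⟪n, p.1 - p.2⟫) '' Kc ×ˢ Kc)
  have hFc : Continuous F :=
    (hKcc.prod hKcc).continuous_sSup (f := fun (n : Sp) (p : Sp × Sp) => ⟪n, p.1 - p.2⟫) (by fun_prop)
  have hFmem : ∀ n, ∃ x ∈ Kc, ∃ y ∈ Kc, ⟪n, x - y⟫ = F n := by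
    intro n
    obtain ⟨⟨x, y⟩, ⟨hx, hy⟩, h⟩ := ((hKcc.prod hKcc).image (f := fun p : Sp × Sp => ⟪n, p.1 - p.2⟫)
      (by fun_prop)).sSup_mem ((hKcne.prod hKcne).image _)
    exact ⟨x, hx, y, hy, h⟩
  have hFle : ∀ n, ∀ x ∈ Kc, ∀ y ∈ Kc, ⟪n, x - y⟫ ≤ F n := fun n x hx y hy =>
    le_csSup (((hKcc.prod hKcc).image (f := fun p : Sp × Sp => ⟪n, p.1 - p.2⟫) (by fun_prop)).bddAbove)
      ⟨(x, y), ⟨hx, hy⟩, rfl⟩
  let Dirs : Set Sp := {n | ‖n‖ = 1 ∧ ⟪v, n⟫ = 0}
  have hDc : IsCompact Dirs := (isCompact_sphere (0:Sp) 1).of_isClosed_subset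
    ((isClosed_eq continuous_norm continuous_const).inter (isClosed_eq hvc continuous_const))
    (fun n hn => by simpa using hn.1)
  obtain ⟨n₀, hn₀, hn₀v, -⟩ := exists_third v v
  obtain ⟨ns, hns, hmin⟩ := hDc.exists_isMinOn ⟨n₀, hn₀, hn₀v⟩ hFc.continuousOn
  set G := F ns with hG
  have hG0 : 0 ≤ G := by
    have := hFle ns xc hxc xc hxc
    simpa using this
  -- the direction of the small shadow
  obtain ⟨w, hw1, hwv, hwn⟩ := exists_third v ns
  have hwv' : ⟪w, v⟫ = (0:ℝ) := by rw [real_inner_comm]; exact hwv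
  have hwn' : ⟪w, ns⟫ = (0:ℝ) := by rw [real_inner_comm]; exact hwn
  refine ⟨w, hw1, hwv, ?_⟩
  -- upper bound for that shadow
  have hshadow : ∀ t, sec hv hns.1 hns.2 hwv' hwn' (pr w '' K) t = slab K v ns t := by
    intro t; ext s
    constructor
    · rintro ⟨x, hx, hxe⟩
      rw [pr_coords hw1 hv hns.1 hns.2 hwv' hwn'] at hxe
      have := WithLp.toLp_injective 2 ((planeMap hv hns.1 hns.2 hwv' hwn').injective hxe)
      exact ⟨x, ⟨hx, (congrArg Prod.fst this)⟩, (congrArg Prod.snd this)⟩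
    · rintro ⟨x, ⟨hx, hxt⟩, hxs⟩
      refine ⟨x, hx, ?_⟩
      rw [pr_coords hw1 hv hns.1 hns.2 hwv' hwn', hxt]
      simp only [] at hxs
      rw [hxs]
  have hupper : volume (pr w '' K) ≤ ENNReal.ofReal (G * (b - a)) := by
    rw [plane_area hw1 hv hns.1 hns.2 hwv' hwn' (hc.image (pr w).continuous).isClosed.measurableSet]
    simp only [hshadow]
    set g : ℝ → ENNReal := fun t => volume (slab K v ns t) with hg
    have hgm : Measurable g := by
      have hm : MeasurableSet {p : ℝ × ℝ | ∃ x ∈ K, ⟪v, x⟫ = p.1 ∧ ⟪ns, x⟫ = p.2} := by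
        have : {p : ℝ × ℝ | ∃ x ∈ K, ⟪v, x⟫ = p.1 ∧ ⟪ns, x⟫ = p.2}
            = (fun x => (⟪v, x⟫, ⟪ns, x⟫)) '' K := by
          ext ⟨t, s⟩; simp [Prod.ext_iff]
        rw [this]
        exact (hc.image (by fun_prop)).isClosed.measurableSet
      have h := measurable_measure_prodMk_left (ν := (volume : Measure ℝ)) hm
      have e : g = fun t => volume (Prod.mk t ⁻¹'
          {p : ℝ × ℝ | ∃ x ∈ K, ⟪v, x⟫ = p.1 ∧ ⟪ns, x⟫ = p.2}) := by
        funext t
        simp only [hg, slab]
        congr 1; ext s; simp [and_assoc]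
      rw [e]; exact h
    have hzero : ∀ t, t ∉ Icc a b → g t = 0 := by
      intro t ht
      have : slab K v ns t = ∅ := by
        rw [slab, image_eq_empty, eq_empty_iff_forall_notMem]
        rintro x ⟨hx, hxt⟩
        exact ht (hxt ▸ hrange x hx)
      simp [hg, this]
    have hpair : ∀ t, g t + g (a + b - t) ≤ (Icc a b).indicator (fun _ => ENNReal.ofReal (2 * G)) t := by
      intro t
      by_cases ht : t ∈ Icc a b
      swap
      · have ht' : a + b - t ∉ Icc a b := fun h => ht ⟨by linarith [h.2], by linarith [h.1]⟩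
        simp [hzero t ht, hzero _ ht', ht]
      rw [indicator_of_mem ht]
      have ext : ∀ r ∈ Icc a b, ∃ x ∈ K, ∃ y ∈ K, ⟪v, x⟫ = r ∧ ⟪v, y⟫ = r ∧
          g r ≤ ENNReal.ofReal (⟪ns, x⟫ - ⟪ns, y⟫) ∧ ⟪ns, y⟫ ≤ ⟪ns, x⟫ := by
        intro r hr
        obtain ⟨x0, hx0⟩ := hslice r hr
        have hnec : ({x ∈ K | ⟪v, x⟫ = r}).Nonempty := ⟨x0, hx0⟩
        have hcr : IsCompact ({x ∈ K | ⟪v, x⟫ = r}) := hc.inter_right (isClosed_eq hvc continuous_const)
        have hnc : Continuous fun x : Sp => ⟪ns, x⟫ := by fun_prop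
        obtain ⟨x, hx, hxm⟩ := hcr.exists_isMaxOn hnec hnc.continuousOn
        obtain ⟨y, hy, hym⟩ := hcr.exists_isMinOn hnec hnc.continuousOn
        refine ⟨x, hx.1, y, hy.1, hx.2, hy.2, ?_, hym hx⟩
        rw [← Real.volume_Icc]
        refine measure_mono ?_
        rintro _ ⟨z, hz, rfl⟩
        exact ⟨hym hz, hxm hz⟩
      obtain ⟨x1, hx1, y1, hy1, hx1t, hy1t, hg1, hle1⟩ := ext t ht
      obtain ⟨x2, hx2, y2, hy2, hx2t, hy2t, hg2, hle2⟩ :=
        ext (a + b - t) ⟨by linarith [ht.2], by linarith [ht.1]⟩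
      refine (add_le_add hg1 hg2).trans ?_
      rw [← ENNReal.ofReal_add (by linarith) (by linarith)]
      refine ENNReal.ofReal_le_ofReal ?_
      have mid : ∀ p q : Sp, p ∈ K → q ∈ K → ⟪v, p⟫ + ⟪v, q⟫ = a + b →
          (1/2:ℝ) • p + (1/2:ℝ) • q ∈ Kc := by
        intro p q hp hq hpq
        refine ⟨hK hp hq (by norm_num) (by norm_num) (by norm_num), ?_⟩
        rw [inner_add_right, inner_smul_right, inner_smul_right, hcdef]
        linarith
      have := hFle ns _ (mid x1 x2 hx1 hx2 (by rw [hx1t, hx2t]; ring)) _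
        (mid y1 y2 hy1 hy2 (by rw [hy1t, hy2t]; ring))
      simp only [inner_sub_right, inner_add_right, inner_smul_right, ← hG] at this
      linarith
    have hsum : ∫⁻ t, g t + g (a + b - t) = 2 * ∫⁻ t, g t := by
      rw [lintegral_add_left hgm, two_mul]
      congr 1
      exact (Measure.measurePreserving_sub_left (volume : Measure ℝ) (a + b)).lintegral_comp hgm
    have h2 : 2 * ∫⁻ t, g t ≤ ENNReal.ofReal (2 * (G * (b - a))) := by
      rw [← hsum]
      refine (lintegral_mono hpair).trans (le_of_eq ?_)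
      rw [lintegral_indicator_const measurableSet_Icc, Real.volume_Icc,
        ← ENNReal.ofReal_mul (by linarith)]
      congr 1; ring
    rw [ENNReal.ofReal_mul (by norm_num : (0:ℝ) ≤ 2), ENNReal.ofReal_ofNat] at h2
    exact (ENNReal.mul_le_mul_iff_right (by norm_num) (by norm_num)).mp h2
  -- lower bound for the bases
  choose nn hn1 hnv hnu using fun i => exists_third v (u i)
  have huv : ∀ i, ⟪u i, v⟫ = (0:ℝ) := fun i => by rw [real_inner_comm]; exact hperp i
  set τ : ℝ → ℝ := fun t => min (t - a) (b - t) / ((b - a) / 2) with hτ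
  have hsections : ∀ t ∈ Icc a b, ENNReal.ofReal (τ t * G) ≤
      ∑ i, volume (sec hv (hn1 i) (hnv i) (huv i) (hnu i) (toMeasurable volume (B i)) t) := by
    intro t ht
    let C : Set (Wp v) := {z | (z : Sp) + t • v ∈ K}
    have hmemC : ∀ x ∈ K, ⟪v, x⟫ = t → pr v x ∈ C := by
      intro x hx hxt
      show (pr v x : Sp) + t • v ∈ K
      rw [← hxt, pr_decomp hv]; exact hx
    have hCe : C = pr v '' {x ∈ K | ⟪v, x⟫ = t} := by
      ext z
      constructor
      · intro hz
        refine ⟨(z : Sp) + t • v, ⟨hz, ?_⟩, pr_lift z t⟩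
        rw [inner_add_right, inner_smul_right, inner_Wp, inner_self_unit hv]; ring
      · rintro ⟨x, ⟨hx, hxt⟩, rfl⟩; exact hmemC x hx hxt
    have hCc : IsCompact C :=
      hCe ▸ (hc.inter_right (isClosed_eq hvc continuous_const)).image (pr v).continuous
    have hCv : Convex ℝ C := by
      intro z1 h1 z2 h2 w1 w2 hw1 hw2 hw
      have := hK h1 h2 hw1 hw2 hw
      show ((w1 • z1 + w2 • z2 : Wp v) : Sp) + t • v ∈ K
      convert this using 1
      have hz : t • v = (w1 + w2) • (t • v) := by rw [hw, one_smul]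
      rw [Submodule.coe_add, Submodule.coe_smul, Submodule.coe_smul]
      nth_rw 1 [hz]
      module
    obtain ⟨x0, hx0K, hx0t⟩ := hslice t ht
    have hCne : C.Nonempty := ⟨_, hmemC x0 hx0K hx0t⟩
    have hwide : WideGE C (τ t * G) := by
      intro n hn
      have hnD : (n : Sp) ∈ Dirs := ⟨hn, inner_Wp n⟩
      obtain ⟨x, hx, y, hy, hxy⟩ := hFmem (n : Sp)
      set l := τ t with hl
      have hl0 : 0 ≤ l := div_nonneg (le_min (by linarith [ht.1]) (by linarith [ht.2])) (by linarith)
      have hl1 : l ≤ 1 := by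
        rw [hl, hτ]
        exact (div_le_one (by linarith)).mpr (by
          linarith [min_le_left (t - a) (b - t), min_le_right (t - a) (b - t)])
      -- an end point `e` with `t` between its height and the middle
      obtain ⟨e, he, hte⟩ : ∃ e ∈ K, (1 - l) * ⟪v, e⟫ + l * c = t := by
        have hd : (b - a) / 2 ≠ 0 := by linarith
        rcases le_total t c with h | h
        · refine ⟨pa, hpa, ?_⟩
          have : min (t - a) (b - t) = t - a := min_eq_left (by rw [hcdef] at h; linarith)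
          rw [hl, hτ, ← ha]; simp only []; rw [this, hcdef]
          linear_combination (div_mul_cancel₀ (t - a) hd)
        · refine ⟨pb, hpb, ?_⟩
          have : min (t - a) (b - t) = b - t := min_eq_right (by rw [hcdef] at h; linarith)
          rw [hl, hτ, ← hb]; simp only []; rw [this, hcdef]
          linear_combination -(div_mul_cancel₀ (b - t) hd)
      have mem : ∀ z ∈ Kc, pr v ((1 - l) • e + l • z) ∈ C := fun z hz =>
        hmemC _ (hK he hz.1 (by linarith) hl0 (by ring)) (by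
          rw [inner_add_right, inner_smul_right, inner_smul_right, hz.2]; exact hte)
      refine ⟨_, mem x hx, _, mem y hy, ?_⟩
      have hi : ∀ z : Sp, ⟪n, pr v z⟫ = ⟪(n : Sp), z⟫ := fun z => by
        rw [Submodule.coe_inner]
        conv_rhs => rw [← pr_decomp hv z, inner_add_right, inner_smul_right, real_inner_comm v (n : Sp)]
        rw [inner_Wp]; ring
      rw [← map_sub, hi]
      have e2 : (1 - l) • e + l • x - ((1 - l) • e + l • y) = l • (x - y) := by module
      rw [e2, inner_smul_right, hxy]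
      exact mul_le_mul_of_nonneg_left (hmin hnD) hl0
    refine bang_sets hCv hCc hCne hwide
      (fun i => (⟨nn i, Submodule.mem_orthogonal_singleton_iff_inner_right.mpr (hnv i)⟩ : Wp v))
      (fun i => hn1 i)
      (fun i => sec hv (hn1 i) (hnv i) (huv i) (hnu i) (toMeasurable volume (B i)) t) fun z hz => ?_
    obtain ⟨i, hzi⟩ := mem_iUnion.mp (hcov hz)
    refine ⟨i, ?_⟩
    show planeMap hv (hn1 i) (hnv i) (huv i) (hnu i) (WithLp.toLp 2 (t, ⟪nn i, (z : Sp)⟫))
      ∈ toMeasurable volume (B i)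
    rw [mem_preimage, pr_coords (hu i) hv (hn1 i) (hnv i) (huv i) (hnu i)] at hzi
    have e1 : ⟪v, (z : Sp) + t • v⟫ = t := by
      rw [inner_add_right, inner_smul_right, inner_Wp, inner_self_unit hv]; ring
    have e2 : ⟪nn i, (z : Sp) + t • v⟫ = ⟪nn i, (z : Sp)⟫ := by
      rw [inner_add_right, inner_smul_right, real_inner_comm v (nn i), hnv i]; ring
    rw [e1, e2] at hzi
    exact subset_toMeasurable _ _ hzi
  have hτi : ∫ t in a..b, τ t * G = G * (b - a) / 2 := by
    have hτc : Continuous fun t => τ t * G := by simp only [hτ]; fun_prop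
    have hd : b - a ≠ 0 := by linarith
    rw [← intervalIntegral.integral_add_adjacent_intervals (b := c) (hτc.intervalIntegrable _ _)
      (hτc.intervalIntegrable _ _)]
    have e1 : ∫ t in a..c, τ t * G = ∫ t in a..c, (2 * G / (b - a)) * (t - a) := by
      refine intervalIntegral.integral_congr fun t ht => ?_
      rw [uIcc_of_le (by linarith)] at ht
      simp only [hτ]
      rw [min_eq_left (by linarith [ht.2]), div_div_eq_mul_div]; ring
    have e2 : ∫ t in c..b, τ t * G = ∫ t in c..b, (2 * G / (b - a)) * (b - t) := by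
      refine intervalIntegral.integral_congr fun t ht => ?_
      rw [uIcc_of_le (by linarith)] at ht
      simp only [hτ]
      rw [min_eq_right (by linarith [ht.1]), div_div_eq_mul_div]; ring
    rw [e1, e2, intervalIntegral.integral_const_mul, intervalIntegral.integral_const_mul,
      intervalIntegral.integral_comp_sub_right (fun t => t) a,
      intervalIntegral.integral_comp_sub_left (fun t => t) b]
    simp only [integral_id, hcdef]
    field_simp
    ring
  have hlower : ENNReal.ofReal (G * (b - a)) ≤ 2 * ∑ i, volume (B i) := by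
    have h0 : ENNReal.ofReal (G * (b - a) / 2) ≤ ∑ i, volume (B i) := by
      have hτn : ∀ t ∈ Ioc a b, 0 ≤ τ t * G := fun t ht =>
        mul_nonneg (div_nonneg (le_min (by linarith [ht.1]) (by linarith [ht.2])) (by linarith)) hG0
      have hτc : Continuous fun t => τ t * G := by simp only [hτ]; fun_prop
      rw [← hτi, intervalIntegral.integral_of_le hab.le,
        ofReal_integral_eq_lintegral_ofReal hτc.integrableOn_Ioc (ae_restrict_of_forall_mem measurableSet_Ioc hτn)]
      calc ∫⁻ t in Ioc a b, ENNReal.ofReal (τ t * G)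
          ≤ ∫⁻ t in Ioc a b, ∑ i, volume (sec hv (hn1 i) (hnv i) (huv i) (hnu i) (toMeasurable volume (B i)) t) :=
            setLIntegral_mono' measurableSet_Ioc fun t ht => hsections t ⟨ht.1.le, ht.2⟩
        _ ≤ ∫⁻ t, ∑ i, volume (sec hv (hn1 i) (hnv i) (huv i) (hnu i) (toMeasurable volume (B i)) t) :=
            setLIntegral_le_lintegral _ _
        _ = ∑ i, ∫⁻ t, volume (sec hv (hn1 i) (hnv i) (huv i) (hnu i) (toMeasurable volume (B i)) t) :=
            lintegral_finsetSum _ fun i _ => measurable_measure_prodMk_left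
              ((measurableSet_toMeasurable volume (B i)).preimage
                ((planeMap hv (hn1 i) (hnv i) (huv i) (hnu i)).continuous.comp
                  (WithLp.prod_continuous_toLp 2 ℝ ℝ)).measurable)
        _ = _ := Finset.sum_congr rfl fun i _ => by
            rw [← plane_area (hu i) hv (hn1 i) (hnv i) (huv i) (hnu i) (measurableSet_toMeasurable _ _),
              measure_toMeasurable]
    calc ENNReal.ofReal (G * (b - a)) = 2 * ENNReal.ofReal (G * (b - a) / 2) := by
          rw [← ENNReal.ofReal_ofNat, ← ENNReal.ofReal_mul (by norm_num)]; congr 1; ring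
      _ ≤ _ := mul_le_mul_right h0 _
  exact hupper.trans hlower

end

end Vale.Agent.P243.Coplanar
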