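import Mathlib
import Vale.Agent.P243.Position

open MeasureTheory Set
open scoped Pointwise Topology

namespace Vale.Agent.P243

noncomputable section

variable {K : Set Sp}

/-- Second difference of the gauge of `K`. -/
def sdiff (K : Set Sp) (h x : Sp) : ℝ := gauge K (x + h) + gauge K (x - h) - 2 * gauge K x

namespace Pos

variable (P : Pos K)

theorem comb_mem (μ : Fin 3 → ℝ) (h : ∑ i, |μ i| ≤ 1) : ∑ i, μ i • P.e i ∈ K := by
  have h0 : (0 : Sp) ∈ K := by
    have := P.convex (P.pmem 0) (P.nmem 0) (by norm_num : (0:ℝ) ≤ 1/2) (by norm_num : (0:ℝ) ≤ 1/2)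
      (by norm_num)
    simpa using this
  let z : Option (Fin 3) → Sp := fun o => o.elim 0 (fun i => if 0 ≤ μ i then P.e i else -P.e i)
  let w : Option (Fin 3) → ℝ := fun o => o.elim (1 - ∑ i, |μ i|) (fun i => |μ i|)
  have hm := P.convex.sum_mem (t := Finset.univ) (w := w) (z := z)
    (fun o _ => by cases o <;> simp [w, h])
    (by simp [w, Fintype.sum_option])
    (fun o _ => by
      cases o with
      | none => simpa [z] using h0
      | some i => by_cases hi : 0 ≤ μ i <;> simp [z, hi, P.pmem i, P.nmem i])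
  convert hm using 1
  simp only [Fintype.sum_option, w, z, Option.elim_none, Option.elim_some, smul_zero, zero_add]
  refine Finset.sum_congr rfl fun i _ => ?_
  by_cases hi : 0 ≤ μ i
  · simp [hi, abs_of_nonneg hi]
  · simp [hi, abs_of_neg (not_le.mp hi)]

theorem mem_nhds_zero (P : Pos K) : K ∈ 𝓝 (0 : Sp) := by
  have hc : Continuous fun x : Sp => ∑ i, |P.e.repr x i| := by
    refine continuous_finsetSum _ fun i _ => ?_
    exact ((P.e.coord i).continuous_of_finiteDimensional).abs
  refine Filter.mem_of_superset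
    ((isOpen_lt hc continuous_const).mem_nhds (x := (0:Sp)) (by simp : _ < (1:ℝ))) ?_
  intro x hx
  have h := P.comb_mem (fun i => P.e.repr x i) (le_of_lt hx)
  rwa [P.e.sum_repr] at h

theorem absorbent (P : Pos K) : Absorbent ℝ K := absorbent_nhds_zero P.mem_nhds_zero

theorem continuous_G (P : Pos K) : Continuous (gauge K) :=
  continuous_gauge P.convex P.mem_nhds_zero

theorem G_le_one (P : Pos K) {x : Sp} : gauge K x ≤ 1 ↔ x ∈ K := by
  rw [gauge_le_one_iff_mem_closure P.convex P.mem_nhds_zero, P.compact.isClosed.closure_eq]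

theorem G_add (P : Pos K) (x y : Sp) : gauge K (x + y) ≤ gauge K x + gauge K y :=
  gauge_add_le P.convex P.absorbent x y

theorem G_smul {t : ℝ} (ht : 0 ≤ t) (x : Sp) : gauge K (t • x) = t * gauge K x := by
  rw [gauge_smul_of_nonneg ht, smul_eq_mul]

theorem G_le_repr (P : Pos K) (x : Sp) : gauge K x ≤ ∑ i, |P.e.repr x i| := by
  rcases eq_or_lt_of_le (Finset.sum_nonneg fun i _ => abs_nonneg (P.e.repr x i) :
      0 ≤ ∑ i, |P.e.repr x i|) with h | h
  · have hx : x = 0 := by
      have : ∀ i, P.e.repr x i = 0 := fun i => by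
        have := (Finset.sum_eq_zero_iff_of_nonneg fun i _ => abs_nonneg _).mp h.symm i (Finset.mem_univ _)
        simpa using this
      rw [← P.e.sum_repr x]; simp [this]
    simp [hx]
  · refine gauge_le_of_mem h.le ?_
    refine ⟨(∑ i, |P.e.repr x i|)⁻¹ • x, ?_, by
      simp only; rw [smul_smul, mul_inv_cancel₀ h.ne', one_smul]⟩
    have hm := P.comb_mem (fun i => (∑ j, |P.e.repr x j|)⁻¹ * P.e.repr x i) (by
      simp only [abs_mul, abs_inv, abs_of_pos h]
      rw [← Finset.mul_sum, inv_mul_cancel₀ h.ne'])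
    simp only [mul_smul, ← Finset.smul_sum, P.e.sum_repr] at hm
    exact hm

theorem repr_diff (P : Pos K) {x y : Sp} (hx : x ∈ K) (hy : y ∈ K) :
    ∑ i, |P.e.repr (x - y) i| ≤ 30 := by
  calc ∑ i, |P.e.repr (x - y) i| ≤ ∑ i, (|P.e.repr x i| + |P.e.repr y i|) :=
        Finset.sum_le_sum fun i _ => by simp only [map_sub, Finsupp.sub_apply]; exact abs_sub _ _
    _ ≤ 30 := by rw [Finset.sum_add_distrib]; linarith [P.bound x hx, P.bound y hy]

theorem G_e (P : Pos K) (i : Fin 3) : gauge K (P.e i) ≤ 1 ∧ gauge K (-P.e i) ≤ 1 :=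
  ⟨P.G_le_one.mpr (P.pmem i), P.G_le_one.mpr (P.nmem i)⟩

theorem sdiff_nonneg (P : Pos K) (h x : Sp) : 0 ≤ sdiff K h x := by
  have h1 := P.G_add (x + h) (x - h)
  have h2 : (x + h) + (x - h) = (2:ℝ) • x := by module
  rw [h2, G_smul (by norm_num)] at h1
  simp only [sdiff]; linarith

theorem G_smul_e (P : Pos K) {t : ℝ} (ht : 0 ≤ t) (i : Fin 3) :
    gauge K (t • P.e i) ≤ t ∧ gauge K (-(t • P.e i)) ≤ t := by
  rw [← smul_neg, G_smul ht, G_smul ht]
  exact ⟨mul_le_of_le_one_right ht (P.G_e i).1, mul_le_of_le_one_right ht (P.G_e i).2⟩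

/-- Sum of the three second differences at scale `τ`. -/
def S (P : Pos K) (τ : ℝ) (x : Sp) : ℝ := ∑ i, sdiff K (τ • P.e i) x

theorem S_nonneg (P : Pos K) (τ : ℝ) (x : Sp) : 0 ≤ P.S τ x :=
  Finset.sum_nonneg fun _ _ => P.sdiff_nonneg _ _

theorem continuous_S (P : Pos K) (τ : ℝ) : Continuous (P.S τ) := by
  refine continuous_finsetSum _ fun i _ => ?_
  have := P.continuous_G
  unfold sdiff
  fun_prop

theorem sdiff_smul_le (P : Pos K) {s : ℝ} (hs0 : 0 ≤ s) (hs1 : s ≤ 1) (h x : Sp) :
    gauge K (x + s • h) ≤ (1 - s) * gauge K x + s * gauge K (x + h) := by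
  have e : x + s • h = (1 - s) • x + s • (x + h) := by module
  rw [e]
  calc _ ≤ gauge K ((1 - s) • x) + gauge K (s • (x + h)) := P.G_add _ _
    _ = _ := by rw [G_smul (by linarith), G_smul hs0]

theorem sdiff_mono (P : Pos K) {s : ℝ} (hs0 : 0 ≤ s) (hs1 : s ≤ 1) (h x : Sp) :
    sdiff K (s • h) x ≤ s * sdiff K h x := by
  have h1 := P.sdiff_smul_le hs0 hs1 h x
  have h2 := P.sdiff_smul_le hs0 hs1 (-h) x
  simp only [smul_neg, ← sub_eq_add_neg] at h2
  simp only [sdiff]; linarith

/-- Cross-polytope domination. -/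
theorem sdiff_le_S (P : Pos K) {τ : ℝ} (μ : Fin 3 → ℝ) (hμ : ∑ i, |μ i| ≤ 1) (x : Sp) :
    sdiff K (∑ i, μ i • (τ • P.e i)) x ≤ P.S τ x := by
  let d : Fin 3 → Sp := fun i => if 0 ≤ μ i then τ • P.e i else -(τ • P.e i)
  have hd : ∀ i, sdiff K (d i) x = sdiff K (τ • P.e i) x := by
    intro i; by_cases h : 0 ≤ μ i <;> simp [d, h, sdiff, sub_eq_add_neg, add_comm]
  have hh : ∑ i, μ i • (τ • P.e i) = ∑ i, |μ i| • d i := Finset.sum_congr rfl fun i _ => by
    by_cases h : 0 ≤ μ i
    · simp [d, h, abs_of_nonneg h]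
    · simp [d, h, abs_of_neg (not_le.mp h)]
  rw [Fin.sum_univ_three] at hμ
  rw [hh, S, Fin.sum_univ_three, Fin.sum_univ_three]
  set a := |μ 0| with ha
  set b := |μ 1| with hb
  set c := |μ 2| with hc
  have a0 : 0 ≤ a := abs_nonneg _
  have b0 : 0 ≤ b := abs_nonneg _
  have c0 : 0 ≤ c := abs_nonneg _
  have key : ∀ p q r : Sp, gauge K (x + (a • p + b • q + c • r)) ≤
      (1 - a - b - c) * gauge K x + a * gauge K (x + p) + b * gauge K (x + q) + c * gauge K (x + r) := by
    intro p q r
    have e : x + (a • p + b • q + c • r)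
        = (((1 - a - b - c) • x + a • (x + p)) + b • (x + q)) + c • (x + r) := by module
    rw [e]
    refine (P.G_add _ _).trans ?_
    rw [G_smul c0]
    refine add_le_add ((P.G_add _ _).trans ?_) le_rfl
    rw [G_smul b0]
    refine add_le_add ((P.G_add _ _).trans ?_) le_rfl
    rw [G_smul a0, G_smul (by linarith)]
  have k1 := key (d 0) (d 1) (d 2)
  have k2 := key (-d 0) (-d 1) (-d 2)
  have e2 : x + (a • -d 0 + b • -d 1 + c • -d 2) = x - (a • d 0 + b • d 1 + c • d 2) := by module
  rw [e2, ← sub_eq_add_neg, ← sub_eq_add_neg, ← sub_eq_add_neg] at k2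
  have g0 := mul_le_of_le_one_left (P.sdiff_nonneg (d 0) x) (by linarith : a ≤ 1)
  have g1 := mul_le_of_le_one_left (P.sdiff_nonneg (d 1) x) (by linarith : b ≤ 1)
  have g2 := mul_le_of_le_one_left (P.sdiff_nonneg (d 2) x) (by linarith : c ≤ 1)
  rw [← hd 0, ← hd 1, ← hd 2]
  simp only [sdiff] at g0 g1 g2 ⊢
  linarith

theorem S_lip (P : Pos K) (τ : ℝ) {x y : Sp} {r : ℝ} (h1 : gauge K (x - y) ≤ r)
    (h2 : gauge K (y - x) ≤ r) : P.S τ x ≤ P.S τ y + 12 * r := by
  have h : ∀ h : Sp, sdiff K h x ≤ sdiff K h y + 4 * r := by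
    intro h
    have a1 := P.G_add (y + h) (x - y)
    have a2 := P.G_add (y - h) (x - y)
    have a3 := P.G_add x (y - x)
    rw [show y + h + (x - y) = x + h by abel] at a1
    rw [show y - h + (x - y) = x - h by abel] at a2
    rw [show x + (y - x) = y by abel] at a3
    simp only [sdiff]; linarith
  calc P.S τ x ≤ ∑ i, (sdiff K (τ • P.e i) y + 4 * r) := Finset.sum_le_sum fun i _ => h _
    _ = _ := by rw [Finset.sum_add_distrib]; simp [S]; ring

theorem measurable_K (P : Pos K) : MeasurableSet K := P.compact.isClosed.measurableSet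

theorem vol_ne_top (P : Pos K) : volume K ≠ ⊤ := P.compact.measure_lt_top.ne

theorem vol_shift_diff (P : Pos K) {τ : ℝ} (hτ : 0 ≤ τ) (hτ1 : τ ≤ 1 / 10) (i : Fin 3) :
    volume.real ((fun x => x + τ • P.e i) ⁻¹' K \ K) ≤ 4 * τ * volume.real K ∧
    volume.real (K \ (fun x => x + τ • P.e i) ⁻¹' K) ≤ 4 * τ * volume.real K := by
  set T := (fun x => x + τ • P.e i) ⁻¹' K with hT
  have hTm : MeasurableSet T := P.measurable_K.preimage (by fun_prop)
  have hTv : volume T = volume K := measure_preimage_add_right _ _ _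
  have hKs : K ⊆ (1 + τ) • K := by
    intro x hx
    refine ⟨(1 + τ)⁻¹ • x, ?_, by simp only; rw [smul_smul, mul_inv_cancel₀ (by linarith), one_smul]⟩
    exact P.G_le_one.mp (by
      rw [G_smul (by positivity)]
      calc (1 + τ)⁻¹ * gauge K x ≤ 1 * 1 := mul_le_mul (inv_le_one_of_one_le₀ (by linarith))
            (P.G_le_one.mpr hx) (gauge_nonneg _) zero_le_one
        _ = 1 := one_mul 1)
  have hTs : T ⊆ (1 + τ) • K := by
    intro x hx
    have hg : gauge K x ≤ 1 + τ := by
      have h := P.G_add (x + τ • P.e i) (-(τ • P.e i))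
      rw [add_neg_cancel_right] at h
      linarith [P.G_le_one.mpr hx, (P.G_smul_e hτ i).2]
    refine ⟨(1 + τ)⁻¹ • x, P.G_le_one.mp ?_, by
      simp only; rw [smul_smul, mul_inv_cancel₀ (by linarith), one_smul]⟩
    rw [G_smul (by positivity), inv_mul_le_iff₀ (by linarith)]
    linarith
  have hb : volume.real ((1 + τ) • K \ K) ≤ 4 * τ * volume.real K := by
    rw [measureReal_sdiff hKs P.measurable_K (by
      rw [Measure.addHaar_smul]; exact ENNReal.mul_ne_top ENNReal.ofReal_ne_top P.vol_ne_top)]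
    rw [measureReal_def, Measure.addHaar_smul, ENNReal.toReal_mul, finrank_euclideanSpace_fin,
      ENNReal.toReal_ofReal (abs_nonneg _), abs_of_nonneg (by positivity), ← measureReal_def]
    have : (1 + τ) ^ 3 - 1 ≤ 4 * τ := by nlinarith [mul_le_mul_of_nonneg_left hτ1 hτ, mul_le_mul_of_nonneg_left hτ1 (mul_nonneg hτ hτ)]
    nlinarith [measureReal_nonneg (μ := volume) (s := K)]
  have h1 : volume.real (T \ K) ≤ 4 * τ * volume.real K :=
    (measureReal_mono (sdiff_subset_sdiff_left hTs) (ne_top_of_le_ne_top (by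
      rw [Measure.addHaar_smul]; exact ENNReal.mul_ne_top ENNReal.ofReal_ne_top P.vol_ne_top)
      (measure_mono sdiff_subset))).trans hb
  refine ⟨h1, ?_⟩
  have e1 := measureReal_inter_add_sdiff (μ := volume) (s := T) P.measurable_K (by rw [hTv]; exact P.vol_ne_top)
  have e2 := measureReal_inter_add_sdiff (μ := volume) (s := K) hTm P.vol_ne_top
  have e3 : volume.real T = volume.real K := by rw [measureReal_def, hTv, ← measureReal_def]
  rw [inter_comm] at e2
  linarith

theorem integral_S_le (P : Pos K) {τ : ℝ} (hτ : 0 ≤ τ) (hτ1 : τ ≤ 1 / 10) :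
    ∫ x in K, P.S τ x ≤ 24 * τ ^ 2 * volume.real K := by
  have hG := P.continuous_G
  have hint : ∀ f : Sp → ℝ, Continuous f → IntegrableOn f K :=
    fun f hf => hf.continuousOn.integrableOn_compact P.compact
  have key : ∀ i, ∫ x in K, sdiff K (τ • P.e i) x ≤ 8 * τ ^ 2 * volume.real K := by
    intro i
    set h := τ • P.e i with hh
    let D : Sp → ℝ := fun x => gauge K (x + h) - gauge K x
    have hDc : Continuous D := by simp only [D]; fun_prop
    have hD : ∀ x, |D x| ≤ τ := by
      intro x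
      have a1 := P.G_add x h
      have a2 := P.G_add (x + h) (-h)
      rw [add_neg_cancel_right] at a2
      rw [abs_le]
      constructor <;> simp only [D] <;> linarith [(P.G_smul_e hτ i).1, (P.G_smul_e hτ i).2]
    set T := (fun x => x + h) ⁻¹' K with hT
    have hTm : MeasurableSet T := P.measurable_K.preimage (by fun_prop)
    have hTc : IsCompact T := (Homeomorph.addRight h).isCompact_preimage.mpr P.compact
    have e0 : ∀ x, sdiff K h x = D x - D (x - h) := by intro x; simp [sdiff, D]; ring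
    have e1 : ∫ x in T, D x = ∫ x in K, D (x - h) := by
      have := (measurePreserving_add_right (volume : Measure Sp) h).setIntegral_preimage_emb
        (measurableEmbedding_addRight h) (fun x => D (x - h)) K
      simpa [hT] using this
    have iT : IntegrableOn D T := hDc.continuousOn.integrableOn_compact hTc
    have sK := integral_inter_add_sdiff (μ := volume) (f := D) hTm (hint D hDc)
    have sT := integral_inter_add_sdiff (μ := volume) (f := D) P.measurable_K iT
    rw [inter_comm] at sT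
    have b1 : |∫ x in K \ T, D x| ≤ τ * volume.real (K \ T) := by
      rw [← Real.norm_eq_abs]
      exact norm_setIntegral_le_of_norm_le_const (μ := volume)
        (lt_of_le_of_lt (measure_mono sdiff_subset) P.compact.measure_lt_top) (fun x _ => (Real.norm_eq_abs _).le.trans (hD x))
    have b2 : |∫ x in T \ K, D x| ≤ τ * volume.real (T \ K) := by
      rw [← Real.norm_eq_abs]
      exact norm_setIntegral_le_of_norm_le_const (μ := volume)
        (lt_of_le_of_lt (measure_mono sdiff_subset) hTc.measure_lt_top) (fun x _ => (Real.norm_eq_abs _).le.trans (hD x))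
    rw [abs_le] at b1 b2
    have v := P.vol_shift_diff hτ hτ1 i
    rw [setIntegral_congr_fun P.measurable_K (fun x _ => e0 x),
      integral_sub (hint D hDc) (hint _ (by fun_prop)), ← e1]
    have m1 := mul_le_mul_of_nonneg_left v.2 hτ
    have m2 := mul_le_mul_of_nonneg_left v.1 hτ
    linarith [b1.2, b2.1]
  unfold S
  rw [integral_finsetSum _ fun i _ => hint _ (by unfold sdiff; fun_prop), Fin.sum_univ_three]
  linarith [key 0, key 1, key 2]

/-- A thin shell below the boundary. -/
def shell (K : Set Sp) (q : ℝ) : Set Sp := {x | q < gauge K x ∧ gauge K x ≤ 1}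

theorem measurable_shell (P : Pos K) (q : ℝ) : MeasurableSet (shell K q) :=
  (measurableSet_lt measurable_const P.continuous_G.measurable).inter
    (measurableSet_le P.continuous_G.measurable measurable_const)

theorem integral_shell_le (P : Pos K) {τ : ℝ} (hτ : 0 ≤ τ) (hτ1 : τ ≤ 1 / 10) {N : ℕ} (hN : 0 < N) :
    ∫ x in shell K (1 - 1 / (2 * N)), P.S τ x ≤ 384 * τ ^ 2 / N * volume.real K := by
  have hN' : (1:ℝ) ≤ N := by exact_mod_cast hN
  set q : ℝ := 1 - 1 / (2 * N) with hq
  have hq0 : 0 < q := by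
    have : 1 / (2 * (N:ℝ)) ≤ 1 / 2 := by
      apply div_le_div_of_nonneg_left (by norm_num) (by norm_num); linarith
    linarith
  have hq1 : q < 1 := by
    have : 0 < 1 / (2 * (N:ℝ)) := by positivity
    linarith
  have hqk : ∀ k ≤ N, 1 / 2 ≤ q ^ k := by
    intro k hk
    have hb := one_add_mul_le_pow (a := -(1 / (2 * (N:ℝ)))) (by linarith) N
    have : (1:ℝ) + N * -(1 / (2 * N)) = 1 / 2 := by field_simp; ring
    rw [this, ← sub_eq_add_neg, ← hq] at hb
    exact hb.trans (pow_le_pow_of_le_one hq0.le hq1.le hk)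
  let A : ℕ → Set Sp := fun k => {x | q ^ (k + 1) < gauge K x ∧ gauge K x ≤ q ^ k}
  have hAm : ∀ k, MeasurableSet (A k) := fun k =>
    (measurableSet_lt measurable_const P.continuous_G.measurable).inter
      (measurableSet_le P.continuous_G.measurable measurable_const)
  have hAs : ∀ k, A k = q ^ k • shell K q := by
    intro k
    have hk : 0 < q ^ k := pow_pos hq0 k
    ext x
    rw [mem_smul_set_iff_inv_smul_mem₀ hk.ne']
    simp only [A, shell, mem_ofPred_eq, G_smul (inv_nonneg.mpr hk.le)]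
    rw [lt_inv_mul_iff₀ hk, inv_mul_le_iff₀ hk, mul_one, pow_succ]
  have hK : ∀ k, A k ⊆ K := fun k x hx => P.G_le_one.mp (hx.2.trans (pow_le_one₀ hq0.le hq1.le))
  have hi : ∀ s ⊆ K, IntegrableOn (P.S τ) s :=
    fun s hs => ((P.continuous_S τ).continuousOn.integrableOn_compact P.compact).mono_set hs
  have hsh : shell K q ⊆ K := fun x hx => P.G_le_one.mp hx.2
  have step : ∀ k < N, (1/16 : ℝ) * ∫ x in shell K q, P.S τ x ≤ ∫ x in A k, P.S τ x := by
    intro k hk
    set μ := q ^ k with hμ
    have hμ1 : 1/2 ≤ μ := hqk k hk.le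
    have hμ2 : μ ≤ 1 := pow_le_one₀ hq0.le hq1.le
    have e := Measure.setIntegral_comp_smul_of_pos (volume : Measure Sp) (P.S τ) (shell K q)
      (show 0 < μ by linarith)
    rw [finrank_euclideanSpace_fin, smul_eq_mul, ← hAs] at e
    have le1 : ∀ x, μ * P.S τ x ≤ P.S τ (μ • x) := by
      intro x
      simp only [S, Finset.mul_sum]
      refine Finset.sum_le_sum fun i _ => ?_
      have h1 := P.sdiff_mono (s := μ) (by linarith) hμ2 (μ⁻¹ • τ • P.e i) x
      rw [smul_smul, mul_inv_cancel₀ (by linarith : μ ≠ 0), one_smul] at h1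
      have e2 : sdiff K (τ • P.e i) (μ • x) = μ * sdiff K (μ⁻¹ • τ • P.e i) x := by
        simp only [sdiff]
        rw [show μ • x + τ • P.e i = μ • (x + μ⁻¹ • τ • P.e i) by
            rw [smul_add, smul_smul μ μ⁻¹, mul_inv_cancel₀ (by linarith : μ ≠ 0), one_smul],
          show μ • x - τ • P.e i = μ • (x - μ⁻¹ • τ • P.e i) by
            rw [smul_sub, smul_smul μ μ⁻¹, mul_inv_cancel₀ (by linarith : μ ≠ 0), one_smul],
          G_smul (by linarith), G_smul (by linarith), G_smul (by linarith)]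
        ring
      rw [e2]
      exact mul_le_mul_of_nonneg_left (h1.trans (mul_le_of_le_one_left (P.sdiff_nonneg _ _) hμ2)) (by linarith)
    have hcont := P.continuous_S τ
    have i2 : IntegrableOn (fun x => P.S τ (μ • x)) (shell K q) :=
      ((hcont.comp (continuous_const_smul μ)).continuousOn.integrableOn_compact P.compact).mono_set hsh
    have le2 : μ * ∫ x in shell K q, P.S τ x ≤ ∫ x in shell K q, P.S τ (μ • x) := by
      rw [← integral_const_mul]
      exact setIntegral_mono_on ((hi _ hsh).const_mul μ) i2 (P.measurable_shell q) (fun x _ => le1 x)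
    rw [e] at le2
    have h0 : 0 ≤ ∫ x in shell K q, P.S τ x :=
      setIntegral_nonneg (P.measurable_shell q) fun x _ => P.S_nonneg τ x
    have h4 : (1/16:ℝ) ≤ μ ^ 3 * μ := by
      have := pow_le_pow_left₀ (by norm_num) hμ1 4
      norm_num at this ⊢
      linarith [show μ ^ 3 * μ = μ ^ 4 by ring]
    calc (1/16 : ℝ) * ∫ x in shell K q, P.S τ x
        ≤ μ ^ 3 * (μ * ∫ x in shell K q, P.S τ x) := by
          rw [← mul_assoc]; exact mul_le_mul_of_nonneg_right h4 h0
      _ ≤ μ ^ 3 * ((μ ^ 3)⁻¹ * ∫ x in A k, P.S τ x) := mul_le_mul_of_nonneg_left le2 (by positivity)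
      _ = _ := by rw [← mul_assoc, mul_inv_cancel₀ (by positivity : μ ^ 3 ≠ 0), one_mul]
  have hdisj : (↑(Finset.range N) : Set ℕ).Pairwise (fun i j => Disjoint (A i) (A j)) := by
    intro i _ j _ hij
    rw [disjoint_left]
    intro x hi hj
    rcases lt_or_gt_of_ne hij with h | h
    · linarith [hi.1, hj.2, pow_le_pow_of_le_one hq0.le hq1.le (show i + 1 ≤ j by omega)]
    · linarith [hj.1, hi.2, pow_le_pow_of_le_one hq0.le hq1.le (show j + 1 ≤ i by omega)]
  have tot : ∑ k ∈ Finset.range N, ∫ x in A k, P.S τ x ≤ ∫ x in K, P.S τ x := by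
    rw [← integral_biUnion_finset _ (fun k _ => hAm k) hdisj (fun k _ => hi _ (hK k))]
    refine setIntegral_mono_set (hi K subset_rfl) (.of_forall fun x => P.S_nonneg τ x) ?_
    exact (Set.iUnion₂_subset fun k _ => hK k).eventuallyLE
  have s1 := (Finset.sum_le_sum fun k hk => step k (Finset.mem_range.mp hk)).trans
    (tot.trans (P.integral_S_le hτ hτ1))
  simp only [Finset.sum_const, Finset.card_range, nsmul_eq_mul] at s1
  rw [div_mul_eq_mul_div, le_div_iff₀ (by linarith)]
  linarith

end Pos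

end

end Vale.Agent.P243
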