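import Mathlib
import Vale.Agent.P243.Gauge
import Vale.Agent.P243.Split

open MeasureTheory Set
open scoped Pointwise RealInnerProductSpace

namespace Vale.Agent.P243

noncomputable section

def th : ℝ := 1 / (62 * 10 ^ 14)
def sg : ℝ := 720 * th
def ta : ℝ := 10000 * sg
def et : ℝ := 45 * th

theorem th_pos : 0 < th := by unfold th; norm_num

variable {K : Set Sp}

namespace Pos

variable {u : Sp}

/-- The weight removed from Lebesgue measure. -/
def wt (P : Pos K) (x : Sp) : ℝ := (shell K (1 - 31 * th)).indicator (fun y => min 1 (P.S ta y / sg)) x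

theorem wt_nonneg (P : Pos K) (x : Sp) : 0 ≤ P.wt x :=
  indicator_nonneg (fun y _ => le_min zero_le_one
    (div_nonneg (P.S_nonneg _ _) (by unfold sg; linarith [th_pos]))) x

theorem measurable_wt (P : Pos K) : Measurable P.wt :=
  (measurable_const.min ((P.continuous_S _).measurable.div_const _)).indicator (P.measurable_shell _)

/-- Longest chord in direction `u` and a functional supporting both of its ends. -/
theorem exists_chord_functional (P : Pos K) (hu : ‖u‖ = 1) : ∃ (L : ℝ) (φ : Sp →L[ℝ] ℝ),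
    0 < L ∧ 0 < φ u ∧ (∀ x ∈ K, ∀ t : ℝ, x + t • u ∈ K → t ≤ L) ∧
      (∃ x ∈ K, x + L • u ∈ K) ∧ ∀ x ∈ K, ∀ y ∈ K, φ x - φ y ≤ L * φ u := by
  have hint : (0 : Sp) ∈ interior K := mem_interior_iff_mem_nhds.mpr P.mem_nhds_zero
  obtain ⟨R, hR⟩ := P.compact.isBounded.exists_norm_le
  let T := {p : Sp × ℝ | p.1 ∈ K ∧ p.1 + p.2 • u ∈ K}
  have hT : IsCompact T := by
    refine (P.compact.prod (isCompact_Icc (a := -(2 * R)) (b := 2 * R))).of_isClosed_subset ?_ ?_
    · exact (P.compact.isClosed.preimage continuous_fst).inter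
        (P.compact.isClosed.preimage (by fun_prop : Continuous fun p : Sp × ℝ => p.1 + p.2 • u))
    · rintro ⟨x, t⟩ ⟨h1, h2⟩
      refine ⟨h1, abs_le.mp ?_⟩
      have h := norm_sub_le (x + t • u) x
      rw [add_sub_cancel_left, norm_smul, hu, mul_one, Real.norm_eq_abs] at h
      linarith [hR _ h1, hR _ h2]
  obtain ⟨⟨x0, L⟩, hxL, hmax⟩ := hT.exists_isMaxOn
    ⟨((0:Sp), (0:ℝ)), by simp [T, interior_subset hint]⟩ continuous_snd.continuousOn
  have hmaxL : ∀ x ∈ K, ∀ t : ℝ, x + t • u ∈ K → t ≤ L := fun x hx t ht => hmax (a := (x, t)) ⟨hx, ht⟩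
  have longer : ∀ x ∈ interior K, ∀ t : ℝ, x + t • u ∈ interior K → t < L := by
    intro x hx t ht
    have hc : Continuous fun s : ℝ => x + s • u := by fun_prop
    obtain ⟨d, hd, hball⟩ := Metric.isOpen_iff.mp (isOpen_interior.preimage hc) t ht
    have := hmaxL x (interior_subset hx) (t + d / 2) (interior_subset (s := K)
      (hball (by simp [abs_of_pos hd]; linarith)))
    linarith
  have hLpos : 0 < L := longer 0 hint 0 (by simpa using hint)
  let A' := (fun y => y + L • u) ⁻¹' interior K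
  have hA'c : Convex ℝ A' := by
    intro a ha b hb w1 w2 h1 h2 h
    simp only [A', mem_preimage] at *
    convert P.convex.interior ha hb h1 h2 h using 1
    have hz : L • u = (w1 + w2) • (L • u) := by rw [h, one_smul]
    nth_rw 1 [hz]
    module
  have hd : Disjoint (interior K) A' :=
    disjoint_left.mpr fun x hx hx' => lt_irrefl L (longer x hx L hx')
  obtain ⟨f, c, hf1, hf2⟩ := geometric_hahn_banach_open_open P.convex.interior isOpen_interior hA'c
    (isOpen_interior.preimage (by fun_prop)) hd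
  have hint2 : ∀ x ∈ interior K, ∀ y ∈ interior K, f x < f y - L * f u := by
    intro x hx y hy
    have h2 := hf2 (y - L • u) (by simpa [A'] using hy)
    rw [map_sub, map_smul, smul_eq_mul] at h2
    linarith [hf1 x hx]
  have hfu : f u < 0 := by
    have := hint2 0 hint 0 hint
    simp only [map_zero, zero_sub] at this
    nlinarith
  refine ⟨L, -f, hLpos, by simpa using hfu, hmaxL, ⟨x0, hxL.1, hxL.2⟩, ?_⟩
  intro x hx y hy
  have hcl : closure (interior K) = K := by
    rw [P.convex.closure_interior_eq_closure_of_nonempty_interior ⟨0, hint⟩, P.compact.isClosed.closure_eq]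
  have hxy : (x, y) ∈ closure (interior K ×ˢ interior K) := by
    rw [closure_prod_eq, hcl]; exact ⟨hx, hy⟩
  have hclosed : IsClosed {p : Sp × Sp | (-f) p.1 - (-f) p.2 ≤ L * (-f) u} :=
    isClosed_le (by fun_prop) continuous_const
  refine closure_minimal ?_ hclosed hxy
  rintro ⟨a, b⟩ ⟨ha, hb⟩
  have := hint2 b hb a ha
  simp only [mem_ofPred_eq, neg_apply]
  linarith

/-- A near-maximal chord whose two endpoints are both flat cannot be Rogers–Shephard extremal. -/
theorem flat_ends_bound (P : Pos K) (hu : ‖u‖ = 1) {L ℓ : ℝ} (φ : Sp →L[ℝ] ℝ) (hφu : 0 < φ u)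
    (hL : 0 < L) (hφ : ∀ x ∈ K, ∀ y ∈ K, φ x - φ y ≤ L * φ u)
    (hℓ : (1 - et) * L < ℓ) {a b : Sp} (ha : a ∈ K) (hb : b ∈ K) (hab : a = b + ℓ • u)
    (hSa : P.S ta a ≤ sg) (hSb : P.S ta b ≤ sg) :
    volume.real (pr u '' K) * ℓ ≤ 3 * volume.real K * (1 - th / 2) := by
  have hth := th_pos
  have hℓ0 : 0 < ℓ := by
    have : et < 1 := by unfold et th; norm_num
    nlinarith
  have hint : (0 : Sp) ∈ interior K := mem_interior_iff_mem_nhds.mpr P.mem_nhds_zero
  obtain ⟨xM, hxM, hM⟩ := P.compact.exists_isMaxOn ⟨0, interior_subset hint⟩ φ.continuous.continuousOn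
  obtain ⟨xm, hxm, hm⟩ := P.compact.exists_isMinOn ⟨0, interior_subset hint⟩ φ.continuous.continuousOn
  set M := φ xM with hMdef
  set m := φ xm with hmdef
  have hMle : ∀ x ∈ K, φ x ≤ M := fun x hx => hM hx
  have hmle : ∀ x ∈ K, m ≤ φ x := fun x hx => hm hx
  have hMm : M - m ≤ L * φ u := hφ xM hxM xm hxm
  have hdab : φ a - φ b = ℓ * φ u := by rw [hab]; simp
  have hnear : (1 - et) * (M - m) ≤ ℓ * φ u := by
    have : (0:ℝ) ≤ 1 - et := by unfold et th; norm_num
    calc (1 - et) * (M - m) ≤ (1 - et) * (L * φ u) := mul_le_mul_of_nonneg_left hMm this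
      _ ≤ ℓ * φ u := by rw [← mul_assoc]; exact (mul_lt_mul_of_pos_right hℓ hφu).le
  have he : ∀ i, |φ (P.e i)| ≤ M ∧ |φ (P.e i)| ≤ -m := by
    intro i
    have := hMle _ (P.pmem i); have := hMle _ (P.nmem i)
    have := hmle _ (P.pmem i); have := hmle _ (P.nmem i)
    simp only [map_neg] at *
    constructor <;> rw [abs_le] <;> constructor <;> linarith
  have hbd : ∀ x ∈ K, |φ x| ≤ 15 * M ∧ |φ x| ≤ 15 * -m := by
    intro x hx
    have hM0 : 0 ≤ M := by simpa using hMle 0 (interior_subset hint)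
    have hm0 : 0 ≤ -m := by simpa using hmle 0 (interior_subset hint)
    have h1 : |φ x| ≤ ∑ i, |P.e.repr x i| * |φ (P.e i)| := by
      conv_lhs => rw [← P.e.sum_repr x]
      rw [map_sum]
      refine (Finset.abs_sum_le_sum_abs _ _).trans (le_of_eq ?_)
      simp [abs_mul]
    constructor
    · calc |φ x| ≤ ∑ i, |P.e.repr x i| * M :=
            h1.trans (Finset.sum_le_sum fun i _ => mul_le_mul_of_nonneg_left (he i).1 (abs_nonneg _))
        _ ≤ 15 * M := by rw [← Finset.sum_mul]; exact mul_le_mul_of_nonneg_right (P.bound x hx) hM0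
    · calc |φ x| ≤ ∑ i, |P.e.repr x i| * -m :=
            h1.trans (Finset.sum_le_sum fun i _ => mul_le_mul_of_nonneg_left (he i).2 (abs_nonneg _))
        _ ≤ 15 * -m := by rw [← Finset.sum_mul]; exact mul_le_mul_of_nonneg_right (P.bound x hx) hm0
  have hMpos : 0 < M ∧ 0 < -m := by
    have h1 := (hbd xm hxm).1; have h2 := (hbd xM hxM).2
    rw [abs_le] at h1 h2
    have : 0 < M - m := by linarith [hMle a ha, hmle b hb, mul_pos hℓ0 hφu]
    constructor <;> linarith
  have low : ∀ x : Sp, φ x ≤ M * gauge K x ∧ m * gauge K x ≤ φ x := by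
    intro x
    rcases eq_or_ne (gauge K x) 0 with h | h
    · have hx : x = 0 := (gauge_eq_zero P.absorbent
        (NormedSpace.isVonNBounded_iff ℝ |>.mpr P.compact.isBounded)).mp h
      simp [hx]
    · have hp : 0 < gauge K x := lt_of_le_of_ne (gauge_nonneg _) (Ne.symm h)
      have hmem : (gauge K x)⁻¹ • x ∈ K := P.G_le_one.mp (by
        rw [G_smul (inv_nonneg.mpr hp.le), inv_mul_cancel₀ h])
      have e1 := hMle _ hmem; have e2 := hmle _ hmem
      rw [map_smul, smul_eq_mul] at e1 e2
      rw [inv_mul_le_iff₀ hp] at e1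
      rw [le_inv_mul_iff₀ hp] at e2
      constructor <;> linarith
  have hga : ∀ h : Sp, φ h = 0 → 1 - 16 * et ≤ gauge K (a + h) ∧ 1 - 16 * et ≤ gauge K (b + h) := by
    intro h hh
    have h1 := (low (a + h)).1; have h2 := (low (b + h)).2
    rw [map_add, hh, add_zero] at h1 h2
    have r1 := (hbd xm hxm).1; have r2 := (hbd xM hxM).2
    rw [abs_le] at r1 r2
    have : et * (M - m) ≤ et * (16 * M) := mul_le_mul_of_nonneg_left (by linarith) (by unfold et; linarith)
    have : et * (M - m) ≤ et * (16 * -m) := mul_le_mul_of_nonneg_left (by linarith) (by unfold et; linarith)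
    refine ⟨le_of_mul_le_mul_left (?_ : M * (1 - 16 * et) ≤ M * _) hMpos.1,
      le_of_mul_le_mul_left (?_ : -m * (1 - 16 * et) ≤ -m * _) hMpos.2⟩ <;>
      linarith [hMle a ha, hmle b hb]
  let lam : Fin 3 → ℝ := fun i => φ (P.e i) / (ℓ * φ u)
  have hlam : ∀ i, |lam i| ≤ 1 := by
    intro i
    simp only [lam]
    rw [abs_div, abs_of_pos (mul_pos hℓ0 hφu), div_le_one (mul_pos hℓ0 hφu)]
    have : et ≤ 1 / 2 := by unfold et th; norm_num
    have : (1/2) * (M - m) ≤ (1 - et) * (M - m) :=
      mul_le_mul_of_nonneg_right (by linarith) (by linarith [hMpos.1, hMpos.2])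
    linarith [(he i).1, (he i).2]
  let h : Fin 3 → Sp := fun i => (ta / 31) • (P.e i - lam i • (ℓ • u))
  have hφh : ∀ i, φ (h i) = 0 := by
    intro i
    simp only [h, lam, map_smul, map_sub, smul_eq_mul]
    rw [div_mul_cancel₀ _ (mul_pos hℓ0 hφu).ne']
    ring
  have hμ : ∀ i, ∑ j, |P.e.repr (P.e i - lam i • (ℓ • u)) j| ≤ 31 := by
    intro i
    have e : ℓ • u = a - b := by rw [hab, add_sub_cancel_left]
    rw [e]
    calc _ ≤ ∑ j, (|P.e.repr (P.e i) j| + |P.e.repr (a - b) j|) := by
          refine Finset.sum_le_sum fun j _ => ?_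
          rw [map_sub, map_smul, Finsupp.sub_apply, Finsupp.smul_apply, smul_eq_mul]
          refine (abs_sub _ _).trans (add_le_add le_rfl ?_)
          rw [abs_mul]
          exact mul_le_of_le_one_left (abs_nonneg _) (hlam i)
      _ ≤ 31 := by
          rw [Finset.sum_add_distrib]
          have h1 : ∑ j, |P.e.repr (P.e i) j| = 1 := by
            simp [Finsupp.single_apply, apply_ite abs]
          linarith [P.repr_diff ha hb]
  have hta : 0 < ta := by unfold ta sg; linarith
  set g := 1 + 2 * sg with hg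
  have hg0 : 0 < g := by rw [hg]; unfold sg; linarith
  have hmem : ∀ i, ∀ c ∈ ({a, b} : Set Sp), g⁻¹ • (c + h i) ∈ K ∧ g⁻¹ • (c - h i) ∈ K := by
    intro i c hc
    have hS : P.S ta c ≤ sg ∧ gauge K c ≤ 1 ∧ 1 - 16 * et ≤ gauge K (c + h i) ∧
        1 - 16 * et ≤ gauge K (c - h i) := by
      have hn : φ (-h i) = 0 := by rw [map_neg, hφh, neg_zero]
      rcases hc with rfl | rfl
      · exact ⟨hSa, P.G_le_one.mpr ha, (hga _ (hφh i)).1, by simpa [sub_eq_add_neg] using (hga _ hn).1⟩
      · exact ⟨hSb, P.G_le_one.mpr hb, (hga _ (hφh i)).2, by simpa [sub_eq_add_neg] using (hga _ hn).2⟩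
    have hd := P.sdiff_le_S (τ := ta) (fun j => P.e.repr (P.e i - lam i • (ℓ • u)) j / 31) (by
      simp only [abs_div]; rw [← Finset.sum_div, div_le_one (by norm_num)]
      simpa using hμ i) c
    have e : ∑ j, (P.e.repr (P.e i - lam i • (ℓ • u)) j / 31) • (ta • P.e j) = h i := by
      simp only [h]
      conv_rhs => rw [← P.e.sum_repr (P.e i - lam i • (ℓ • u)), Finset.smul_sum]
      refine Finset.sum_congr rfl fun j _ => ?_
      simp only [smul_smul]; congr 1; ring
    rw [e] at hd
    simp only [sdiff] at hd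
    have het : 16 * et = sg := by unfold et sg; ring
    constructor <;>
      (apply P.G_le_one.mp; rw [G_smul (inv_nonneg.mpr hg0.le), inv_mul_le_iff₀ hg0]
       linarith [hS.1, hS.2.1, hS.2.2.1, hS.2.2.2])
  -- the homothet of the shadow inside the projection of the long chords
  let z' : Wp u := pr u (g⁻¹ • b)
  let d : Fin 3 → Wp u := fun i => (g⁻¹ * (ta / 31)) • pr u (P.e i)
  let F : Set (Wp u) := pr u '' (K ∩ (fun x => x + (ℓ / g) • u) ⁻¹' K)
  have hFc : Convex ℝ F := by
    refine (P.convex.inter ?_).linear_image (pr u).toLinearMap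
    intro x hx y hy w1 w2 h1 h2 hw
    simp only [mem_preimage] at *
    convert P.convex hx hy h1 h2 hw using 1
    have hz : (ℓ / g) • u = (w1 + w2) • ((ℓ / g) • u) := by rw [hw, one_smul]
    nth_rw 1 [hz]
    module
  have hd : ∀ i, z' + d i ∈ F ∧ z' - d i ∈ F := by
    intro i
    have m1 := hmem i a (by simp)
    have m2 := hmem i b (by simp)
    have e : ∀ w : Sp, g⁻¹ • (b + w) + (ℓ / g) • u = g⁻¹ • (a + w) := by
      intro w; rw [hab, div_eq_inv_mul]; module
    refine ⟨⟨g⁻¹ • (b + h i), ⟨m2.1, ?_⟩, ?_⟩, ⟨g⁻¹ • (b - h i), ⟨m2.2, ?_⟩, ?_⟩⟩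
    · rw [mem_preimage, e]; exact m1.1
    · simp [z', d, h, pr_u, mul_smul]
    · rw [mem_preimage, sub_eq_add_neg, e, ← sub_eq_add_neg]; exact m1.2
    · simp [z', d, h, pr_u, smul_sub, mul_smul]
  set ε := ta / 1860 with hε
  have hz'F : z' ∈ F := by
    have := hFc (hd 0).1 (hd 0).2 (by norm_num : (0:ℝ) ≤ 1/2) (by norm_num : (0:ℝ) ≤ 1/2) (by norm_num)
    convert this using 1; module
  have hF : ∀ p ∈ pr u '' K, ∃ x ∈ K, x + (ℓ / g) • u ∈ K ∧ pr u x = z' + ε • (p - z') := by
    rintro _ ⟨y, hy, rfl⟩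
    have hb' : g⁻¹ • b ∈ K := P.G_le_one.mp (by
      rw [G_smul (inv_nonneg.mpr hg0.le)]
      calc g⁻¹ * gauge K b ≤ 1 * 1 := mul_le_mul (inv_le_one_of_one_le₀ (by rw [hg]; unfold sg; linarith))
            (P.G_le_one.mpr hb) (gauge_nonneg _) zero_le_one
        _ = 1 := one_mul 1)
    let ν : Fin 3 → ℝ := fun j => ε * g * 31 / ta * P.e.repr (y - g⁻¹ • b) j
    have hν : ∑ j, |ν j| ≤ 1 := by
      simp only [ν, abs_mul]
      rw [← Finset.mul_sum]
      have e : |ε * g * 31 / ta| = g / 60 := by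
        rw [abs_of_nonneg (by positivity), hε]; field_simp; ring
      rw [e]
      calc g / 60 * _ ≤ g / 60 * 30 := mul_le_mul_of_nonneg_left (P.repr_diff hy hb') (by linarith)
        _ ≤ 1 := by rw [hg]; unfold sg th; norm_num
    let zz : Option (Fin 3) → Wp u := fun o => o.elim z' (fun i => if 0 ≤ ν i then z' + d i else z' - d i)
    let w : Option (Fin 3) → ℝ := fun o => o.elim (1 - ∑ i, |ν i|) (fun i => |ν i|)
    have hs := hFc.sum_mem (t := Finset.univ) (w := w) (z := zz)
      (fun o _ => by cases o <;> simp [w, hν]) (by simp [w, Fintype.sum_option])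
      (fun o _ => by
        cases o with
        | none => exact hz'F
        | some i => by_cases hi : 0 ≤ ν i <;> simp [zz, hi, (hd i).1, (hd i).2])
    obtain ⟨x, ⟨hx1, hx2⟩, hx3⟩ := hs
    refine ⟨x, hx1, hx2, hx3.trans ?_⟩
    have e1 : ∀ i, |ν i| • zz (some i) = |ν i| • z' + ν i • d i := by
      intro i
      by_cases hi : 0 ≤ ν i
      · simp [zz, hi, abs_of_nonneg hi, smul_add]
      · simp [zz, hi, abs_of_neg (not_le.mp hi), smul_sub]
    simp only [Fintype.sum_option, w, Option.elim_none, Option.elim_some, e1,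
      Finset.sum_add_distrib, ← Finset.sum_smul]
    have e2 : ∑ i, ν i • d i = ε • (pr u y - z') := by
      have e3 : ∀ i, ν i • d i = (ε * P.e.repr (y - g⁻¹ • b) i) • pr u (P.e i) := by
        intro i; simp only [ν, d, smul_smul]; congr 1; field_simp
      simp only [e3, mul_smul, ← Finset.smul_sum, ← map_smul, ← map_sum, P.e.sum_repr]
      simp [z', map_sub]
    rw [e2]
    simp only [zz, Option.elim_none]
    module
  have hRS := shadow_mul_chord_le hu P.convex P.compact (div_nonneg hℓ0.le hg0.le)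
    (by positivity : (0:ℝ) ≤ ε) (by rw [hε]; unfold ta sg th; norm_num) z' hF
  have hcmp : g ≤ (1 - th / 2) * (1 + ε) := by rw [hg, hε]; unfold ta sg th; norm_num
  have hV : 0 ≤ volume.real K := measureReal_nonneg
  have hA : 0 ≤ volume.real (pr u '' K) := measureReal_nonneg
  have e : volume.real (pr u '' K) * (ℓ / g) * (1 + ε) / 3 =
      volume.real (pr u '' K) * ℓ * (1 + ε) / (3 * g) := by field_simp
  rw [e, div_le_iff₀ (by linarith)] at hRS
  refine le_of_mul_le_mul_right (a := 1 + ε) ?_ (by linarith [show 0 ≤ ε by positivity])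
  refine hRS.trans ?_
  calc volume.real K * (3 * g) = 3 * volume.real K * g := by ring
    _ ≤ 3 * volume.real K * ((1 - th / 2) * (1 + ε)) := mul_le_mul_of_nonneg_left hcmp (by linarith)
    _ = _ := by ring

/-- Every line integral of the density, times the shadow, is at most `3 V (1 - th/2)`. -/
theorem line_bound (P : Pos K) (hu : ‖u‖ = 1) (z : Wp u) :
    (∫⁻ t : ℝ, K.indicator (fun x => ENNReal.ofReal (1 - P.wt x)) ((z : Sp) + t • u))
      * volume (pr u '' K) ≤ ENNReal.ofReal (3 * volume.real K * (1 - th / 2)) := by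
  have hth := th_pos
  have hth1 : th ≤ 1/2 := by unfold th; norm_num
  set line : ℝ → Sp := fun t => (z : Sp) + t • u with hline
  have hlc : Continuous line := by fun_prop
  set T := line ⁻¹' K with hT
  have hTc : IsCompact T := by
    obtain ⟨R, hR⟩ := abs_le_of_lift hu P.compact
    exact (isCompact_Icc (a := -R) (b := R)).of_isClosed_subset (P.compact.isClosed.preimage hlc)
      fun t ht => abs_le.mp (hR z t ht)
  have e0 : ∀ t, K.indicator (fun x => ENNReal.ofReal (1 - P.wt x)) ((z : Sp) + t • u)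
      = T.indicator (fun t => ENNReal.ofReal (1 - P.wt (line t))) t := fun t => rfl
  simp only [e0]
  rw [lintegral_indicator hTc.isClosed.measurableSet]
  rcases T.eq_empty_or_nonempty with h | hne
  · simp [h]
  set α := sSup T
  set β := sInf T
  have hα : line α ∈ K := hTc.sSup_mem hne
  have hβ : line β ∈ K := hTc.sInf_mem hne
  have hαβ : β ≤ α := csInf_le hTc.bddBelow (hTc.sSup_mem hne)
  have hTsub : T ⊆ Icc β α := fun t ht => ⟨csInf_le hTc.bddBelow ht, le_csSup hTc.bddAbove ht⟩
  have hA : volume (pr u '' K) = ENNReal.ofReal (volume.real (pr u '' K)) :=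
    (ENNReal.ofReal_toReal (P.compact.image (pr u).continuous).measure_lt_top.ne).symm
  set ℓ := α - β with hℓdef
  have hab : line α = line β + ℓ • u := by simp only [hline, hℓdef]; module
  have hle1 : ∀ x, ENNReal.ofReal (1 - P.wt x) ≤ 1 := fun x =>
    ENNReal.ofReal_le_one.mpr (by linarith [P.wt_nonneg x])
  have hwhole : (∫⁻ t in T, ENNReal.ofReal (1 - P.wt (line t))) ≤ ENNReal.ofReal ℓ := by
    calc _ ≤ ∫⁻ _t in T, 1 := lintegral_mono fun t => hle1 _
      _ ≤ ∫⁻ _t in Icc β α, 1 := lintegral_mono_set hTsub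
      _ = _ := by simp [hℓdef]
  suffices h : ∃ r : ℝ, (∫⁻ t in T, ENNReal.ofReal (1 - P.wt (line t))) ≤ ENNReal.ofReal r ∧
      0 ≤ r ∧ volume.real (pr u '' K) * r ≤ 3 * volume.real K * (1 - th / 2) by
    obtain ⟨r, h1, h2, h3⟩ := h
    calc _ ≤ ENNReal.ofReal r * volume (pr u '' K) := mul_le_mul_left h1 _
      _ ≤ _ := by rw [hA, ← ENNReal.ofReal_mul h2]; exact ENNReal.ofReal_le_ofReal (by linarith)
  obtain ⟨L, φ, hL, hφu, hmax, ⟨x0, hx0, hx0L⟩, hφ⟩ := P.exists_chord_functional hu
  have hℓL : ℓ ≤ L := hmax _ hβ ℓ (hab ▸ hα)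
  have hRS : volume.real (pr u '' K) * L / 3 ≤ volume.real K := by
    have := shadow_mul_chord_le hu P.convex P.compact hL.le le_rfl zero_le_one (pr u x0)
      (fun p _ => ⟨x0, hx0, hx0L, by simp⟩)
    simpa using this
  have hA0 : 0 ≤ volume.real (pr u '' K) := measureReal_nonneg
  by_cases hlong : ℓ ≤ (1 - et) * L
  · refine ⟨ℓ, hwhole, by linarith, ?_⟩
    have : th / 2 ≤ et := by unfold et; linarith
    calc _ ≤ volume.real (pr u '' K) * L * (1 - et) := by
          rw [mul_assoc]; exact mul_le_mul_of_nonneg_left (by linarith) hA0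
      _ ≤ 3 * volume.real K * (1 - et) :=
          mul_le_mul_of_nonneg_right (by linarith) (by unfold et; unfold th; norm_num)
      _ ≤ _ := mul_le_mul_of_nonneg_left (by linarith) (mul_nonneg (by norm_num) measureReal_nonneg)
  push Not at hlong
  by_cases hboth : P.S ta (line α) ≤ sg ∧ P.S ta (line β) ≤ sg
  · exact ⟨ℓ, hwhole, by linarith, P.flat_ends_bound hu φ hφu hL hφ hlong hα hβ hab hboth.1 hboth.2⟩
  -- some end is a ridge
  refine ⟨ℓ * (1 - th / 2), ?_, mul_nonneg (by linarith) (by linarith), ?_⟩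
  swap
  · rw [← mul_assoc]
    refine mul_le_mul_of_nonneg_right ?_ (by linarith)
    linarith [mul_le_mul_of_nonneg_left hℓL hA0]
  have hga : gauge K (line α - line β) ≤ 30 ∧ gauge K (line β - line α) ≤ 30 :=
    ⟨(P.G_le_repr _).trans (P.repr_diff hα hβ), (P.G_le_repr _).trans (P.repr_diff hβ hα)⟩
  have hend : ∀ c : ℝ, (c = α ∨ c = β) → gauge K (line c) = 1 := by
    intro c hc
    have hcK : line c ∈ K := by rcases hc with rfl | rfl <;> assumption
    refine le_antisymm (P.G_le_one.mpr hcK) ?_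
    by_contra hlt
    push Not at hlt
    have ho : IsOpen {t | gauge K (line t) < 1} :=
      isOpen_lt (P.continuous_G.comp hlc) continuous_const
    obtain ⟨d, hd, hball⟩ := Metric.isOpen_iff.mp ho c hlt
    have m1 : c + d / 2 ∈ T := P.G_le_one.mp (le_of_lt (hball (by simp [abs_of_pos hd]; linarith)))
    have m2 : c - d / 2 ∈ T := P.G_le_one.mp (le_of_lt (hball (by simp [abs_of_pos hd]; linarith)))
    rcases hc with rfl | rfl
    · linarith [(hTsub m1).2]
    · linarith [(hTsub m2).1]
  have hhalf : ∀ c t : ℝ, (c = α ∨ c = β) → sg < P.S ta (line c) → |t - c| ≤ th * ℓ → t ∈ T →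
      ENNReal.ofReal (1 - P.wt (line t)) ≤ ENNReal.ofReal (1/2) := by
    intro c t hc hS htc ht
    have hℓ0 : 0 < ℓ := lt_trans (mul_pos (by unfold et th; norm_num) hL) hlong
    set s := |t - c| / ℓ with hs
    have hs0 : 0 ≤ s := div_nonneg (abs_nonneg _) hℓ0.le
    have hs1 : s ≤ th := (div_le_iff₀ hℓ0).mpr htc
    have hsl : s * ℓ = |t - c| := div_mul_cancel₀ _ hℓ0.ne'
    have hg : gauge K (line t - line c) ≤ 30 * th ∧ gauge K (line c - line t) ≤ 30 * th := by
      have e : line α - line β = ℓ • u := by rw [hab, add_sub_cancel_left]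
      have e' : line β - line α = -(ℓ • u) := by rw [← e]; abel
      have b1 : gauge K (s • (line α - line β)) ≤ 30 * th ∧ gauge K (s • (line β - line α)) ≤ 30 * th := by
        rw [G_smul hs0, G_smul hs0]
        constructor <;> nlinarith [hga.1, hga.2, gauge_nonneg (s := K) (line α - line β),
          gauge_nonneg (s := K) (line β - line α)]
      rw [e, e', smul_neg, smul_smul, hsl] at b1
      have t1 : line t - line c = (t - c) • u := by simp only [hline]; module
      have t2 : line c - line t = -((t - c) • u) := by simp only [hline]; module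
      rw [t1, t2]
      rcases abs_choice (t - c) with h | h <;> rw [h] at b1
      · exact b1
      · rw [neg_smul, neg_neg] at b1; exact ⟨b1.2, b1.1⟩
    have hlip := P.S_lip ta (x := line c) (y := line t) hg.2 hg.1
    have hsh : line t ∈ shell K (1 - 31 * th) := by
      refine ⟨?_, P.G_le_one.mpr ht⟩
      have := P.G_add (line t) (line c - line t)
      rw [add_sub_cancel, hend c hc] at this
      linarith [hg.2]
    have hw : 1/2 ≤ P.wt (line t) := by
      rw [wt, indicator_of_mem hsh]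
      refine le_min (by norm_num) ?_
      rw [le_div_iff₀ (by unfold sg; linarith)]
      unfold sg at *; linarith
    exact ENNReal.ofReal_le_ofReal (by linarith)
  have hsplit : ∀ (c : ℝ) (I J : Set ℝ), (c = α ∨ c = β) → sg < P.S ta (line c) →
      MeasurableSet I → MeasurableSet J → Icc β α ⊆ I ∪ J →
      volume I = ENNReal.ofReal (ℓ * (1 - th)) → volume J = ENNReal.ofReal (th * ℓ) →
      (∀ t ∈ J, |t - c| ≤ th * ℓ) →
      (∫⁻ t in T, ENNReal.ofReal (1 - P.wt (line t))) ≤ ENNReal.ofReal (ℓ * (1 - th / 2)) := by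
    intro c I J hc hS hI hJ hsub vI vJ hJc
    calc _ ≤ ∫⁻ t in (T ∩ I) ∪ (T ∩ J), ENNReal.ofReal (1 - P.wt (line t)) :=
          lintegral_mono_set fun t ht => by
            rcases hsub (hTsub ht) with h | h
            · exact Or.inl ⟨ht, h⟩
            · exact Or.inr ⟨ht, h⟩
      _ ≤ (∫⁻ t in T ∩ I, ENNReal.ofReal (1 - P.wt (line t)))
          + ∫⁻ t in T ∩ J, ENNReal.ofReal (1 - P.wt (line t)) := lintegral_union_le _ _ _
      _ ≤ (∫⁻ _t in T ∩ I, 1) + ∫⁻ _t in T ∩ J, ENNReal.ofReal (1/2) := by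
          refine add_le_add (lintegral_mono fun t => hle1 _) (setLIntegral_mono' ?_ ?_)
          · exact hTc.isClosed.measurableSet.inter hJ
          · exact fun t ht => hhalf c t hc hS (hJc t ht.2) ht.1
      _ ≤ volume I + ENNReal.ofReal (1/2) * volume J := by
          rw [setLIntegral_one, setLIntegral_const]
          gcongr <;> exact inter_subset_right
      _ = _ := by
          have : 0 ≤ ℓ := by linarith
          rw [vI, vJ, ← ENNReal.ofReal_mul (by norm_num),
            ← ENNReal.ofReal_add (mul_nonneg this (by linarith)) (by positivity)]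
          congr 1; ring
  have hpos : 0 ≤ ℓ := by linarith
  rcases not_and_or.mp hboth with h | h
  · refine hsplit α (Icc β (α - th * ℓ)) (Icc (α - th * ℓ) α) (Or.inl rfl) (not_le.mp h)
      measurableSet_Icc measurableSet_Icc (fun t ht => ?_) ?_ ?_ (fun t ht => ?_)
    · rcases le_or_gt t (α - th * ℓ) with h' | h'
      · exact Or.inl ⟨ht.1, h'⟩
      · exact Or.inr ⟨h'.le, ht.2⟩
    · rw [Real.volume_Icc]; congr 1; rw [hℓdef]; ring
    · rw [Real.volume_Icc]; congr 1; ring
    · rw [abs_le]; constructor <;> linarith [ht.1, ht.2, mul_nonneg hth.le hpos]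
  · refine hsplit β (Icc (β + th * ℓ) α) (Icc β (β + th * ℓ)) (Or.inr rfl) (not_le.mp h)
      measurableSet_Icc measurableSet_Icc (fun t ht => ?_) ?_ ?_ (fun t ht => ?_)
    · rcases le_or_gt t (β + th * ℓ) with h' | h'
      · exact Or.inr ⟨ht.1, h'⟩
      · exact Or.inl ⟨h'.le, ht.2⟩
    · rw [Real.volume_Icc]; congr 1; rw [hℓdef]; ring
    · rw [Real.volume_Icc]; congr 1; ring
    · rw [abs_le]; constructor <;> linarith [ht.1, ht.2, mul_nonneg hth.le hpos]

end Pos

end

end Vale.Agent.P243
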