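import Mathlib
import Vale.Agent.P243.Line

open MeasureTheory Set
open scoped Pointwise RealInnerProductSpace

namespace Vale.Agent.P243

open Pos (shell)

noncomputable section

theorem cover_bound_pos {K : Set Sp} (P : Pos K) {m : ℕ} (u : Fin m → Sp) (hu : ∀ i, ‖u i‖ = 1)
    (B : ∀ i, Set (Wp (u i))) (hB : ∀ i, MeasurableSet (B i))
    (hcov : K ⊆ ⋃ i, pr (u i) ⁻¹' B i) :
    ENNReal.ofReal (1 / 3 + 1 / 10 ^ 17) ≤ ∑ i, volume (B i) / volume (pr (u i) '' K) := by
  classical
  have hth := th_pos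
  have hth1 : th ≤ 1 / 2 := by unfold th; norm_num
  set V := volume.real K with hVdef
  have hi : (interior K).Nonempty := ⟨0, mem_interior_iff_mem_nhds.mpr P.mem_nhds_zero⟩
  have hV : 0 < V := ENNReal.toReal_pos
    ((isOpen_interior.measure_pos volume hi).trans_le (measure_mono interior_subset)).ne' P.vol_ne_top
  set ρ : Sp → ENNReal := fun x => ENNReal.ofReal (1 - P.wt x) with hρ
  have hρm : Measurable ρ := (measurable_const.sub P.measurable_wt).ennreal_ofReal
  set c : ℝ := 3 * V * (1 - th / 2) with hc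
  have hc0 : 0 < c := mul_pos (by linarith) (by linarith)
  -- mass
  have hsg : 0 < sg := by unfold sg; linarith
  have hta : 0 ≤ ta := by unfold ta; linarith
  have hta1 : ta ≤ 1 / 10 := by unfold ta sg th; norm_num
  have hw1 : ∀ x, P.wt x ≤ 1 := fun x =>
    indicator_apply_le' (fun _ => min_le_left _ _) (fun _ => zero_le_one)
  have hwi : IntegrableOn P.wt K := by
    refine Measure.integrableOn_of_bounded (M := 1) P.vol_ne_top P.measurable_wt.aestronglyMeasurable ?_
    exact .of_forall fun x => by rw [Real.norm_eq_abs, abs_of_nonneg (P.wt_nonneg x)]; exact hw1 x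
  have hwle : ∫ x in K, P.wt x ≤ (∫ x in shell K (1 - 31 * th), P.S ta x) / sg := by
    have hsh : shell K (1 - 31 * th) ⊆ K := fun x hx => P.G_le_one.mp hx.2
    rw [← integral_div]
    calc ∫ x in K, P.wt x
        ≤ ∫ x in K, (shell K (1 - 31 * th)).indicator (fun y => P.S ta y / sg) x := by
          refine setIntegral_mono hwi ?_ fun x => indicator_le_indicator (min_le_right _ _)
          exact IntegrableOn.indicator
            (((P.continuous_S ta).div_const sg).continuousOn.integrableOn_compact P.compact)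
            (P.measurable_shell _)
      _ = _ := by rw [setIntegral_indicator (P.measurable_shell _), inter_eq_right.mpr hsh]
  have hN := P.integral_shell_le hta hta1 (N := 10 ^ 14) (by norm_num)
  have hq : (1 : ℝ) - 1 / (2 * ((10 ^ 14 : ℕ) : ℝ)) = 1 - 31 * th := by unfold th; norm_num
  rw [hq, ← hVdef] at hN
  have hmass : c * (1 / 3 + 1 / 10 ^ 17) ≤ ∫ x in K, (1 - P.wt x) := by
    have hdiv := hwle.trans (div_le_div_of_nonneg_right hN hsg.le)
    rw [integral_sub (integrableOn_const (C := (1:ℝ)) P.vol_ne_top) hwi, setIntegral_const, smul_eq_mul, mul_one,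
      ← hVdef]
    have hnum : 3 * (1 - th / 2) * (1 / 3 + 1 / 10 ^ 17)
        ≤ 1 - 384 * ta ^ 2 / ((10 ^ 14 : ℕ) : ℝ) / sg := by
      unfold ta sg th; norm_num
    have := mul_le_mul_of_nonneg_left hnum hV.le
    rw [hc]
    have e : 384 * ta ^ 2 / ((10 ^ 14 : ℕ) : ℝ) * V / sg
        = V * (384 * ta ^ 2 / ((10 ^ 14 : ℕ) : ℝ) / sg) := by ring
    rw [e] at hdiv
    linarith
  have hlin : ENNReal.ofReal c * ENNReal.ofReal (1 / 3 + 1 / 10 ^ 17) ≤ ∫⁻ x in K, ρ x := by
    have hi1 : IntegrableOn (fun x => (1:ℝ) - P.wt x) K :=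
      (integrableOn_const (C := (1:ℝ)) P.vol_ne_top).sub hwi
    rw [← ENNReal.ofReal_mul hc0.le, hρ,
      ← ofReal_integral_eq_lintegral_ofReal hi1
        (.of_forall fun x => by simp only [Pi.zero_apply]; linarith [hw1 x])]
    exact ENNReal.ofReal_le_ofReal hmass
  -- one cylinder
  have hcyl : ∀ i, ∫⁻ x in K ∩ pr (u i) ⁻¹' B i, ρ x
      ≤ ENNReal.ofReal c * (volume (B i) / volume (pr (u i) '' K)) := by
    intro i
    have hA0 : volume (pr (u i) '' K) ≠ 0 := (area_pos hi).ne'
    have hAt : volume (pr (u i) '' K) ≠ ⊤ :=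
      (P.compact.image (pr (u i)).continuous).measure_lt_top.ne
    rw [setLIntegral_lift (hu i) (P.measurable_K.inter ((hB i).preimage (pr (u i)).continuous.measurable)) hρm]
    calc _ ≤ ∫⁻ z : Wp (u i), (B i).indicator
            (fun _ => ENNReal.ofReal c / volume (pr (u i) '' K)) z := by
          refine lintegral_mono fun z => ?_
          by_cases hz : z ∈ B i
          · simp only [indicator_of_mem hz]
            rw [ENNReal.le_div_iff_mul_le (Or.inl hA0) (Or.inl hAt)]
            refine le_trans (mul_le_mul_left (lintegral_mono fun t => ?_) _) (P.line_bound (hu i) z)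
            exact indicator_le_indicator_of_subset inter_subset_left (fun _ => zero_le) _
          · simp only [indicator_of_notMem hz]
            refine le_of_eq ((lintegral_congr fun t => ?_).trans lintegral_zero)
            exact indicator_of_notMem (fun h => hz (by simpa [pr_lift] using h.2)) _
      _ = ENNReal.ofReal c / volume (pr (u i) '' K) * volume (B i) := lintegral_indicator_const (hB i) _
      _ = _ := by rw [div_eq_mul_inv, div_eq_mul_inv]; ring
  have htot : ∫⁻ x in K, ρ x ≤ ∑ i, ∫⁻ x in K ∩ pr (u i) ⁻¹' B i, ρ x := by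
    calc _ ≤ ∫⁻ x in ⋃ i, K ∩ pr (u i) ⁻¹' B i, ρ x :=
          lintegral_mono_set (by rw [← inter_iUnion]; exact subset_inter subset_rfl hcov)
      _ ≤ ∑' i, ∫⁻ x in K ∩ pr (u i) ⁻¹' B i, ρ x := lintegral_iUnion_le _ _
      _ = _ := tsum_fintype _
  have h := hlin.trans (htot.trans (Finset.sum_le_sum fun i _ => hcyl i))
  rw [← Finset.mul_sum] at h
  exact (ENNReal.mul_le_mul_iff_right (ENNReal.ofReal_pos.mpr hc0).ne' ENNReal.ofReal_ne_top).mp h

theorem cover_bound {K : Set Sp} (hv : Convex ℝ K) (hc : IsCompact K) (hi : (interior K).Nonempty)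
    {m : ℕ} (u : Fin m → Sp) (hu : ∀ i, ‖u i‖ = 1) (B : ∀ i, Set (Wp (u i)))
    (hcov : K ⊆ ⋃ i, pr (u i) ⁻¹' B i) :
    ENNReal.ofReal (1 / 3 + 1 / 10 ^ 17) ≤ ∑ i, volume (B i) / volume (pr (u i) '' K) := by
  obtain ⟨c, ⟨P⟩⟩ := exists_pos hv hc hi
  let B' : ∀ i, Set (Wp (u i)) := fun i => (fun z => z + pr (u i) c) ⁻¹' toMeasurable volume (B i)
  have h := cover_bound_pos P u hu B'
    (fun i => (measurableSet_toMeasurable _ _).preimage (by fun_prop)) (by
      rintro _ ⟨x, hx, rfl⟩
      obtain ⟨i, hxi⟩ := mem_iUnion.mp (hcov hx)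
      refine mem_iUnion.mpr ⟨i, ?_⟩
      simp only [B', mem_preimage, map_sub, sub_add_cancel]
      exact subset_toMeasurable _ _ hxi)
  refine h.trans (le_of_eq (Finset.sum_congr rfl fun i _ => ?_))
  have e1 : volume (B' i) = volume (B i) := by
    rw [show B' i = (fun z => z + pr (u i) c) ⁻¹' toMeasurable volume (B i) from rfl,
      measure_preimage_add_right, measure_toMeasurable]
  have e2 : volume (pr (u i) '' ((fun x => x - c) '' K)) = volume (pr (u i) '' K) := by
    have e : pr (u i) '' ((fun x => x - c) '' K)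
        = (fun z => z + pr (u i) c) ⁻¹' (pr (u i) '' K) := by
      ext z
      constructor
      · rintro ⟨_, ⟨x, hx, rfl⟩, rfl⟩; exact ⟨x, hx, by simp⟩
      · rintro ⟨x, hx, h⟩; exact ⟨x - c, ⟨x, hx, rfl⟩, by rw [map_sub, h, add_sub_cancel_right]⟩
    rw [e, measure_preimage_add_right]
  rw [e1, e2]

end

end Vale.Agent.P243
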