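import Mathlib

/-! Cylinders and relative areas. -/

namespace Vale.Agent.P243

open MeasureTheory

variable {E : Type} [NormedAddCommGroup E] [InnerProductSpace ℝ E] [FiniteDimensional ℝ E]

/-- The subspace orthogonal to `u`. -/
noncomputable abbrev perp (u : E) : Submodule ℝ E := (ℝ ∙ u)ᗮ

/-- The cylinder `B + ℝ u`. -/
noncomputable def cylinder (u : E) (B : Set (perp u)) : Set E :=
  {x | (perp u).orthogonalProjectionOnto x ∈ B}

/-- The orthogonal projection of `K` onto `perp u`. -/
noncomputable def shadow (K : Set E) (u : E) : Set (perp u) :=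
  (perp u).orthogonalProjectionOnto '' K

variable [MeasurableSpace E] [BorelSpace E]

/-- The area of a subset of the subspace orthogonal to `u`. -/
noncomputable def area {u : E} (B : Set (perp u)) : ℝ := (volume B).toReal

/-- A base: `u` is a unit vector and `B` is measurable with finite area. -/
def IsBase (u : E) (B : Set (perp u)) : Prop :=
  ‖u‖ = 1 ∧ MeasurableSet B ∧ volume B ≠ ⊤

end Vale.Agent.P243
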