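import Vale.Agent.P243.Planar

/-! A tetrahedron covered by four cylinders with directionwise relative area below one half. -/

namespace Vale.Agent.P243

open MeasureTheory
open scoped ENNReal

/-- The tetrahedron with vertices `000, 110, 101, 011`. -/
def tetra : Set E3 :=
  {p | p 0 ≤ p 1 + p 2 ∧ p 1 ≤ p 0 + p 2 ∧ p 2 ≤ p 0 + p 1 ∧ p 0 + p 1 + p 2 ≤ 2}

theorem mem_tetra {p : E3} : p ∈ tetra ↔
    p 0 ≤ p 1 + p 2 ∧ p 1 ≤ p 0 + p 2 ∧ p 2 ≤ p 0 + p 1 ∧ p 0 + p 1 + p 2 ≤ 2 := Iff.rfl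

theorem continuous_coord (i : Fin 3) : Continuous fun p : E3 => p i :=
  (EuclideanSpace.proj (𝕜 := ℝ) i).continuous

theorem convex_tetra : Convex ℝ tetra := by
  intro p hp q hq a b ha hb hab
  simp only [mem_tetra, PiLp.add_apply, PiLp.smul_apply, smul_eq_mul] at hp hq ⊢
  obtain ⟨h1, h2, h3, h4⟩ := hp
  obtain ⟨k1, k2, k3, k4⟩ := hq
  refine ⟨?_, ?_, ?_, ?_⟩
  · nlinarith [mul_le_mul_of_nonneg_left h1 ha, mul_le_mul_of_nonneg_left k1 hb]
  · nlinarith [mul_le_mul_of_nonneg_left h2 ha, mul_le_mul_of_nonneg_left k2 hb]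
  · nlinarith [mul_le_mul_of_nonneg_left h3 ha, mul_le_mul_of_nonneg_left k3 hb]
  · nlinarith [mul_le_mul_of_nonneg_left h4 ha, mul_le_mul_of_nonneg_left k4 hb]

theorem isCompact_tetra : IsCompact tetra := by
  apply Metric.isCompact_of_isClosed_isBounded
  · have hc := continuous_coord
    simp only [tetra, Set.ofPred_and]
    exact (isClosed_le (hc 0) ((hc 1).add (hc 2))).inter
      ((isClosed_le (hc 1) ((hc 0).add (hc 2))).inter
      ((isClosed_le (hc 2) ((hc 0).add (hc 1))).inter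
      (isClosed_le (((hc 0).add (hc 1)).add (hc 2)) continuous_const)))
  · refine isBounded_iff_forall_norm_le.2 ⟨2, fun p hp => ?_⟩
    obtain ⟨h1, h2, h3, h4⟩ := hp
    rw [EuclideanSpace.norm_eq, Real.sqrt_le_left (by norm_num), Fin.sum_univ_three]
    simp only [Real.norm_eq_abs, sq_abs]
    nlinarith [mul_nonneg (show (0:ℝ) ≤ p 0 by linarith) (show (0:ℝ) ≤ p 1 by linarith),
      mul_nonneg (show (0:ℝ) ≤ p 0 by linarith) (show (0:ℝ) ≤ p 2 by linarith),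
      mul_nonneg (show (0:ℝ) ≤ p 1 by linarith) (show (0:ℝ) ≤ p 2 by linarith)]

theorem interior_tetra_nonempty : (interior tetra).Nonempty := by
  refine ⟨!₂[(1/2 : ℝ), 1/2, 1/2], mem_interior.2 ⟨{p | p 0 < p 1 + p 2 ∧ p 1 < p 0 + p 2 ∧
    p 2 < p 0 + p 1 ∧ p 0 + p 1 + p 2 < 2}, fun p hp => ?_, ?_, ?_⟩⟩
  · exact ⟨hp.1.le, hp.2.1.le, hp.2.2.1.le, hp.2.2.2.le⟩
  · have hc := continuous_coord
    simp only [Set.ofPred_and]
    exact (isOpen_lt (hc 0) ((hc 1).add (hc 2))).inter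
      ((isOpen_lt (hc 1) ((hc 0).add (hc 2))).inter
      ((isOpen_lt (hc 2) ((hc 0).add (hc 1))).inter
      (isOpen_lt (((hc 0).add (hc 1)).add (hc 2)) continuous_const)))
  · simp; norm_num

/-- Linear map to the plane from two coefficient rows. -/
noncomputable def coordMap (a b c a' b' c' : ℝ) : E3 →ₗ[ℝ] ℝ × ℝ where
  toFun p := (a * p 0 + b * p 1 + c * p 2, a' * p 0 + b' * p 1 + c' * p 2)
  map_add' p q := by simp only [PiLp.add_apply, Prod.mk_add_mk, Prod.mk.injEq]; constructor <;> ring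
  map_smul' r p := by
    simp only [PiLp.smul_apply, smul_eq_mul, RingHom.id_apply, Prod.smul_mk, Prod.mk.injEq]
    constructor <;> ring

theorem coordMap_apply (a b c a' b' c' : ℝ) (p : E3) :
    coordMap a b c a' b' c' p = (a * p 0 + b * p 1 + c * p 2, a' * p 0 + b' * p 1 + c' * p 2) :=
  rfl

/-- The map killing `(1,-1,2)`. -/
noncomputable def PB : E3 →ₗ[ℝ] ℝ × ℝ := coordMap (-1) 1 1 1 0 (-1/2)
/-- The map killing `(1,1,2)`. -/
noncomputable def PC : E3 →ₗ[ℝ] ℝ × ℝ := coordMap 1 1 (-1) 1 0 (-1/2)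
/-- The map killing `(1,0,-1)`. -/
noncomputable def PG : E3 →ₗ[ℝ] ℝ × ℝ := coordMap 0 1 0 1 0 1
/-- The map killing `(2,0,-1)`. -/
noncomputable def PF : E3 →ₗ[ℝ] ℝ × ℝ := coordMap 0 1 0 1 0 2

/-- Base of the first cylinder. -/
def SB : Set (ℝ × ℝ) := trap 0 (2/3) (1/4) 0 (3/4) (-3/4)
/-- Base of the second cylinder. -/
def SC : Set (ℝ × ℝ) := trap 0 (2/3) (-1/4) (3/4) (1/4) 0
/-- Base of the third cylinder. -/
def SG : Set (ℝ × ℝ) :=
  trap (1/2) (2/3) 0 1 (-1) 3 ∪ (trap (1/2) (2/3) 3 (-3) 2 (-1) ∪ trap (7/10) 1 0 1 2 (-1))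
/-- Base of the fourth cylinder. -/
def SF : Set (ℝ × ℝ) := trap (2/3) (7/10) (-1/6) (5/3) (19/6) (-5/3)

theorem volume_SB : volume SB = ENNReal.ofReal (1/6) := by
  rw [SB, volume_trap] <;> norm_num

theorem volume_SC : volume SC = ENNReal.ofReal (1/6) := by
  rw [SC, volume_trap] <;> norm_num

theorem volume_SG : volume SG ≤ ENNReal.ofReal (131/900) := by
  refine (measure_union_le _ _).trans ((add_le_add le_rfl (measure_union_le _ _)).trans ?_)
  rw [volume_trap _ _ _ _ _ _ (by norm_num) (by norm_num) (by norm_num),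
    volume_trap _ _ _ _ _ _ (by norm_num) (by norm_num) (by norm_num),
    volume_trap _ _ _ _ _ _ (by norm_num) (by norm_num) (by norm_num),
    ← ENNReal.ofReal_add (by norm_num) (by norm_num),
    ← ENNReal.ofReal_add (by norm_num) (by norm_num)]
  exact ENNReal.ofReal_le_ofReal (by norm_num)

theorem volume_SF : volume SF = ENNReal.ofReal (19/540) := by
  rw [SF, volume_trap] <;> norm_num

theorem cover {p : E3} (hp : p ∈ tetra) :
    PB p ∈ SB ∨ PC p ∈ SC ∨ PG p ∈ SG ∨ PF p ∈ SF := by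
  obtain ⟨h1, h2, h3, h4⟩ := hp
  simp only [PB, PC, PG, PF, coordMap_apply, SB, SC, SG, SF, trap, Set.mem_union,
    Set.mem_ofPred_eq]
  have rest : (3 - 3 * p 1 < p 0 + p 2 ∧ 1/4 ≤ p 0 - p 2 / 2) ∨
      (p 0 + p 2 < 3 * p 1 - 1 ∧ p 0 - p 2 / 2 ≤ 1/4) →
      (((1:ℝ)/2 ≤ p 1 ∧ p 1 ≤ 2/3 ∧ p 1 ≤ p 0 + p 2 ∧ p 0 + p 2 ≤ -1 + 3 * p 1) ∨
      ((1:ℝ)/2 ≤ p 1 ∧ p 1 ≤ 2/3 ∧ 3 - 3 * p 1 ≤ p 0 + p 2 ∧ p 0 + p 2 ≤ 2 - p 1) ∨
      ((7:ℝ)/10 ≤ p 1 ∧ p 1 ≤ 1 ∧ p 1 ≤ p 0 + p 2 ∧ p 0 + p 2 ≤ 2 - p 1)) ∨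
      ((2:ℝ)/3 ≤ p 1 ∧ p 1 ≤ 7/10 ∧ -1/6 + 5/3 * p 1 ≤ p 0 + 2 * p 2 ∧
        p 0 + 2 * p 2 ≤ 19/6 - 5/3 * p 1) := by
    intro h
    by_cases ht : p 1 ≤ 2/3
    · rcases h with ⟨a, b⟩ | ⟨a, b⟩
      · exact .inl (.inr (.inl ⟨by linarith, ht, a.le, by linarith⟩))
      · exact .inl (.inl ⟨by linarith, ht, by linarith, by linarith⟩)
    · by_cases ht' : p 1 ≤ 7/10
      · rcases h with ⟨a, b⟩ | ⟨a, b⟩
        · exact .inr ⟨by linarith, ht', by linarith, by linarith⟩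
        · exact .inr ⟨by linarith, ht', by linarith, by linarith⟩
      · exact .inl (.inr (.inr ⟨by linarith, by linarith, by linarith, by linarith⟩))
  rcases le_total (1/4) (p 0 - p 2 / 2) with hX | hX
  · rcases le_or_gt (p 0 + p 2) (3 - 3 * p 1) with hs | hs
    · left; refine ⟨?_, ?_, ?_, ?_⟩ <;> linarith
    · rcases rest (.inl ⟨hs, hX⟩) with (⟨a, b, c, d⟩ | ⟨a, b, c, d⟩ | ⟨a, b, c, d⟩) | ⟨a, b, c, d⟩
      · right; right; left; left; refine ⟨?_, ?_, ?_, ?_⟩ <;> linarith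
      · right; right; left; right; left; refine ⟨?_, ?_, ?_, ?_⟩ <;> linarith
      · right; right; left; right; right; refine ⟨?_, ?_, ?_, ?_⟩ <;> linarith
      · right; right; right; refine ⟨?_, ?_, ?_, ?_⟩ <;> linarith
  · rcases le_or_gt (3 * p 1 - 1) (p 0 + p 2) with hs | hs
    · right; left; refine ⟨?_, ?_, ?_, ?_⟩ <;> linarith
    · rcases rest (.inr ⟨hs, hX⟩) with (⟨a, b, c, d⟩ | ⟨a, b, c, d⟩ | ⟨a, b, c, d⟩) | ⟨a, b, c, d⟩
      · right; right; left; left; refine ⟨?_, ?_, ?_, ?_⟩ <;> linarith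
      · right; right; left; right; left; refine ⟨?_, ?_, ?_, ?_⟩ <;> linarith
      · right; right; left; right; right; refine ⟨?_, ?_, ?_, ?_⟩ <;> linarith
      · right; right; right; refine ⟨?_, ?_, ?_, ?_⟩ <;> linarith

theorem coordMap_point (a b c a' b' c' x y z : ℝ) :
    coordMap a b c a' b' c' (!₂[x, y, z]) = (a * x + b * y + c * z, a' * x + b' * y + c' * z) := by
  simp [coordMap_apply]

theorem point_mem_tetra {x y z : ℝ} (h1 : x ≤ y + z) (h2 : y ≤ x + z) (h3 : z ≤ x + y)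
    (h4 : x + y + z ≤ 2) : !₂[x, y, z] ∈ tetra := by
  simp [mem_tetra, h1, h2, h3, h4]

theorem subset_image_PB : trap 0 2 0 (-1/4) 1 (-3/4) ⊆ PB '' tetra := by
  rintro ⟨U, X⟩ ⟨a, b, c, d⟩
  simp only at a b c d
  refine ⟨!₂[X + U/4, X + U/4 + U/2, U/2], ?_, ?_⟩
  · apply point_mem_tetra <;> linarith
  · simp only [PB, coordMap_point, Prod.mk.injEq]; constructor <;> ring

theorem subset_image_PC : trap 0 2 (-1/2) (3/4) (1/2) (1/4) ⊆ PC '' tetra := by
  rintro ⟨U, X⟩ ⟨a, b, c, d⟩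
  simp only at a b c d
  refine ⟨!₂[U/2 + ((1 - U/2)/2 + (X - U/2)), U/2 + ((1 - U/2)/2 - (X - U/2)), 1 - U/2], ?_, ?_⟩
  · apply point_mem_tetra <;> linarith
  · simp only [PC, coordMap_point, Prod.mk.injEq]; constructor <;> ring

theorem subset_image_PG : trap 0 1 0 1 2 (-1) ⊆ PG '' tetra := by
  rintro ⟨t, s⟩ ⟨a, b, c, d⟩
  simp only at a b c d
  refine ⟨!₂[s/2, t, s/2], ?_, ?_⟩
  · apply point_mem_tetra <;> linarith
  · simp only [PG, coordMap_point, Prod.mk.injEq]; constructor <;> ring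

theorem subset_image_PF : trap 0 1 0 1 3 (-1) ⊆ PF '' tetra := by
  rintro ⟨t, X⟩ ⟨a, b, c, d⟩
  simp only at a b c d
  rcases le_total ((2 * X - t)/3) t with h | h
  · refine ⟨!₂[2 * t - X, t, X - t], ?_, ?_⟩
    · apply point_mem_tetra <;> linarith
    · simp only [PF, coordMap_point, Prod.mk.injEq]; constructor <;> ring
  · refine ⟨!₂[(2 * X - t)/3 - (X - (2 * X - t)/3), t, X - (2 * X - t)/3], ?_, ?_⟩
    · apply point_mem_tetra <;> linarith
    · simp only [PF, coordMap_point, Prod.mk.injEq]; constructor <;> ring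

theorem surj_PB : Function.Surjective PB := fun ⟨U, X⟩ =>
  ⟨!₂[X, U + X, 0], by simp only [PB, coordMap_point, Prod.mk.injEq]; constructor <;> ring⟩

theorem surj_PC : Function.Surjective PC := fun ⟨U, X⟩ =>
  ⟨!₂[X, U - X, 0], by simp only [PC, coordMap_point, Prod.mk.injEq]; constructor <;> ring⟩

theorem surj_PG : Function.Surjective PG := fun ⟨t, s⟩ =>
  ⟨!₂[s, t, 0], by simp only [PG, coordMap_point, Prod.mk.injEq]; constructor <;> ring⟩

theorem surj_PF : Function.Surjective PF := fun ⟨t, s⟩ =>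
  ⟨!₂[s, t, 0], by simp only [PF, coordMap_point, Prod.mk.injEq]; constructor <;> ring⟩

theorem ne_zero_of_z {x y z : ℝ} (hz : z ≠ 0) : (!₂[x, y, z] : E3) ≠ 0 := fun h => by
  simpa [hz] using congrArg (fun p : E3 => p 2) h

theorem tetra_covering :
    ∃ (u : Fin 4 → E3) (B : (i : Fin 4) → Set ((ℝ ∙ u i)ᗮ : Submodule ℝ E3)),
      (∀ i, ‖u i‖ = 1) ∧ (∀ i, MeasurableSet (B i)) ∧ (∀ i, volume (B i) ≠ ∞) ∧
      tetra ⊆ ⋃ i, {x | (ℝ ∙ u i)ᗮ.orthogonalProjectionOnto x ∈ B i} ∧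
      ∑ i, (volume (B i)).toReal /
        (volume ((ℝ ∙ u i)ᗮ.orthogonalProjectionOnto '' tetra)).toReal ≤ 2681/5400 := by
  obtain ⟨uB, BB, hB1, hB2, hB3, hB4, hB5⟩ := exists_base PB surj_PB
    (v := !₂[(1:ℝ), -1, 2]) (ne_zero_of_z (by norm_num))
    (by simp only [PB, coordMap_point, Prod.mk_eq_zero]; constructor <;> norm_num)
    isCompact_tetra (S := SB) (T := trap 0 2 0 (-1/4) 1 (-3/4)) (measurableSet_trap ..)
    (s := 1/6) (t := 1) (by norm_num) volume_SB.le one_pos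
    (by rw [volume_trap] <;> norm_num) subset_image_PB
  obtain ⟨uC, BC, hC1, hC2, hC3, hC4, hC5⟩ := exists_base PC surj_PC
    (v := !₂[(1:ℝ), 1, 2]) (ne_zero_of_z (by norm_num))
    (by simp only [PC, coordMap_point, Prod.mk_eq_zero]; constructor <;> norm_num)
    isCompact_tetra (S := SC) (T := trap 0 2 (-1/2) (3/4) (1/2) (1/4)) (measurableSet_trap ..)
    (s := 1/6) (t := 1) (by norm_num) volume_SC.le one_pos
    (by rw [volume_trap] <;> norm_num) subset_image_PC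
  obtain ⟨uG, BG, hG1, hG2, hG3, hG4, hG5⟩ := exists_base PG surj_PG
    (v := !₂[(1:ℝ), 0, -1]) (ne_zero_of_z (by norm_num))
    (by simp only [PG, coordMap_point, Prod.mk_eq_zero]; constructor <;> norm_num)
    isCompact_tetra (S := SG) (T := trap 0 1 0 1 2 (-1))
    ((measurableSet_trap ..).union ((measurableSet_trap ..).union (measurableSet_trap ..)))
    (s := 131/900) (t := 1) (by norm_num) volume_SG one_pos
    (by rw [volume_trap] <;> norm_num) subset_image_PG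
  obtain ⟨uF, BF, hF1, hF2, hF3, hF4, hF5⟩ := exists_base PF surj_PF
    (v := !₂[(2:ℝ), 0, -1]) (ne_zero_of_z (by norm_num))
    (by simp only [PF, coordMap_point, Prod.mk_eq_zero]; constructor <;> norm_num)
    isCompact_tetra (S := SF) (T := trap 0 1 0 1 3 (-1)) (measurableSet_trap ..)
    (s := 19/540) (t := 2) (by norm_num) volume_SF.le two_pos
    (by rw [volume_trap] <;> norm_num) subset_image_PF
  let u : Fin 4 → E3 := ![uB, uC, uG, uF]
  let B : (i : Fin 4) → Set ((ℝ ∙ u i)ᗮ : Submodule ℝ E3) :=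
    Fin.cons (α := fun i => Set ((ℝ ∙ u i)ᗮ : Submodule ℝ E3)) BB
      (Fin.cons (α := fun i : Fin 3 => Set ((ℝ ∙ u i.succ)ᗮ : Submodule ℝ E3)) BC
        (Fin.cons (α := fun i : Fin 2 => Set ((ℝ ∙ u i.succ.succ)ᗮ : Submodule ℝ E3)) BG
          (Fin.cons (α := fun i : Fin 1 => Set ((ℝ ∙ u i.succ.succ.succ)ᗮ : Submodule ℝ E3)) BF
            (fun i => i.elim0))))
  refine ⟨u, B, ?_, ?_, ?_, ?_, ?_⟩
  · intro i; fin_cases i <;> assumption
  · intro i; fin_cases i <;> assumption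
  · intro i; fin_cases i <;> assumption
  · intro p hp
    rw [Set.mem_iUnion]
    rcases cover hp with h | h | h | h
    · exact ⟨0, hB4 p h⟩
    · exact ⟨1, hC4 p h⟩
    · exact ⟨2, hG4 p h⟩
    · exact ⟨3, hF4 p h⟩
  · rw [Fin.sum_univ_four]
    exact le_trans (add_le_add (add_le_add (add_le_add hB5 hC5) hG5) hF5) (by norm_num)

end Vale.Agent.P243
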