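import Mathlib

/-! Areas of planar trapezoids and transfer of area ratios to orthogonal complements. -/

namespace Vale.Agent.P243

open MeasureTheory
open scoped ENNReal RealInnerProductSpace

/-- A closed trapezoid with parallel vertical sides. -/
def trap (a b c₀ c₁ d₀ d₁ : ℝ) : Set (ℝ × ℝ) :=
  {p | a ≤ p.1 ∧ p.1 ≤ b ∧ c₀ + c₁ * p.1 ≤ p.2 ∧ p.2 ≤ d₀ + d₁ * p.1}

theorem measurableSet_trap (a b c₀ c₁ d₀ d₁ : ℝ) : MeasurableSet (trap a b c₀ c₁ d₀ d₁) := by
  refine IsClosed.measurableSet ?_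
  simp only [trap, Set.ofPred_and]
  refine IsClosed.inter (isClosed_le (by fun_prop) (by fun_prop)) ?_
  refine IsClosed.inter (isClosed_le (by fun_prop) (by fun_prop)) ?_
  exact IsClosed.inter (isClosed_le (by fun_prop) (by fun_prop)) (isClosed_le (by fun_prop) (by fun_prop))

theorem volume_trap (a b c₀ c₁ d₀ d₁ : ℝ) (hab : a ≤ b)
    (ha : c₀ + c₁ * a ≤ d₀ + d₁ * a) (hb : c₀ + c₁ * b ≤ d₀ + d₁ * b) :
    volume (trap a b c₀ c₁ d₀ d₁)
      = ENNReal.ofReal ((d₀ - c₀) * (b - a) + (d₁ - c₁) * (b ^ 2 - a ^ 2) / 2) := by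
  have hslice : ∀ x, volume (Prod.mk x ⁻¹' trap a b c₀ c₁ d₀ d₁)
      = (Set.Icc a b).indicator
        (fun x => ENNReal.ofReal ((d₀ - c₀) + (d₁ - c₁) * x)) x := by
    intro x
    by_cases hx : x ∈ Set.Icc a b
    · rw [Set.indicator_of_mem hx]
      have : Prod.mk x ⁻¹' trap a b c₀ c₁ d₀ d₁ = Set.Icc (c₀ + c₁ * x) (d₀ + d₁ * x) := by
        ext y; simp [trap, hx.1, hx.2]
      rw [this, Real.volume_Icc]
      congr 1; ring
    · rw [Set.indicator_of_notMem hx]
      have : Prod.mk x ⁻¹' trap a b c₀ c₁ d₀ d₁ = ∅ := by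
        ext y
        simp only [trap, Set.mem_preimage, Set.mem_ofPred_eq, Set.mem_empty_iff_false, iff_false]
        intro h; exact hx ⟨h.1, h.2.1⟩
      simp [this]
  rw [Measure.volume_eq_prod, Measure.prod_apply (measurableSet_trap ..)]
  simp only [hslice]
  rw [lintegral_indicator measurableSet_Icc,
    ← ofReal_integral_eq_lintegral_ofReal]
  · congr 1
    rw [integral_Icc_eq_integral_Ioc, ← intervalIntegral.integral_of_le hab,
      intervalIntegral.integral_add (by exact Continuous.intervalIntegrable (by fun_prop) _ _)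
        (by exact Continuous.intervalIntegrable (by fun_prop) _ _),
      intervalIntegral.integral_const, intervalIntegral.integral_const_mul, integral_id]
    simp only [smul_eq_mul]; ring
  · exact (Continuous.integrableOn_Icc (by fun_prop))
  · refine (ae_restrict_iff' measurableSet_Icc).2 (ae_of_all _ fun x hx => ?_)
    show 0 ≤ (d₀ - c₀) + (d₁ - c₁) * x
    obtain ⟨h1, h2⟩ := hx
    rcases le_or_gt c₁ d₁ with h | h
    · nlinarith
    · nlinarith

/-- Ambient space. -/
abbrev E3 : Type := EuclideanSpace ℝ (Fin 3)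

/-- If `P : E3 → ℝ × ℝ` is linear, surjective and kills `v ≠ 0`, then a planar set `S` gives a base
of a cylinder with axis `v` whose relative area (in a body `K`) is at most
`area S / area (P '' K)`. -/
theorem exists_base (P : E3 →ₗ[ℝ] ℝ × ℝ) (hP : Function.Surjective P) {v : E3} (hv : v ≠ 0)
    (hPv : P v = 0) {K : Set E3} (hK : IsCompact K) {S T : Set (ℝ × ℝ)} (hS : MeasurableSet S)
    {s t : ℝ} (hs : 0 ≤ s) (hST : volume S ≤ ENNReal.ofReal s) (ht : 0 < t)
    (hT : volume T = ENNReal.ofReal t) (hTK : T ⊆ P '' K) :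
    ∃ u : E3, ∃ B : Set ((ℝ ∙ u)ᗮ : Submodule ℝ E3), ‖u‖ = 1 ∧ MeasurableSet B ∧ volume B ≠ ∞ ∧
      (∀ x, P x ∈ S → (ℝ ∙ u)ᗮ.orthogonalProjectionOnto x ∈ B) ∧
      (volume B).toReal / (volume ((ℝ ∙ u)ᗮ.orthogonalProjectionOnto '' K)).toReal ≤ s / t := by
  set u : E3 := ‖v‖⁻¹ • v with hu
  have hu1 : ‖u‖ = 1 := norm_smul_inv_norm (𝕜 := ℝ) hv
  have hu0 : u ≠ 0 := fun h => by simp [h] at hu1
  set W : Submodule ℝ E3 := (ℝ ∙ u)ᗮ with hW
  set π := W.orthogonalProjectionOnto with hπ
  have hPπ : ∀ x, P (π x : E3) = P x := by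
    intro x
    have hmem : x - (π x : E3) ∈ Wᗮ := W.sub_starProjection_mem_orthogonal x
    have hWW : Wᗮ = ℝ ∙ u := Submodule.orthogonal_orthogonal _
    rw [hWW, Submodule.mem_span_singleton] at hmem
    obtain ⟨c, hc⟩ := hmem
    have h1 : P (x - (π x : E3)) = 0 := by
      rw [← hc, hu, map_smul, map_smul, hPv, smul_zero, smul_zero]
    rw [map_sub, sub_eq_zero] at h1
    exact h1.symm
  set ψ : W →ₗ[ℝ] ℝ × ℝ := P.comp W.subtype with hψ
  have hψπ : ∀ x, ψ (π x) = P x := hPπ
  have hsurj : Function.Surjective ψ := fun y => by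
    obtain ⟨x, rfl⟩ := hP y
    exact ⟨π x, hψπ x⟩
  have : Fact (Module.finrank ℝ E3 = 2 + 1) := ⟨by simp⟩
  have hdim : Module.finrank ℝ W = Module.finrank ℝ (ℝ × ℝ) := by
    rw [hW, Submodule.finrank_orthogonal_span_singleton (n := 2) hu0]
    simp
  have hbij : Function.Bijective ψ :=
    ⟨(LinearMap.injective_iff_surjective_of_finrank_eq_finrank hdim).2 hsurj, hsurj⟩
  set L : W ≃L[ℝ] ℝ × ℝ := (LinearEquiv.ofBijective ψ hbij).toContinuousLinearEquiv with hL
  have hLx : ∀ w, L w = ψ w := fun w => rfl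
  have : (Measure.map L (volume : Measure W)).IsAddHaarMeasure :=
    L.isAddHaarMeasure_map _
  set c := Measure.addHaarScalarFactor (Measure.map L (volume : Measure W)) volume with hc
  have hmap : Measure.map L (volume : Measure W) = c • volume :=
    Measure.isAddLeftInvariant_eq_smul _ _
  have hc0 : (c : ℝ) ≠ 0 := by
    exact_mod_cast (Measure.addHaarScalarFactor_pos_of_isAddHaarMeasure
      (Measure.map L (volume : Measure W)) (volume : Measure (ℝ × ℝ))).ne'
  have hvol : ∀ A : Set (ℝ × ℝ), MeasurableSet A → volume (L ⁻¹' A) = c * volume A := by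
    intro A hA
    rw [← Measure.map_apply L.continuous.measurable hA, hmap, Measure.smul_apply]
    rfl
  have hfin : volume S ≠ ∞ := (lt_of_le_of_lt hST ENNReal.ofReal_lt_top).ne
  refine ⟨u, L ⁻¹' S, hu1, L.continuous.measurable hS, ?_, fun x hx => ?_, ?_⟩
  · rw [hvol S hS]; exact ENNReal.mul_ne_top ENNReal.coe_ne_top hfin
  · show L (π x) ∈ S
    rw [hLx, hψπ]; exact hx
  · have him : π '' K = L ⁻¹' (P '' K) := by
      ext w
      constructor
      · rintro ⟨x, hx, rfl⟩
        exact ⟨x, hx, (hψπ x).symm⟩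
      · rintro ⟨x, hx, hxw⟩
        exact ⟨x, hx, L.injective (by rw [hLx, hψπ, hxw])⟩
    have hPK : IsCompact (P '' K) := hK.image P.continuous_of_finiteDimensional
    have hden : t ≤ (volume (P '' K)).toReal := by
      have := ENNReal.toReal_mono hPK.measure_lt_top.ne (measure_mono (μ := volume) hTK)
      rwa [hT, ENNReal.toReal_ofReal ht.le] at this
    rw [him, hvol S hS, hvol _ hPK.measurableSet, ENNReal.toReal_mul, ENNReal.toReal_mul,
      ENNReal.coe_toReal, mul_div_mul_left _ _ hc0]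
    have hnum : (volume S).toReal ≤ s := by
      have := ENNReal.toReal_mono ENNReal.ofReal_ne_top hST
      rwa [ENNReal.toReal_ofReal hs] at this
    gcongr

end Vale.Agent.P243
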