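import Mathlib
import Vale.Agent.P243.Split

open MeasureTheory Set Real
open scoped RealInnerProductSpace

namespace Vale.Agent.P243.Symm

noncomputable section

/-- Archimedes' density on the open unit ball. -/
def arch (x : Sp) : ENNReal :=
  (Metric.ball (0 : Sp) 1).indicator (fun y => ENNReal.ofReal (1 / √(1 - ‖y‖ ^ 2))) x

theorem measurable_arch : Measurable arch := by
  unfold arch
  exact (Measurable.ennreal_ofReal (by fun_prop)).indicator measurableSet_ball

theorem arch_eq (x : Sp) :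
    arch x = if ‖x‖ < 1 then ENNReal.ofReal (1 / √(1 - ‖x‖ ^ 2)) else 0 := by
  by_cases h : ‖x‖ < 1
  · rw [if_pos h, arch, indicator_of_mem (mem_ball_zero_iff.mpr h)]
  · rw [if_neg h, arch, indicator_of_notMem (fun hm => h (mem_ball_zero_iff.mp hm))]

/-- Every line meets Archimedes' density in mass `π / ‖q‖` or `0`. -/
theorem lintegral_arch_line (d q : Sp) (hq : q ≠ 0) (hdq : ⟪d, q⟫ = 0) (t₀ : ℝ) :
    ∫⁻ t : ℝ, arch (d + (t - t₀) • q) = if ‖d‖ < 1 then ENNReal.ofReal (π / ‖q‖) else 0 := by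
  have hsq : ∀ t : ℝ, ‖d + (t - t₀) • q‖ ^ 2 = ‖d‖ ^ 2 + (t - t₀) ^ 2 * ‖q‖ ^ 2 := fun t => by
    rw [norm_add_sq_real, inner_smul_right, hdq, norm_smul, mul_pow, Real.norm_eq_abs, sq_abs]
    ring
  have ha : 0 < ‖q‖ := norm_pos_iff.mpr hq
  have hlt : ∀ t : ℝ, ‖d + (t - t₀) • q‖ < 1 ↔ ‖d‖ ^ 2 + (t - t₀) ^ 2 * ‖q‖ ^ 2 < 1 := fun t => by
    rw [← hsq, sq_lt_one_iff₀ (norm_nonneg _)]
  split_ifs with hd
  · have hd2 : ‖d‖ ^ 2 < 1 := (sq_lt_one_iff₀ (norm_nonneg _)).mpr hd
    set R := √(1 - ‖d‖ ^ 2) with hR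
    have hRp : 0 < R := Real.sqrt_pos.mpr (by linarith)
    have hR2 : R ^ 2 = 1 - ‖d‖ ^ 2 := Real.sq_sqrt (by linarith)
    set ρ := R / ‖q‖ with hρ
    have hρp : 0 < ρ := div_pos hRp ha
    set f : ℝ → ℝ := fun θ => t₀ + ρ * Real.sin θ with hf
    have himg : f '' Ioo (-(π / 2)) (π / 2) = Ioo (t₀ - ρ) (t₀ + ρ) := by
      ext t
      constructor
      · rintro ⟨θ, hθ, rfl⟩
        have h1 : Real.sin θ < 1 := by
          rw [← Real.sin_pi_div_two]
          exact Real.sin_lt_sin_of_lt_of_le_pi_div_two (by linarith [hθ.1]) le_rfl hθ.2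
        have h2 : -1 < Real.sin θ := by
          rw [← Real.sin_pi_div_two, ← Real.sin_neg]
          exact Real.sin_lt_sin_of_lt_of_le_pi_div_two le_rfl (by linarith [hθ.2]) hθ.1
        simp only [hf, mem_Ioo]
        constructor <;> nlinarith
      · rintro ⟨h1, h2⟩
        have a1 : -1 < (t - t₀) / ρ := by rw [lt_div_iff₀ hρp]; linarith
        have a2 : (t - t₀) / ρ < 1 := by rw [div_lt_iff₀ hρp]; linarith
        refine ⟨Real.arcsin ((t - t₀) / ρ), ⟨Real.neg_pi_div_two_lt_arcsin.mpr a1,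
          Real.arcsin_lt_pi_div_two.mpr a2⟩, ?_⟩
        simp only [hf]
        rw [Real.sin_arcsin a1.le a2.le, mul_div_cancel₀ _ hρp.ne']
        ring
    have hsupp : ∀ t, arch (d + (t - t₀) • q)
        = (Ioo (t₀ - ρ) (t₀ + ρ)).indicator (fun t => arch (d + (t - t₀) • q)) t := by
      intro t
      by_cases ht : t ∈ Ioo (t₀ - ρ) (t₀ + ρ)
      · rw [indicator_of_mem ht]
      · rw [indicator_of_notMem ht, arch_eq, if_neg]
        rw [hlt]
        intro h
        apply ht
        have h3 : ((t - t₀) * ‖q‖) ^ 2 < R ^ 2 := by rw [hR2, mul_pow]; linarith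
        obtain ⟨h4, h5⟩ := abs_lt.mp (by
          rwa [sq_lt_sq, abs_of_pos hRp] at h3 : |(t - t₀) * ‖q‖| < R)
        constructor
        · have : -ρ < t - t₀ := by rw [hρ, ← neg_div, div_lt_iff₀ ha]; linarith
          linarith
        · have : t - t₀ < ρ := by rw [hρ, lt_div_iff₀ ha]; linarith
          linarith
    have hder : ∀ θ ∈ Ioo (-(π / 2)) (π / 2),
        HasDerivWithinAt f (ρ * Real.cos θ) (Ioo (-(π / 2)) (π / 2)) θ := fun θ _ =>
      (((Real.hasDerivAt_sin θ).const_mul ρ).const_add t₀).hasDerivWithinAt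
    have hmono : MonotoneOn f (Ioo (-(π / 2)) (π / 2)) := fun a ha' b hb' hab => by
      simp only [hf]
      have := Real.monotoneOn_sin (Ioo_subset_Icc_self ha') (Ioo_subset_Icc_self hb') hab
      nlinarith
    rw [lintegral_congr hsupp, lintegral_indicator measurableSet_Ioo, ← himg,
      lintegral_image_eq_lintegral_deriv_mul_of_monotoneOn measurableSet_Ioo hder hmono]
    have hval : ∀ θ ∈ Ioo (-(π / 2)) (π / 2),
        ENNReal.ofReal (ρ * Real.cos θ) * arch (d + (f θ - t₀) • q) = ENNReal.ofReal (1 / ‖q‖) := by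
      intro θ hθ
      have hc : 0 < Real.cos θ := Real.cos_pos_of_mem_Ioo hθ
      have he : ‖d + (f θ - t₀) • q‖ ^ 2 = 1 - (R * Real.cos θ) ^ 2 := by
        have h' : f θ - t₀ = ρ * Real.sin θ := by simp [hf]
        have hρq : ρ * ‖q‖ = R := div_mul_cancel₀ R ha.ne'
        have hsc := Real.sin_sq_add_cos_sq θ
        rw [hsq, h', mul_pow, mul_pow]
        linear_combination Real.sin θ ^ 2 * (ρ * ‖q‖ + R) * hρq + R ^ 2 * hsc + hR2
      have hin : ‖d + (f θ - t₀) • q‖ < 1 := by
        rw [← sq_lt_one_iff₀ (norm_nonneg _), he]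
        nlinarith [mul_pos hRp hc]
      rw [arch_eq, if_pos hin, he, sub_sub_cancel, Real.sqrt_sq (by positivity),
        ← ENNReal.ofReal_mul (by positivity), hρ]
      congr 1
      field_simp
    rw [setLIntegral_congr_fun measurableSet_Ioo hval, setLIntegral_const, Real.volume_Ioo,
      ← ENNReal.ofReal_mul (by positivity)]
    congr 1
    ring
  · refine (lintegral_congr fun t => ?_).trans lintegral_zero
    rw [arch_eq, if_neg]
    rw [hlt]
    push Not at hd ⊢
    nlinarith [sq_nonneg ((t - t₀) * ‖q‖), norm_nonneg d]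

theorem lintegral_arch_affine_le (p q : Sp) (hq : q ≠ 0) :
    ∫⁻ t : ℝ, arch (p + t • q) ≤ ENNReal.ofReal (π / ‖q‖) := by
  have ha : ‖q‖ ≠ 0 := norm_ne_zero_iff.mpr hq
  set t₀ := -(⟪p, q⟫ / ‖q‖ ^ 2) with ht₀
  set d := p + t₀ • q with hd
  have hdq : ⟪d, q⟫ = 0 := by
    rw [hd, inner_add_left, real_inner_smul_left, real_inner_self_eq_norm_sq, ht₀]
    field_simp; ring
  have e : ∀ t : ℝ, p + t • q = d + (t - t₀) • q := fun t => by rw [hd]; module
  simp only [e]
  rw [lintegral_arch_line d q hq hdq t₀]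
  split_ifs
  · exact le_rfl
  · exact zero_le

theorem lintegral_arch : ∫⁻ x, arch x = ENNReal.ofReal (π ^ 2) := by
  obtain ⟨e, he⟩ : ∃ e : Sp, ‖e‖ = 1 := ⟨EuclideanSpace.basisFun (Fin 3) ℝ 0, by simp⟩
  have hz : ∀ z : Wp e, ∫⁻ t : ℝ, arch ((z : Sp) + t • e)
      = (Metric.ball (0 : Wp e) 1).indicator (fun _ => ENNReal.ofReal π) z := by
    intro z
    have h := lintegral_arch_line (z : Sp) e (by intro h; simp [h] at he)
      (by rw [real_inner_comm]; exact inner_Wp z) 0
    simp only [sub_zero, he, div_one] at h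
    rw [h]
    by_cases hz : ‖(z : Sp)‖ < 1
    · rw [if_pos hz, indicator_of_mem (mem_ball_zero_iff.mpr (by simpa using hz))]
    · rw [if_neg hz, indicator_of_notMem (fun hm => hz (by simpa using mem_ball_zero_iff.mp hm))]
  have h1 : ∫⁻ x, arch x = ∫⁻ x in univ, arch x := (setLIntegral_univ _).symm
  rw [h1, setLIntegral_lift he MeasurableSet.univ measurable_arch]
  simp only [indicator_univ]
  rw [lintegral_congr hz, lintegral_indicator_const measurableSet_ball]
  have hdim : Module.finrank ℝ (Wp e) = 2 * 1 := by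
    have : Fact (Module.finrank ℝ Sp = 2 + 1) := ⟨by simp⟩
    rw [Submodule.finrank_orthogonal_span_singleton (n := 2) (by intro h; simp [h] at he)]
  have : Nontrivial (Wp e) := Module.nontrivial_of_finrank_pos (R := ℝ) (by omega)
  rw [InnerProductSpace.volume_ball_of_dim_even hdim]
  simp [← ENNReal.ofReal_mul pi_nonneg, sq]

/-- If cylinders cover the ellipsoid `A ⁻¹' ball`, their bases have large total area. -/
theorem ellipsoid_cover {m : ℕ} (A : Sp →ₗ[ℝ] Sp) (hdet : LinearMap.det A ≠ 0) {c : ℝ} (hc : 0 < c)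
    (u : Fin m → Sp) (hu : ∀ i, ‖u i‖ = 1) (hA : ∀ i, c ≤ ‖A (u i)‖)
    (B : ∀ i, Set (Wp (u i))) (hB : ∀ i, MeasurableSet (B i))
    (hcov : A ⁻¹' Metric.ball 0 1 ⊆ ⋃ i, pr (u i) ⁻¹' B i) :
    ENNReal.ofReal (π * c * |(LinearMap.det A)⁻¹|) ≤ ∑ i, volume (B i) := by
  have hAm : Measurable A := A.continuous_of_finiteDimensional.measurable
  have hρ : Measurable fun x => arch (A x) := measurable_arch.comp hAm
  have hmass : ∫⁻ x, arch (A x) = ENNReal.ofReal (π ^ 2 * |(LinearMap.det A)⁻¹|) := by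
    rw [← lintegral_map measurable_arch hAm, Measure.map_linearMap_addHaar_eq_smul_addHaar volume hdet,
      lintegral_smul_measure, lintegral_arch, smul_eq_mul, ← ENNReal.ofReal_mul (abs_nonneg _)]
    congr 1; ring
  have hcyl : ∀ i, ∫⁻ x in pr (u i) ⁻¹' B i, arch (A x) ≤ ENNReal.ofReal (π / c) * volume (B i) := by
    intro i
    rw [setLIntegral_lift (hu i) ((hB i).preimage (pr (u i)).continuous.measurable) hρ,
      ← lintegral_indicator_const (hB i)]
    refine lintegral_mono fun z => ?_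
    by_cases hz : z ∈ B i
    · rw [indicator_of_mem hz]
      calc _ ≤ ∫⁻ t : ℝ, arch (A (z : Sp) + t • A (u i)) := by
            refine lintegral_mono fun t => ?_
            rw [← map_smul A t, ← map_add A]
            exact indicator_le_self' (fun _ _ => zero_le) _
        _ ≤ ENNReal.ofReal (π / ‖A (u i)‖) := lintegral_arch_affine_le _ _ (by
            intro h; have := hA i; rw [h, norm_zero] at this; linarith)
        _ ≤ _ := ENNReal.ofReal_le_ofReal (div_le_div_of_nonneg_left pi_nonneg hc (hA i))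
    · rw [indicator_of_notMem hz]
      refine le_of_eq ((lintegral_congr fun t => ?_).trans lintegral_zero)
      exact indicator_of_notMem (fun h => hz (by simpa [pr_lift] using h)) _
  have htot : ∫⁻ x, arch (A x) ≤ ENNReal.ofReal (π / c) * ∑ i, volume (B i) := by
    calc ∫⁻ x, arch (A x) = ∫⁻ x in A ⁻¹' Metric.ball 0 1, arch (A x) := by
          rw [← lintegral_indicator (measurableSet_ball.preimage hAm)]
          refine lintegral_congr fun x => ?_
          by_cases h : A x ∈ Metric.ball (0 : Sp) 1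
          · rw [indicator_of_mem (show x ∈ A ⁻¹' Metric.ball 0 1 from h)]
          · rw [indicator_of_notMem (show x ∉ A ⁻¹' Metric.ball 0 1 from h), arch, indicator_of_notMem h]
      _ ≤ ∫⁻ x in ⋃ i, pr (u i) ⁻¹' B i, arch (A x) := lintegral_mono_set hcov
      _ ≤ ∑' i, ∫⁻ x in pr (u i) ⁻¹' B i, arch (A x) := lintegral_iUnion_le _ _
      _ ≤ ∑ i, ENNReal.ofReal (π / c) * volume (B i) := by
          rw [tsum_fintype]; exact Finset.sum_le_sum fun i _ => hcyl i
      _ = _ := (Finset.mul_sum _ _ _).symm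
  rw [hmass] at htot
  refine (ENNReal.mul_le_mul_iff_right (a := ENNReal.ofReal (π / c)) ?_ ENNReal.ofReal_ne_top).mp ?_
  · exact (ENNReal.ofReal_pos.mpr (by positivity)).ne'
  · refine le_trans (le_of_eq ?_) htot
    rw [← ENNReal.ofReal_mul (by positivity)]
    congr 1; field_simp

end

end Vale.Agent.P243.Symm
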