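import Mathlib
import Vale.Agent.P243.Coplanar

open MeasureTheory Set
open scoped RealInnerProductSpace

namespace Vale.Agent.P243.Symm

noncomputable section

open Vale.Agent.P243.Coplanar (exists_third planeMap plane_area pr_coords sec)

/-- Two linear functionals bounded by one on `K` bound one shadow of `K`. -/
theorem exists_small_shadow {K : Set Sp} (hK : IsCompact K) {y z : Sp}
    (hy : ∀ x ∈ K, |⟪y, x⟫| ≤ 1) (hz : ∀ x ∈ K, |⟪z, x⟫| ≤ 1)
    (hg : 0 < ‖y‖ ^ 2 * ‖z‖ ^ 2 - ⟪y, z⟫ ^ 2) :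
    ∃ w : Sp, ‖w‖ = 1 ∧
      volume (pr w '' K) ≤ ENNReal.ofReal (4 / √(‖y‖ ^ 2 * ‖z‖ ^ 2 - ⟪y, z⟫ ^ 2)) := by
  have hy0 : y ≠ 0 := by intro h; simp [h] at hg
  set α := ‖y‖ with hα
  have hαp : 0 < α := norm_pos_iff.mpr hy0
  set v := α⁻¹ • y with hv
  have hv1 : ‖v‖ = 1 := norm_smul_inv_norm hy0
  set β := ⟪v, z⟫ with hβ
  set r := z - β • v with hr
  have hyz : ⟪y, z⟫ = α * β := by
    rw [hβ, hv, real_inner_smul_left]; field_simp
  have hr2 : ‖r‖ ^ 2 = ‖z‖ ^ 2 - β ^ 2 := by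
    rw [hr, norm_sub_sq_real, inner_smul_right, real_inner_comm v z, ← hβ, norm_smul, hv1, mul_one,
      Real.norm_eq_abs, sq_abs]
    ring
  have hgr : α ^ 2 * ‖z‖ ^ 2 - ⟪y, z⟫ ^ 2 = (α * ‖r‖) ^ 2 := by rw [hyz, mul_pow, mul_pow, hr2]; ring
  have hr0 : r ≠ 0 := by intro h; simp [hgr, h] at hg
  have hrp : 0 < ‖r‖ := norm_pos_iff.mpr hr0
  set n := ‖r‖⁻¹ • r with hn
  have hn1 : ‖n‖ = 1 := norm_smul_inv_norm hr0
  have hvr : ⟪v, r⟫ = 0 := by
    rw [hr, inner_sub_right, inner_smul_right, inner_self_unit hv1, ← hβ]; ring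
  have hvn : ⟪v, n⟫ = 0 := by rw [hn, inner_smul_right, hvr, mul_zero]
  obtain ⟨w, hw, hwv, hwn⟩ := exists_third v n
  have hwv' : ⟪w, v⟫ = 0 := by rw [real_inner_comm]; exact hwv
  have hwn' : ⟪w, n⟫ = 0 := by rw [real_inner_comm]; exact hwn
  refine ⟨w, hw, ?_⟩
  rw [plane_area hw hv1 hn1 hvn hwv' hwn' (hK.image (pr w).continuous).isClosed.measurableSet]
  have hsec : ∀ t : ℝ, volume (sec hv1 hn1 hvn hwv' hwn' (pr w '' K) t)
      ≤ (Icc (-(1 / α)) (1 / α)).indicator (fun _ => ENNReal.ofReal (2 / ‖r‖)) t := by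
    intro t
    have hmem : ∀ s ∈ sec hv1 hn1 hvn hwv' hwn' (pr w '' K) t,
        t ∈ Icc (-(1 / α)) (1 / α) ∧ s ∈ Icc ((-1 - β * t) / ‖r‖) ((1 - β * t) / ‖r‖) := by
      rintro s ⟨x, hx, hxe⟩
      rw [pr_coords hw hv1 hn1 hvn hwv' hwn'] at hxe
      have hpair := WithLp.toLp_injective 2 ((planeMap hv1 hn1 hvn hwv' hwn').injective hxe)
      have hvx : ⟪v, x⟫ = t := congrArg Prod.fst hpair
      have hnx : ⟪n, x⟫ = s := congrArg Prod.snd hpair
      have h1 : ⟪y, x⟫ = α * t := by rw [← hvx, hv, real_inner_smul_left]; field_simp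
      have h2 : ⟪z, x⟫ = β * t + ‖r‖ * s := by
        have e : z = β • v + ‖r‖ • n := by
          rw [hn, smul_smul ‖r‖ ‖r‖⁻¹ r, mul_inv_cancel₀ hrp.ne', one_smul, hr]; abel
        rw [e, inner_add_left, real_inner_smul_left v x β, real_inner_smul_left n x ‖r‖, hvx, hnx]
      have a1 := abs_le.mp (h1 ▸ hy x hx)
      have a2 := abs_le.mp (h2 ▸ hz x hx)
      refine ⟨⟨?_, ?_⟩, ?_, ?_⟩
      · rw [← neg_div, div_le_iff₀ hαp]; linarith [a1.1]
      · rw [le_div_iff₀ hαp]; linarith [a1.2]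
      · rw [div_le_iff₀ hrp]; linarith [a2.1]
      · rw [le_div_iff₀ hrp]; linarith [a2.2]
    by_cases ht : t ∈ Icc (-(1 / α)) (1 / α)
    · rw [indicator_of_mem ht]
      refine (measure_mono fun s hs => (hmem s hs).2).trans ?_
      rw [Real.volume_Icc]
      exact ENNReal.ofReal_le_ofReal (le_of_eq (by ring))
    · rw [indicator_of_notMem ht, eq_empty_of_forall_notMem fun s hs => ht (hmem s hs).1]
      simp
  refine (lintegral_mono hsec).trans (le_of_eq ?_)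
  rw [lintegral_indicator_const measurableSet_Icc, Real.volume_Icc,
    ← ENNReal.ofReal_mul (by positivity), hgr, Real.sqrt_sq (by positivity)]
  congr 1; field_simp; ring

end

end Vale.Agent.P243.Symm
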