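import Mathlib
import Vale.Agent.P243.Spheroid
import Vale.Agent.P243.SymShadow

open MeasureTheory Set Real
open scoped RealInnerProductSpace

namespace Vale.Agent.P243.Symm

noncomputable section

local instance : Nontrivial Sp := Module.nontrivial_of_finrank_pos (R := ℝ) (by simp)

/-- The rank-one form `x ↦ ⟪z, x⟫ z`. -/
def outer (z : Sp) : Sp →L[ℝ] Sp := (innerSL ℝ z).smulRight z

theorem outer_apply (z x : Sp) : outer z x = ⟪z, x⟫ • z := rfl

theorem continuous_outer : Continuous outer := by unfold outer; fun_prop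

/-- Trace. -/
def tr : (Sp →L[ℝ] Sp) →ₗ[ℝ] ℝ :=
  (LinearMap.trace ℝ Sp).comp (ContinuousLinearMap.coeLM ℝ)

theorem tr_eq (T : Sp →L[ℝ] Sp) (e : OrthonormalBasis (Fin 3) ℝ Sp) :
    tr T = ∑ i, ⟪e i, T (e i)⟫ := by
  simp [tr, LinearMap.trace_eq_sum_inner _ e]

theorem tr_comp_comm (S T : Sp →L[ℝ] Sp) : tr (S.comp T) = tr (T.comp S) :=
  LinearMap.trace_comp_comm' (T : Sp →ₗ[ℝ] Sp) (S : Sp →ₗ[ℝ] Sp)

/-- The bilinear form `tr S tr T - tr (S T)`. -/
def bf (S T : Sp →L[ℝ] Sp) : ℝ := tr S * tr T - tr (S.comp T)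

theorem bf_comm (S T : Sp →L[ℝ] Sp) : bf S T = bf T S := by rw [bf, bf, tr_comp_comm, mul_comm]

theorem bf_comb (a b : ℝ) (S T U : Sp →L[ℝ] Sp) :
    bf (a • S + b • T) U = a * bf S U + b * bf T U := by
  simp only [bf, ContinuousLinearMap.add_comp, ContinuousLinearMap.smul_comp, map_add, map_smul,
    smul_eq_mul]
  ring

theorem continuous_bf : Continuous fun p : (Sp →L[ℝ] Sp) × (Sp →L[ℝ] Sp) => bf p.1 p.2 := by
  have h : Continuous tr := tr.continuous_of_finiteDimensional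
  unfold bf
  exact ((h.comp continuous_fst).mul (h.comp continuous_snd)).sub
    (h.comp (continuous_fst.clm_comp continuous_snd))

theorem tr_outer_comp (z : Sp) (T : Sp →L[ℝ] Sp) : tr (T.comp (outer z)) = ⟪z, T z⟫ := by
  rw [tr_eq _ (EuclideanSpace.basisFun (Fin 3) ℝ)]
  set e := EuclideanSpace.basisFun (Fin 3) ℝ
  calc ∑ i, ⟪e i, T.comp (outer z) (e i)⟫ = ∑ i, ⟪z, e i⟫ * ⟪e i, T z⟫ :=
        Finset.sum_congr rfl fun i _ => by
          rw [ContinuousLinearMap.comp_apply, outer_apply, map_smul, inner_smul_right]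
    _ = ⟪z, T z⟫ := e.sum_inner_mul_inner z (T z)

theorem tr_outer (z : Sp) : tr (outer z) = ‖z‖ ^ 2 := by
  have h := tr_outer_comp z (ContinuousLinearMap.id ℝ Sp)
  rw [ContinuousLinearMap.id_comp] at h
  rw [h, ContinuousLinearMap.id_apply, real_inner_self_eq_norm_sq]

theorem bf_outer (z : Sp) (T : Sp →L[ℝ] Sp) : bf T (outer z) = tr T * ‖z‖ ^ 2 - ⟪z, T z⟫ := by
  rw [bf, tr_outer, tr_outer_comp]

theorem bf_outer_outer (y z : Sp) :
    bf (outer y) (outer z) = ‖y‖ ^ 2 * ‖z‖ ^ 2 - ⟪y, z⟫ ^ 2 := by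
  rw [bf_outer, tr_outer, outer_apply, inner_smul_right, real_inner_comm z y]
  ring

/-- Symmetric positive semidefinite operators. -/
def Psd : Set (Sp →L[ℝ] Sp) :=
  {T | (∀ x y, ⟪T x, y⟫ = ⟪x, T y⟫) ∧ ∀ x, 0 ≤ ⟪x, T x⟫}

theorem isClosed_Psd : IsClosed Psd := by
  have e : Psd = (⋂ x : Sp, ⋂ y : Sp, {T : Sp →L[ℝ] Sp | ⟪T x, y⟫ = ⟪x, T y⟫})
      ∩ ⋂ x : Sp, {T : Sp →L[ℝ] Sp | 0 ≤ ⟪x, T x⟫} := by ext T; simp [Psd]
  rw [e]
  exact (isClosed_iInter fun x => isClosed_iInter fun y => isClosed_eq (by fun_prop) (by fun_prop)).inter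
    (isClosed_iInter fun x => isClosed_le continuous_const (by fun_prop))

theorem convex_Psd : Convex ℝ Psd := by
  intro S hS T hT a b ha hb _
  refine ⟨fun x y => ?_, fun x => ?_⟩
  · simp only [add_apply, smul_apply, inner_add_left, inner_add_right,
      real_inner_smul_left, inner_smul_right, hS.1 x y, hT.1 x y]
  · simp only [add_apply, smul_apply, inner_add_right, inner_smul_right]
    have := hS.2 x; have := hT.2 x; positivity

theorem outer_mem_Psd (z : Sp) : outer z ∈ Psd := by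
  refine ⟨fun x y => ?_, fun x => ?_⟩
  · rw [outer_apply, outer_apply, real_inner_smul_left, inner_smul_right, real_inner_comm x z]; ring
  · rw [outer_apply, inner_smul_right, real_inner_comm x z]; exact mul_self_nonneg _

theorem key_ineq {a b c d : ℝ} (ha : 0 ≤ a) (hb : 0 ≤ b) (hc : 0 ≤ c)
    (hd : d = a ∨ d = b ∨ d = c) :
    ((a + b + c) ^ 2 - (a ^ 2 + b ^ 2 + c ^ 2)) / 2 * (a + b + c - d)
      ≤ (a + b + c - a) * (a + b + c - b) * (a + b + c - c) := by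
  rcases hd with rfl | rfl | rfl <;>
    nlinarith [mul_nonneg ha hb, mul_nonneg hb hc, mul_nonneg ha hc, mul_nonneg (mul_nonneg ha hb) hc]

theorem ellipsoid_of_form {K : Set Sp} (hK : Convex ℝ K) (hc : IsCompact K)
    (h0 : (0 : Sp) ∈ interior K) (hsym : ∀ x ∈ K, -x ∈ K) (T : Sp →L[ℝ] Sp) (hTp : T ∈ Psd)
    (g β : ℝ) (hβ : β = bf T T) (hβp : 0 < β) (hβg : β ≤ g)
    (hfirst : ∀ q : Sp, (∀ x ∈ K, |⟪q, x⟫| ≤ 1) → bf T (outer q) ≤ β) :
    ∃ (A : Sp →ₗ[ℝ] Sp) (c : ℝ), LinearMap.det A ≠ 0 ∧ 0 < c ∧ A ⁻¹' Metric.ball 0 1 ⊆ K ∧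
      (∀ u : Sp, ‖u‖ = 1 → c ≤ ‖A u‖) ∧
      1 / √(2 * g) ≤ c * |(LinearMap.det A)⁻¹| := by
  have hgp : 0 < g := lt_of_lt_of_le hβp hβg
  -- diagonalise
  have hTs : (T : Sp →ₗ[ℝ] Sp).IsSymmetric := hTp.1
  have hdim : Module.finrank ℝ Sp = 3 := by simp
  set b := hTs.eigenvectorBasis hdim with hb
  set l := hTs.eigenvalues hdim with hldef
  have hTb : ∀ k, T (b k) = l k • b k := fun k => hTs.apply_eigenvectorBasis hdim k
  have hl0 : ∀ k, 0 ≤ l k := fun k => by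
    have h := hTp.2 (b k)
    rw [hTb, inner_smul_right, inner_self_unit (b.orthonormal.1 k), mul_one] at h
    exact h
  set Λ := l 0 + l 1 + l 2 with hΛ
  have htr : tr T = Λ := by
    rw [tr_eq T b, Fin.sum_univ_three]
    simp [hTb, inner_smul_right, b.orthonormal.1, hΛ]
  have hT2 : tr (T.comp T) = l 0 ^ 2 + l 1 ^ 2 + l 2 ^ 2 := by
    rw [tr_eq _ b, Fin.sum_univ_three]
    simp [hTb, inner_smul_right, b.orthonormal.1, sq]
  have hβl : β = Λ ^ 2 - (l 0 ^ 2 + l 1 ^ 2 + l 2 ^ 2) := by rw [hβ, bf, htr, hT2]; ring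
  have hquad : ∀ x, bf T (outer x) = ∑ k, (Λ - l k) * ⟪b k, x⟫ ^ 2 := by
    intro x
    have hn : ‖x‖ ^ 2 = ∑ k, ⟪b k, x⟫ ^ 2 := by rw [← b.sum_sq_inner_right x]
    have hq : ⟪x, T x⟫ = ∑ k, l k * ⟪b k, x⟫ ^ 2 := by
      rw [← b.sum_inner_mul_inner x (T x)]
      refine Finset.sum_congr rfl fun k _ => ?_
      rw [← hTp.1 (b k) x, hTb, real_inner_smul_left, real_inner_comm (b k) x]; ring
    rw [bf_outer, htr, hn, hq, Finset.mul_sum, ← Finset.sum_sub_distrib]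
    exact Finset.sum_congr rfl fun k _ => by ring
  have hgap : ∀ k, 0 < Λ - l k := by
    intro k
    have := hl0 0; have := hl0 1; have := hl0 2
    by_contra hle
    push Not at hle
    rw [hβl, hΛ] at hβp
    fin_cases k <;> simp [hΛ] at hle <;> nlinarith
  set s : Fin 3 → ℝ := fun k => √((Λ - l k) / β) with hs
  have hsp : ∀ k, 0 < s k := fun k => Real.sqrt_pos.mpr (div_pos (hgap k) hβp)
  have hs2 : ∀ k, s k ^ 2 = (Λ - l k) / β := fun k => Real.sq_sqrt (div_pos (hgap k) hβp).le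
  let A : Sp →ₗ[ℝ] Sp := ∑ k, (s k)⁻¹ • ((innerₛₗ ℝ (b k)).smulRight (b k))
  have hAx : ∀ x k, ⟪b k, A x⟫ = (s k)⁻¹ * ⟪b k, x⟫ := by
    intro x k
    simp [A, LinearMap.sum_apply, inner_sum, inner_smul_right, b.inner_eq_ite]
  have hAn : ∀ x, ‖A x‖ ^ 2 = ∑ k, ((s k)⁻¹ * ⟪b k, x⟫) ^ 2 := by
    intro x; rw [← b.sum_sq_inner_right (A x)]; simp only [hAx]
  have hdetA : LinearMap.det A = (s 0 * s 1 * s 2)⁻¹ := by
    rw [← LinearMap.det_toMatrix b.toBasis]
    have : LinearMap.toMatrix b.toBasis b.toBasis A = Matrix.diagonal fun k => (s k)⁻¹ := by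
      ext i j
      rw [LinearMap.toMatrix_apply, OrthonormalBasis.coe_toBasis, OrthonormalBasis.coe_toBasis_repr_apply,
        OrthonormalBasis.repr_apply_apply, hAx, b.inner_eq_ite]
      by_cases h : i = j <;> simp [h]
    rw [this, Matrix.det_diagonal, Fin.prod_univ_three, mul_inv, mul_inv]
  obtain ⟨j, -, hj⟩ := Finset.exists_max_image (Finset.univ : Finset (Fin 3)) s ⟨0, Finset.mem_univ _⟩
  refine ⟨A, (s j)⁻¹, ?_, inv_pos.mpr (hsp j), ?_, ?_, ?_⟩
  · rw [hdetA]; exact (inv_pos.mpr (by have := hsp 0; have := hsp 1; have := hsp 2; positivity)).ne'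
  · intro x hx
    by_contra hxK
    obtain ⟨f, a, hfK, hfx⟩ := geometric_hahn_banach_closed_point hK hc.isClosed hxK
    have ha : 0 < a := by simpa using hfK 0 (interior_subset h0)
    set q := a⁻¹ • (InnerProductSpace.toDual ℝ Sp).symm f with hq
    have hqf : ∀ w, ⟪q, w⟫ = a⁻¹ * f w := fun w => by
      rw [hq, real_inner_smul_left, InnerProductSpace.toDual_symm_apply]
    have hqL : ∀ w ∈ K, |⟪q, w⟫| ≤ 1 := fun w hw => by
      rw [hqf, abs_le]
      have h1 := hfK w hw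
      have h2 := hfK (-w) (hsym w hw)
      rw [map_neg] at h2
      constructor
      · rw [le_inv_mul_iff₀ ha]; linarith
      · rw [inv_mul_le_iff₀ ha]; linarith
    have hxq : 1 < ⟪q, x⟫ := by rw [hqf, lt_inv_mul_iff₀ ha]; linarith
    have hF : ∑ k, (s k * ⟪b k, q⟫) ^ 2 ≤ 1 := by
      have h := hfirst q hqL
      rw [hquad] at h
      calc ∑ k, (s k * ⟪b k, q⟫) ^ 2 = (∑ k, (Λ - l k) * ⟪b k, q⟫ ^ 2) / β := by
            rw [Finset.sum_div]
            exact Finset.sum_congr rfl fun k _ => by rw [mul_pow, hs2]; ring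
        _ ≤ 1 := (div_le_one hβp).mpr h
    have hA1 : ‖A x‖ ^ 2 < 1 :=
      (sq_lt_one_iff₀ (norm_nonneg _)).mpr (mem_ball_zero_iff.mp hx)
    rw [hAn] at hA1
    have hcs := Finset.sum_mul_sq_le_sq_mul_sq Finset.univ (fun k => s k * ⟪b k, q⟫)
      (fun k => (s k)⁻¹ * ⟪b k, x⟫)
    have hprod : ∑ k, (s k * ⟪b k, q⟫) * ((s k)⁻¹ * ⟪b k, x⟫) = ⟪q, x⟫ := by
      rw [← b.sum_inner_mul_inner q x]
      refine Finset.sum_congr rfl fun k _ => ?_
      rw [real_inner_comm q (b k)]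
      have := (hsp k).ne'
      field_simp
    rw [hprod] at hcs
    have h5 : (∑ k, (s k * ⟪b k, q⟫) ^ 2) * ∑ k, ((s k)⁻¹ * ⟪b k, x⟫) ^ 2 ≤ 1 :=
      mul_le_one₀ hF (Finset.sum_nonneg fun k _ => sq_nonneg _) hA1.le
    nlinarith
  · intro u hu
    rw [← sq_le_sq₀ (inv_pos.mpr (hsp j)).le (norm_nonneg _), hAn]
    calc ((s j)⁻¹) ^ 2 = ∑ k, ((s j)⁻¹) ^ 2 * ⟪b k, u⟫ ^ 2 := by
          rw [← Finset.mul_sum, b.sum_sq_inner_right, hu, one_pow, mul_one]
      _ ≤ _ := Finset.sum_le_sum fun k _ => by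
          rw [mul_pow]
          refine mul_le_mul_of_nonneg_right (pow_le_pow_left₀ (inv_pos.mpr (hsp j)).le ?_ 2) (sq_nonneg _)
          exact inv_anti₀ (hsp k) (hj k (Finset.mem_univ k))
  · have hp : 0 < s 0 * s 1 * s 2 := by have := hsp 0; have := hsp 1; have := hsp 2; positivity
    rw [hdetA, inv_inv, abs_of_pos hp]
    have hn : 0 ≤ (s j)⁻¹ * (s 0 * s 1 * s 2) := (mul_pos (inv_pos.mpr (hsp j)) hp).le
    rw [← abs_of_nonneg hn, ← Real.sqrt_sq_eq_abs, ← Real.sqrt_one, ← Real.sqrt_div zero_le_one]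
    refine Real.sqrt_le_sqrt ?_
    rw [mul_pow, inv_pow, mul_pow, mul_pow, hs2, hs2, hs2, hs2]
    have h0' := hgap 0; have h1' := hgap 1; have h2' := hgap 2; have hj' := hgap j
    have key : β / 2 * (Λ - l j) ≤ (Λ - l 0) * (Λ - l 1) * (Λ - l 2) := by
      rw [hβl, hΛ]
      exact key_ineq (hl0 0) (hl0 1) (hl0 2) (by fin_cases j <;> simp)
    rw [show ((Λ - l j) / β)⁻¹ * ((Λ - l 0) / β * ((Λ - l 1) / β) * ((Λ - l 2) / β))
        = (Λ - l 0) * (Λ - l 1) * (Λ - l 2) / ((Λ - l j) * β ^ 2) by field_simp,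
      div_le_div_iff₀ (by positivity) (by positivity), one_mul]
    calc (Λ - l j) * β ^ 2 = β / 2 * (Λ - l j) * (2 * β) := by ring
      _ ≤ (Λ - l 0) * (Λ - l 1) * (Λ - l 2) * (2 * β) := mul_le_mul_of_nonneg_right key (by linarith)
      _ ≤ _ := mul_le_mul_of_nonneg_left (by linarith) (by positivity)

theorem exists_ellipsoid_and_pair {K : Set Sp} (hK : Convex ℝ K) (hc : IsCompact K)
    (h0 : (0 : Sp) ∈ interior K) (hsym : ∀ x ∈ K, -x ∈ K) :
    ∃ y z : Sp, (∀ x ∈ K, |⟪y, x⟫| ≤ 1) ∧ (∀ x ∈ K, |⟪z, x⟫| ≤ 1) ∧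
      0 < ‖y‖ ^ 2 * ‖z‖ ^ 2 - ⟪y, z⟫ ^ 2 ∧
      ∃ (A : Sp →ₗ[ℝ] Sp) (c : ℝ), LinearMap.det A ≠ 0 ∧ 0 < c ∧ A ⁻¹' Metric.ball 0 1 ⊆ K ∧
        (∀ u : Sp, ‖u‖ = 1 → c ≤ ‖A u‖) ∧
        1 / √(2 * (‖y‖ ^ 2 * ‖z‖ ^ 2 - ⟪y, z⟫ ^ 2)) ≤ c * |(LinearMap.det A)⁻¹| := by
  set L : Set Sp := {z | ∀ x ∈ K, |⟪z, x⟫| ≤ 1} with hL
  obtain ⟨r, hr, hball⟩ := Metric.isOpen_iff.mp isOpen_interior 0 h0
  obtain ⟨R, hR⟩ := hc.isBounded.exists_norm_le
  have hLb : ∀ z ∈ L, ‖z‖ ≤ 2 / r := by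
    intro z hz
    rcases eq_or_ne z 0 with rfl | h
    · rw [norm_zero]; positivity
    have hmem : (r / 2 / ‖z‖) • z ∈ K := interior_subset (hball (by
      rw [mem_ball_zero_iff, norm_smul, Real.norm_eq_abs, abs_of_pos (div_pos (by linarith) (norm_pos_iff.mpr h)),
        div_mul_cancel₀ _ (norm_ne_zero_iff.mpr h)]
      linarith))
    have := (abs_le.mp (hz _ hmem)).2
    rw [inner_smul_right, real_inner_self_eq_norm_sq] at this
    rw [le_div_iff₀ hr]
    field_simp at this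
    linarith
  have hLc : IsClosed L := by
    have e : L = ⋂ x ∈ K, {z : Sp | |⟪z, x⟫| ≤ 1} := by ext z; simp [hL]
    rw [e]
    exact isClosed_biInter fun x _ => isClosed_le (by fun_prop) continuous_const
  have hLk : IsCompact L :=
    (isCompact_closedBall (0 : Sp) (2 / r)).of_isClosed_subset hLc
      fun z hz => mem_closedBall_zero_iff.mpr (hLb z hz)
  have hR0 : 0 ≤ R := le_trans (norm_nonneg _) (hR 0 (interior_subset h0))
  let δ := (R + 1)⁻¹
  have hδ : 0 < δ := inv_pos.mpr (by linarith)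
  have hax : ∀ i, δ • (EuclideanSpace.basisFun (Fin 3) ℝ i) ∈ L := by
    intro i x hx
    rw [real_inner_smul_left, abs_mul, abs_of_pos hδ]
    calc δ * |⟪EuclideanSpace.basisFun (Fin 3) ℝ i, x⟫| ≤ δ * (1 * R) :=
          mul_le_mul_of_nonneg_left ((abs_real_inner_le_norm _ _).trans (by simpa using hR x hx)) hδ.le
      _ ≤ 1 := by rw [inv_mul_le_iff₀ (by linarith)]; linarith
  -- the pair of largest area
  have hgc : Continuous fun p : Sp × Sp => ‖p.1‖ ^ 2 * ‖p.2‖ ^ 2 - ⟪p.1, p.2⟫ ^ 2 := by fun_prop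
  obtain ⟨⟨y, z⟩, ⟨hy, hz⟩, hmax⟩ :=
    (hLk.prod hLk).exists_isMaxOn ⟨(_, _), hax 0, hax 1⟩ hgc.continuousOn
  set g := ‖y‖ ^ 2 * ‖z‖ ^ 2 - ⟪y, z⟫ ^ 2 with hg
  set e := EuclideanSpace.basisFun (Fin 3) ℝ with he
  have hδg : δ ^ 4 ≤ g := by
    have h := hmax (a := (δ • e 0, δ • e 1)) ⟨hax 0, hax 1⟩
    have hi : ⟪e 0, e 1⟫ = 0 := e.orthonormal.inner_eq_zero (by decide)
    simp only [norm_smul, real_inner_smul_left, inner_smul_right, hi, e.orthonormal.1,
      Real.norm_eq_abs, abs_of_pos hδ, mem_ofPred_eq] at h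
    linarith [show δ ^ 4 = (δ * 1) ^ 2 * (δ * 1) ^ 2 - (δ * (δ * 0)) ^ 2 by ring]
  have hgp : 0 < g := lt_of_lt_of_le (pow_pos hδ 4) hδg
  refine ⟨y, z, hy, hz, hgp, ?_⟩
  -- the optimal form
  set C := closure (convexHull ℝ (outer '' L)) with hC
  have hCc : IsCompact C :=
    ((isBounded_convexHull.mpr (hLk.image continuous_outer).isBounded).isCompact_closure)
  have hCv : Convex ℝ C := (convex_convexHull ℝ _).closure
  have hgen : ∀ x ∈ L, outer x ∈ C := fun x hx =>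
    subset_closure (subset_convexHull ℝ _ (mem_image_of_mem _ hx))
  have hext : ∀ (U : Sp →L[ℝ] Sp) (a : ℝ), (∀ x ∈ L, bf (outer x) U ≤ a) → ∀ S ∈ C, bf S U ≤ a := by
    intro U a h S hS
    have hcl : IsClosed {S : Sp →L[ℝ] Sp | bf S U ≤ a} :=
      isClosed_le (continuous_bf.comp (continuous_id.prodMk continuous_const)) continuous_const
    refine closure_minimal (convexHull_min ?_ ?_) hcl hS
    · rintro _ ⟨x, hx, rfl⟩; exact h x hx
    · intro S1 h1 S2 h2 w1 w2 hw1 hw2 hw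
      simp only [mem_ofPred_eq] at *
      rw [bf_comb]
      calc w1 * bf S1 U + w2 * bf S2 U ≤ w1 * a + w2 * a :=
            add_le_add (mul_le_mul_of_nonneg_left h1 hw1) (mul_le_mul_of_nonneg_left h2 hw2)
        _ = a := by rw [← add_mul, hw, one_mul]
  obtain ⟨T, hT, hTmax⟩ := hCc.exists_isMaxOn ⟨_, hgen _ (hax 0)⟩
    (continuous_bf.comp (continuous_id.prodMk continuous_id)).continuousOn
  set β := bf T T with hβ
  have hmax' : ∀ S ∈ C, bf S S ≤ β := fun S hS => hTmax hS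
  have hfirst : ∀ S ∈ C, bf S T ≤ β := by
    intro S hS
    by_contra hlt
    push Not at hlt
    set D := bf S T - β with hD
    have hDp : 0 < D := by linarith
    set E := bf S S - 2 * bf S T + β with hE
    set t := min 1 (D / (|E| + 1)) with ht
    have ht0 : 0 < t := lt_min one_pos (div_pos hDp (by positivity))
    have ht1 : t ≤ 1 := min_le_left _ _
    have htE : t * (|E| + 1) ≤ D := (le_div_iff₀ (by positivity)).mp (min_le_right _ _)
    have hmem := hmax' _ (hCv hT hS (by linarith : 0 ≤ 1 - t) ht0.le (by ring))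
    have hexp : bf ((1 - t) • T + t • S) ((1 - t) • T + t • S) = β + 2 * t * D + t ^ 2 * E := by
      rw [bf_comb, bf_comm T, bf_comm S, bf_comb, bf_comb, bf_comm T S, hD, hE, hβ]; ring
    rw [hexp] at hmem
    have h3 : t ^ 2 * -E ≤ t * D := by
      calc t ^ 2 * -E ≤ t ^ 2 * (|E| + 1) :=
            mul_le_mul_of_nonneg_left (by linarith [neg_abs_le E]) (sq_nonneg _)
        _ = t * (t * (|E| + 1)) := by ring
        _ ≤ t * D := mul_le_mul_of_nonneg_left htE ht0.le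
    nlinarith [mul_pos ht0 hDp]
  have hβg : β ≤ g := by
    refine hext T g (fun x hx => ?_) T hT
    rw [bf_comm]
    refine hext (outer x) g (fun x' hx' => ?_) T hT
    rw [bf_outer_outer]
    exact hmax (a := (x', x)) ⟨hx', hx⟩
  have hβp : 0 < β := by
    have h := hmax' _ (hCv (hgen _ (hax 0)) (hgen _ (hax 1))
      (by norm_num : (0:ℝ) ≤ 1/2) (by norm_num : (0:ℝ) ≤ 1/2) (by norm_num))
    rw [bf_comb, bf_comm (outer (δ • e 0)), bf_comm (outer (δ • e 1)), bf_comb, bf_comb,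
      bf_outer_outer, bf_outer_outer, bf_outer_outer, bf_outer_outer] at h
    have hi : ⟪e 0, e 1⟫ = 0 := e.orthonormal.inner_eq_zero (by decide)
    have hi' : ⟪e 1, e 0⟫ = 0 := e.orthonormal.inner_eq_zero (by decide)
    simp only [norm_smul, real_inner_smul_left, inner_smul_right, hi, hi', e.orthonormal.1,
      Real.norm_eq_abs, abs_of_pos hδ, inner_self_unit (e.orthonormal.1 _)] at h
    nlinarith [pow_pos hδ 4]
  have hTp : T ∈ Psd := by
    refine closure_minimal (convexHull_min ?_ convex_Psd) isClosed_Psd hT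
    rintro _ ⟨x, -, rfl⟩; exact outer_mem_Psd x
  exact ellipsoid_of_form hK hc h0 hsym T hTp g β hβ hβp hβg fun q hq => by
    rw [bf_comm]; exact hfirst _ (hgen q hq)

theorem symmetric_bound_centred {K : Set Sp} (hK : Convex ℝ K) (hc : IsCompact K)
    (h0 : (0 : Sp) ∈ interior K) (hsym : ∀ x ∈ K, -x ∈ K) {m : ℕ} (u : Fin m → Sp)
    (hu : ∀ i, ‖u i‖ = 1) (B : ∀ i, Set (Wp (u i))) (hB : ∀ i, MeasurableSet (B i))
    (hcov : K ⊆ ⋃ i, pr (u i) ⁻¹' B i) :
    ∃ w : Sp, ‖w‖ = 1 ∧ ENNReal.ofReal (π / (4 * √2)) * volume (pr w '' K) ≤ ∑ i, volume (B i) := by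
  obtain ⟨y, z, hy, hz, hg, A, c, hdet, hcp, hAK, hAu, hkey⟩ := exists_ellipsoid_and_pair hK hc h0 hsym
  obtain ⟨w, hw, hsh⟩ := exists_small_shadow hc hy hz hg
  refine ⟨w, hw, ?_⟩
  have h := ellipsoid_cover A hdet hcp u hu (fun i => hAu _ (hu i)) B hB (hAK.trans hcov)
  set g := ‖y‖ ^ 2 * ‖z‖ ^ 2 - ⟪y, z⟫ ^ 2 with hgdef
  refine le_trans ?_ h
  calc ENNReal.ofReal (π / (4 * √2)) * volume (pr w '' K)
      ≤ ENNReal.ofReal (π / (4 * √2)) * ENNReal.ofReal (4 / √g) := mul_le_mul_right hsh _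
    _ ≤ _ := by
        rw [← ENNReal.ofReal_mul (by positivity)]
        refine ENNReal.ofReal_le_ofReal ?_
        rw [Real.sqrt_mul (by norm_num : (0:ℝ) ≤ 2)] at hkey
        calc π / (4 * √2) * (4 / √g) = π * (1 / (√2 * √g)) := by
              have : 0 < √g := Real.sqrt_pos.mpr hg
              field_simp
          _ ≤ π * (c * |(LinearMap.det A)⁻¹|) := mul_le_mul_of_nonneg_left hkey pi_nonneg
          _ = _ := by ring

/-- Bang's half-area inequality, with room to spare, for centrally symmetric bodies. -/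
theorem symmetric_bound {K : Set Sp} (hK : Convex ℝ K) (hc : IsCompact K)
    (hi : (interior K).Nonempty) (p : Sp) (hsym : ∀ x ∈ K, (2:ℝ) • p - x ∈ K) {m : ℕ}
    (u : Fin m → Sp) (hu : ∀ i, ‖u i‖ = 1) (B : ∀ i, Set (Wp (u i)))
    (hcov : K ⊆ ⋃ i, pr (u i) ⁻¹' B i) :
    ∃ w : Sp, ‖w‖ = 1 ∧ ENNReal.ofReal (π / (4 * √2)) * volume (pr w '' K) ≤ ∑ i, volume (B i) := by
  set K' := (fun x => x + p) ⁻¹' K with hK'
  have hK'c : IsCompact K' := (Homeomorph.addRight p).isCompact_preimage.mpr hc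
  have hK'v : Convex ℝ K' := hK.translate_preimage_left p
  have hK's : ∀ x ∈ K', -x ∈ K' := by
    intro x hx
    have := hsym _ hx
    simp only [hK', mem_preimage]
    convert this using 1
    module
  have hint : (0 : Sp) ∈ interior K' := by
    have e : interior K' = (fun x => x + p) ⁻¹' interior K :=
      ((Homeomorph.addRight p).preimage_interior K).symm
    obtain ⟨x, hx⟩ := hi
    have hxp : x - p ∈ interior K' := by rw [e]; simpa using hx
    have hneg : -(x - p) ∈ K' := hK's _ (interior_subset hxp)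
    have := hK'v.combo_interior_self_mem_interior hxp hneg (by norm_num : (0:ℝ) < 1/2)
      (by norm_num : (0:ℝ) ≤ 1/2) (by norm_num)
    convert this using 1
    module
  let B' : ∀ i, Set (Wp (u i)) := fun i => (fun z => z + pr (u i) p) ⁻¹' toMeasurable volume (B i)
  obtain ⟨w, hw, h⟩ := symmetric_bound_centred hK'v hK'c hint hK's u hu B'
    (fun i => (measurableSet_toMeasurable _ _).preimage (by fun_prop)) (by
      intro x hx
      obtain ⟨i, hi'⟩ := mem_iUnion.mp (hcov hx)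
      refine mem_iUnion.mpr ⟨i, ?_⟩
      simp only [B', mem_preimage, ← map_add]
      exact subset_toMeasurable _ _ hi')
  refine ⟨w, hw, ?_⟩
  have e1 : ∀ i, volume (B' i) = volume (B i) := fun i => by
    simp only [B']
    rw [measure_preimage_add_right, measure_toMeasurable]
  have e2 : pr w '' K' = (fun z => z + pr w p) ⁻¹' (pr w '' K) := by
    ext z
    constructor
    · rintro ⟨x, hx, rfl⟩; exact ⟨x + p, hx, map_add _ _ _⟩
    · rintro ⟨x, hx, hxz⟩
      exact ⟨x - p, by simpa [hK'] using hx, by rw [map_sub, hxz, add_sub_cancel_right]⟩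
  rw [e2, measure_preimage_add_right] at h
  simpa only [e1] using h

end

end Vale.Agent.P243.Symm
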