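import Vale.Agent.P243.Tetra
import Vale.Agent.P243.Defs

/-! Eight cylinders covering the regular tetrahedron with total relative area below `0.476`. -/

namespace Vale.Agent.P243.Eight

open MeasureTheory Vale.Agent.P243
open scoped ENNReal

/-- The linear part of the order four symmetry `(x,y,z) ↦ (z,1-y,1-x)` of `tetra`. -/
noncomputable def rhoL : E3 →ₗ[ℝ] E3 where
  toFun p := !₂[p 2, -p 1, -p 0]
  map_add' p q := by ext i; fin_cases i <;> simp <;> ring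
  map_smul' r p := by ext i; fin_cases i <;> simp

/-- The translation part of the symmetry. -/
noncomputable def off : E3 := !₂[(0 : ℝ), 1, 1]

/-- The symmetry. -/
noncomputable def rho (p : E3) : E3 := rhoL p + off

theorem rho_apply (p : E3) : rho p = !₂[p 2, 1 - p 1, 1 - p 0] := by
  ext i; fin_cases i <;> simp [rho, rhoL, off] <;> ring

theorem rho_mem {p : E3} (hp : p ∈ tetra) : rho p ∈ tetra := by
  obtain ⟨h1, h2, h3, h4⟩ := hp
  rw [rho_apply]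
  apply point_mem_tetra <;> linarith

theorem exists_rho {q : E3} (hq : q ∈ tetra) : ∃ p ∈ tetra, rho p = q := by
  obtain ⟨h1, h2, h3, h4⟩ := hq
  refine ⟨!₂[1 - q 2, 1 - q 1, q 0], ?_, ?_⟩
  · apply point_mem_tetra <;> linarith
  · rw [rho_apply]; ext i; fin_cases i <;> simp

/-- A cylinder whose membership is `P x ∈ S` and whose relative area is at most `r`. -/
def Good (C : Set E3) (r : ℝ) : Prop :=
  ∃ (u : E3) (B : Set (perp u)), IsBase u B ∧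
    C ⊆ cylinder u B ∧ area B / area (shadow tetra u) ≤ r

theorem good_of_map (P : E3 →ₗ[ℝ] ℝ × ℝ) (hP : Function.Surjective P) {v : E3} (hv : v ≠ 0)
    (hPv : P v = 0) {S T : Set (ℝ × ℝ)} (hS : MeasurableSet S)
    {s t : ℝ} (hs : 0 ≤ s) (hST : volume S ≤ ENNReal.ofReal s) (ht : 0 < t)
    (hT : volume T = ENNReal.ofReal t) (hTK : T ⊆ P '' tetra) :
    Good {x | P x ∈ S} (s / t) := by
  obtain ⟨u, B, h1, h2, h3, h4, h5⟩ :=
    exists_base P hP hv hPv isCompact_tetra hS hs hST ht hT hTK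
  exact ⟨u, B, ⟨h1, h2, h3⟩, fun x hx => h4 x hx, h5⟩

theorem good_rho (P : E3 →ₗ[ℝ] ℝ × ℝ) (hP : Function.Surjective P) {v : E3} (hv : v ≠ 0)
    (hPv : P v = 0) {S T : Set (ℝ × ℝ)} (hS : MeasurableSet S)
    {s t : ℝ} (hs : 0 ≤ s) (hST : volume S ≤ ENNReal.ofReal s) (ht : 0 < t)
    (hT : volume T = ENNReal.ofReal t) (hTK : T ⊆ P '' tetra) :
    Good {x | P (rho x) ∈ S} (s / t) := by
  have key : ∀ x, (P.comp rhoL) x + P off = P (rho x) := fun x => by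
    simp [rho, map_add]
  have h := good_of_map (P.comp rhoL) (v := !₂[-v 2, -v 1, v 0]) ?_ ?_ ?_
    (S := (fun q => q + P off) ⁻¹' S) (T := (fun q => q + P off) ⁻¹' T)
    (hS.preimage (measurable_add_const _)) hs (by rwa [measure_preimage_add_right]) ht
    (by rwa [measure_preimage_add_right]) ?_
  · simpa only [Set.mem_preimage, key] using h
  · intro y
    obtain ⟨x, hx⟩ := hP y
    refine ⟨!₂[-x 2, -x 1, x 0], ?_⟩
    rw [LinearMap.comp_apply, ← hx]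
    congr 1
    ext i; fin_cases i <;> simp [rhoL]
  · intro h0
    apply hv
    have e := fun i : Fin 3 => congrArg (fun p : E3 => p i) h0
    ext i; fin_cases i
    · simpa using e 2
    · simpa using e 1
    · simpa using e 0
  · rw [LinearMap.comp_apply, ← hPv]
    congr 1
    ext i; fin_cases i <;> simp [rhoL]
  · intro q hq
    obtain ⟨y, hy, hyq⟩ := hTK hq
    obtain ⟨x, hx, hxy⟩ := exists_rho hy
    refine ⟨x, hx, ?_⟩
    have := key x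
    rw [hxy, hyq] at this
    exact add_right_cancel this

/-- The map killing `(6,-1,7)`. -/
noncomputable def PB : E3 →ₗ[ℝ] ℝ × ℝ := coordMap (-1) 1 1 1 0 (-6/7)
/-- The map killing `(6,1,7)`. -/
noncomputable def PC : E3 →ₗ[ℝ] ℝ × ℝ := coordMap 1 1 (-1) 1 0 (-6/7)
/-- The map killing `(4,0,3)`. -/
noncomputable def PF : E3 →ₗ[ℝ] ℝ × ℝ := coordMap 0 1 0 1 0 (-4/3)
/-- The map killing `(2,0,1)`. -/
noncomputable def PH : E3 →ₗ[ℝ] ℝ × ℝ := coordMap 0 1 0 1 0 (-2)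

/-- Base for `(6,-1,7)`. -/
def SB : Set (ℝ × ℝ) := trap 0 (83/210) (1/14) 0 (769/1470) (-8/7)
/-- Base for `(6,1,7)`. -/
def SC : Set (ℝ × ℝ) := trap 0 (83/210) (-559/1470) (8/7) (1/14) 0
/-- Base for `(4,0,3)`. -/
def SF : Set (ℝ × ℝ) :=
  trap (869/2520) (151/405) (-1/6 - 10/39) (10/39) (-1/6 - 302/135) 6 ∪
  (trap (869/2520) (151/405) (-1/6 + 302/135) (-6) (-1/6 + 10/39) (-10/39) ∪
  (trap (151/405) (2/5) (-1/6 - 2534/19305) (-34/429) (-1/6 + 2534/19305) (34/429) ∪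
  trap (2/5) (12/29) (-1/6 + 302/135) (-6) (-1/6 - 302/135) 6))
/-- Base for `(2,0,1)`. -/
def SH : Set (ℝ × ℝ) :=
  trap (12/29) (71/162) (-1/2 - 8/13) (8/13) (-1/2 + 8/13) (-8/13) ∪
  trap (71/162) (1/2) (-1/2 + 1654/525) (-1396/175) (-1/2 - 1654/525) (1396/175)

theorem volume_SB : volume SB ≤ ENNReal.ofReal (6889/77175) := by
  rw [SB, volume_trap _ _ _ _ _ _ (by norm_num) (by norm_num) (by norm_num)]
  exact ENNReal.ofReal_le_ofReal (by norm_num)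

theorem volume_SC : volume SC ≤ ENNReal.ofReal (6889/77175) := by
  rw [SC, volume_trap _ _ _ _ _ _ (by norm_num) (by norm_num) (by norm_num)]
  exact ENNReal.ofReal_le_ofReal (by norm_num)

theorem volume_SF :
    volume SF ≤ ENNReal.ofReal
      ((16129/4776408 + 28127/4264650 + 32/7569) * (4/3)) := by
  refine (measure_union_le _ _).trans ((add_le_add le_rfl ((measure_union_le _ _).trans
    (add_le_add le_rfl (measure_union_le _ _)))).trans ?_)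
  rw [volume_trap _ _ _ _ _ _ (by norm_num) (by norm_num) (by norm_num),
    volume_trap _ _ _ _ _ _ (by norm_num) (by norm_num) (by norm_num),
    volume_trap _ _ _ _ _ _ (by norm_num) (by norm_num) (by norm_num),
    volume_trap _ _ _ _ _ _ (by norm_num) (by norm_num) (by norm_num),
    ← ENNReal.ofReal_add (by norm_num) (by norm_num),
    ← ENNReal.ofReal_add (by norm_num) (by norm_num),
    ← ENNReal.ofReal_add (by norm_num) (by norm_num)]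
  exact ENNReal.ofReal_le_ofReal (by norm_num)

theorem volume_SH :
    volume SH ≤ ENNReal.ofReal ((620195/71731413 + 1678/45927) * 2) := by
  refine (measure_union_le _ _).trans ?_
  rw [volume_trap _ _ _ _ _ _ (by norm_num) (by norm_num) (by norm_num),
    volume_trap _ _ _ _ _ _ (by norm_num) (by norm_num) (by norm_num),
    ← ENNReal.ofReal_add (by norm_num) (by norm_num)]
  exact ENNReal.ofReal_le_ofReal (by norm_num)

theorem not_bottom {x y z : ℝ} (hp : !₂[x, y, z] ∈ tetra)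
    (hB : PB !₂[x, y, z] ∉ SB) (hC : PC !₂[x, y, z] ∉ SC) :
    (1/14 ≤ x - 6/7 * z ∧ 769/1470 ≤ x - 6/7 * z + 8/7 * (y - x + z)) ∨
    (x - 6/7 * z ≤ 1/14 ∧ x - 6/7 * z - 8/7 * (x + y - z) ≤ -559/1470) := by
  simp [mem_tetra] at hp
  obtain ⟨h1, h2, h3, h4⟩ := hp
  rcases le_total (1/14) (x - 6/7 * z) with h | h
  · refine .inl ⟨h, ?_⟩
    by_contra hn
    push Not at hn
    apply hB
    simp only [PB, coordMap_point, SB, trap, Set.mem_ofPred_eq]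
    refine ⟨?_, ?_, ?_, ?_⟩ <;> linarith
  · refine .inr ⟨h, ?_⟩
    by_contra hn
    push Not at hn
    apply hC
    simp only [PC, coordMap_point, SC, trap, Set.mem_ofPred_eq]
    refine ⟨?_, ?_, ?_, ?_⟩ <;> linarith

theorem bottom_y {x y z : ℝ} (h1 : x ≤ y + z) (h2 : y ≤ x + z) (h3 : z ≤ x + y)
    (h4 : x + y + z ≤ 2)
    (hb : (1/14 ≤ x - 6/7 * z ∧ 769/1470 ≤ x - 6/7 * z + 8/7 * (y - x + z)) ∨
      (x - 6/7 * z ≤ 1/14 ∧ x - 6/7 * z - 8/7 * (x + y - z) ≤ -559/1470))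
    (ht : (1/14 ≤ z - 6/7 * (1 - x) ∧
        769/1470 ≤ z - 6/7 * (1 - x) + 8/7 * ((1 - y) - z + (1 - x))) ∨
      (z - 6/7 * (1 - x) ≤ 1/14 ∧
        z - 6/7 * (1 - x) - 8/7 * (z + (1 - y) - (1 - x)) ≤ -559/1470)) :
    869/2520 ≤ y := by
  rcases hb with ⟨a, b⟩ | ⟨a, b⟩ <;> rcases ht with ⟨c, d⟩ | ⟨c, d⟩ <;> linarith

theorem bandA1 {x y z : ℝ} (h1 : x ≤ y + z) (h2 : y ≤ x + z) (h3 : z ≤ x + y)
    (h4 : x + y + z ≤ 2)
    (hb : (1/14 ≤ x - 6/7 * z ∧ 769/1470 ≤ x - 6/7 * z + 8/7 * (y - x + z)) ∨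
      (x - 6/7 * z ≤ 1/14 ∧ x - 6/7 * z - 8/7 * (x + y - z) ≤ -559/1470))
    (ht : (1/14 ≤ z - 6/7 * (1 - x) ∧
        769/1470 ≤ z - 6/7 * (1 - x) + 8/7 * ((1 - y) - z + (1 - x))) ∨
      (z - 6/7 * (1 - x) ≤ 1/14 ∧
        z - 6/7 * (1 - x) - 8/7 * (z + (1 - y) - (1 - x)) ≤ -559/1470))
    (t0 : y ≤ 151/405)
    (hs : x - 4/3 * z ≤ -1/6) :
    (-1/6 - 10/39) + (10/39) * y ≤ x - 4/3 * z ∧ x - 4/3 * z ≤ (-1/6 - 302/135) + (6) * y := by
  rcases hb with ⟨a, b⟩ | ⟨a, b⟩ <;> rcases ht with ⟨c, d⟩ | ⟨c, d⟩ <;>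
    (refine ⟨?_, ?_⟩ <;> linarith)

theorem bandA2 {x y z : ℝ} (h1 : x ≤ y + z) (h2 : y ≤ x + z) (h3 : z ≤ x + y)
    (h4 : x + y + z ≤ 2)
    (hb : (1/14 ≤ x - 6/7 * z ∧ 769/1470 ≤ x - 6/7 * z + 8/7 * (y - x + z)) ∨
      (x - 6/7 * z ≤ 1/14 ∧ x - 6/7 * z - 8/7 * (x + y - z) ≤ -559/1470))
    (ht : (1/14 ≤ z - 6/7 * (1 - x) ∧
        769/1470 ≤ z - 6/7 * (1 - x) + 8/7 * ((1 - y) - z + (1 - x))) ∨
      (z - 6/7 * (1 - x) ≤ 1/14 ∧
        z - 6/7 * (1 - x) - 8/7 * (z + (1 - y) - (1 - x)) ≤ -559/1470))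
    (t0 : y ≤ 151/405)
    (hs : -1/6 ≤ x - 4/3 * z) :
    (-1/6 + 302/135) + (-6) * y ≤ x - 4/3 * z ∧ x - 4/3 * z ≤ (-1/6 + 10/39) + (-10/39) * y := by
  rcases hb with ⟨a, b⟩ | ⟨a, b⟩ <;> rcases ht with ⟨c, d⟩ | ⟨c, d⟩ <;>
    (refine ⟨?_, ?_⟩ <;> linarith)

theorem bandB {x y z : ℝ} (h1 : x ≤ y + z) (h2 : y ≤ x + z) (h3 : z ≤ x + y)
    (h4 : x + y + z ≤ 2)
    (hb : (1/14 ≤ x - 6/7 * z ∧ 769/1470 ≤ x - 6/7 * z + 8/7 * (y - x + z)) ∨
      (x - 6/7 * z ≤ 1/14 ∧ x - 6/7 * z - 8/7 * (x + y - z) ≤ -559/1470))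
    (ht : (1/14 ≤ z - 6/7 * (1 - x) ∧
        769/1470 ≤ z - 6/7 * (1 - x) + 8/7 * ((1 - y) - z + (1 - x))) ∨
      (z - 6/7 * (1 - x) ≤ 1/14 ∧
        z - 6/7 * (1 - x) - 8/7 * (z + (1 - y) - (1 - x)) ≤ -559/1470))
    (t0 : 151/405 ≤ y)
    (t1 : y ≤ 2/5) :
    (-1/6 - 2534/19305) + (-34/429) * y ≤ x - 4/3 * z ∧ x - 4/3 * z ≤ (-1/6 + 2534/19305) + (34/429) * y := by
  rcases hb with ⟨a, b⟩ | ⟨a, b⟩ <;> rcases ht with ⟨c, d⟩ | ⟨c, d⟩ <;>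
    (refine ⟨?_, ?_⟩ <;> linarith)

theorem bandC {x y z : ℝ} (h1 : x ≤ y + z) (h2 : y ≤ x + z) (h3 : z ≤ x + y)
    (h4 : x + y + z ≤ 2)
    (hb : (1/14 ≤ x - 6/7 * z ∧ 769/1470 ≤ x - 6/7 * z + 8/7 * (y - x + z)) ∨
      (x - 6/7 * z ≤ 1/14 ∧ x - 6/7 * z - 8/7 * (x + y - z) ≤ -559/1470))
    (ht : (1/14 ≤ z - 6/7 * (1 - x) ∧
        769/1470 ≤ z - 6/7 * (1 - x) + 8/7 * ((1 - y) - z + (1 - x))) ∨
      (z - 6/7 * (1 - x) ≤ 1/14 ∧
        z - 6/7 * (1 - x) - 8/7 * (z + (1 - y) - (1 - x)) ≤ -559/1470))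
    (t0 : 2/5 ≤ y)
    (t1 : y ≤ 12/29) :
    (-1/6 + 302/135) + (-6) * y ≤ x - 4/3 * z ∧ x - 4/3 * z ≤ (-1/6 - 302/135) + (6) * y := by
  rcases hb with ⟨a, b⟩ | ⟨a, b⟩ <;> rcases ht with ⟨c, d⟩ | ⟨c, d⟩ <;>
    (refine ⟨?_, ?_⟩ <;> linarith)

theorem bandD {x y z : ℝ} (h1 : x ≤ y + z) (h2 : y ≤ x + z) (h3 : z ≤ x + y)
    (h4 : x + y + z ≤ 2)
    (hb : (1/14 ≤ x - 6/7 * z ∧ 769/1470 ≤ x - 6/7 * z + 8/7 * (y - x + z)) ∨
      (x - 6/7 * z ≤ 1/14 ∧ x - 6/7 * z - 8/7 * (x + y - z) ≤ -559/1470))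
    (ht : (1/14 ≤ z - 6/7 * (1 - x) ∧
        769/1470 ≤ z - 6/7 * (1 - x) + 8/7 * ((1 - y) - z + (1 - x))) ∨
      (z - 6/7 * (1 - x) ≤ 1/14 ∧
        z - 6/7 * (1 - x) - 8/7 * (z + (1 - y) - (1 - x)) ≤ -559/1470))
    (t0 : 12/29 ≤ y)
    (t1 : y ≤ 71/162) :
    (-1/2 - 8/13) + (8/13) * y ≤ x - 2 * z ∧ x - 2 * z ≤ (-1/2 + 8/13) + (-8/13) * y := by
  rcases hb with ⟨a, b⟩ | ⟨a, b⟩ <;> rcases ht with ⟨c, d⟩ | ⟨c, d⟩ <;>
    (refine ⟨?_, ?_⟩ <;> linarith)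

theorem bandE {x y z : ℝ} (h1 : x ≤ y + z) (h2 : y ≤ x + z) (h3 : z ≤ x + y)
    (h4 : x + y + z ≤ 2)
    (hb : (1/14 ≤ x - 6/7 * z ∧ 769/1470 ≤ x - 6/7 * z + 8/7 * (y - x + z)) ∨
      (x - 6/7 * z ≤ 1/14 ∧ x - 6/7 * z - 8/7 * (x + y - z) ≤ -559/1470))
    (ht : (1/14 ≤ z - 6/7 * (1 - x) ∧
        769/1470 ≤ z - 6/7 * (1 - x) + 8/7 * ((1 - y) - z + (1 - x))) ∨
      (z - 6/7 * (1 - x) ≤ 1/14 ∧
        z - 6/7 * (1 - x) - 8/7 * (z + (1 - y) - (1 - x)) ≤ -559/1470))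
    (t0 : 71/162 ≤ y)
    (t1 : y ≤ 1/2) :
    (-1/2 + 1654/525) + (-1396/175) * y ≤ x - 2 * z ∧ x - 2 * z ≤ (-1/2 - 1654/525) + (1396/175) * y := by
  rcases hb with ⟨a, b⟩ | ⟨a, b⟩ <;> rcases ht with ⟨c, d⟩ | ⟨c, d⟩ <;>
    (refine ⟨?_, ?_⟩ <;> linarith)

theorem strips {x y z : ℝ} (h1 : x ≤ y + z) (h2 : y ≤ x + z) (h3 : z ≤ x + y)
    (h4 : x + y + z ≤ 2) (hy : y ≤ 1/2)
    (hb : (1/14 ≤ x - 6/7 * z ∧ 769/1470 ≤ x - 6/7 * z + 8/7 * (y - x + z)) ∨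
      (x - 6/7 * z ≤ 1/14 ∧ x - 6/7 * z - 8/7 * (x + y - z) ≤ -559/1470))
    (ht : (1/14 ≤ z - 6/7 * (1 - x) ∧
        769/1470 ≤ z - 6/7 * (1 - x) + 8/7 * ((1 - y) - z + (1 - x))) ∨
      (z - 6/7 * (1 - x) ≤ 1/14 ∧
        z - 6/7 * (1 - x) - 8/7 * (z + (1 - y) - (1 - x)) ≤ -559/1470)) :
    PF !₂[x, y, z] ∈ SF ∨ PH !₂[x, y, z] ∈ SH := by
  have hy0 := bottom_y h1 h2 h3 h4 hb ht
  simp only [PF, PH, coordMap_point, SF, SH, trap, Set.mem_union, Set.mem_ofPred_eq]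
  by_cases t1 : y ≤ 151/405
  · left
    rcases le_total (x - 4/3 * z) (-1/6) with hs | hs
    · obtain ⟨e1, e2⟩ := bandA1 h1 h2 h3 h4 hb ht t1 hs
      left; refine ⟨?_, ?_, ?_, ?_⟩ <;> linarith
    · obtain ⟨e1, e2⟩ := bandA2 h1 h2 h3 h4 hb ht t1 hs
      right; left; refine ⟨?_, ?_, ?_, ?_⟩ <;> linarith
  by_cases t2 : y ≤ 2/5
  · obtain ⟨e1, e2⟩ := bandB h1 h2 h3 h4 hb ht (by linarith) t2
    left; right; right; left; refine ⟨?_, ?_, ?_, ?_⟩ <;> linarith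
  by_cases t3 : y ≤ 12/29
  · obtain ⟨e1, e2⟩ := bandC h1 h2 h3 h4 hb ht (by linarith) t3
    left; right; right; right; refine ⟨?_, ?_, ?_, ?_⟩ <;> linarith
  by_cases t4 : y ≤ 71/162
  · obtain ⟨e1, e2⟩ := bandD h1 h2 h3 h4 hb ht (by linarith) t4
    right; left; refine ⟨?_, ?_, ?_, ?_⟩ <;> linarith
  · obtain ⟨e1, e2⟩ := bandE h1 h2 h3 h4 hb ht (by linarith) hy
    right; right; refine ⟨?_, ?_, ?_, ?_⟩ <;> linarith

theorem cover {p : E3} (hp : p ∈ tetra) :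
    PB p ∈ SB ∨ PC p ∈ SC ∨ PF p ∈ SF ∨ PH p ∈ SH ∨
      PB (rho p) ∈ SB ∨ PC (rho p) ∈ SC ∨ PF (rho p) ∈ SF ∨ PH (rho p) ∈ SH := by
  have hpe : p = !₂[p 0, p 1, p 2] := by ext i; fin_cases i <;> simp
  by_contra hn
  simp only [not_or] at hn
  obtain ⟨hB, hC, hF, hH, hB', hC', hF', hH'⟩ := hn
  have hr := rho_mem hp
  rw [rho_apply] at hr hB' hC' hF' hH'
  obtain ⟨h1, h2, h3, h4⟩ := hp
  have hp' : !₂[p 0, p 1, p 2] ∈ tetra := point_mem_tetra h1 h2 h3 h4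
  rw [hpe] at hB hC hF hH
  have hb := not_bottom hp' hB hC
  have ht := not_bottom hr hB' hC'
  rcases le_total (p 1) (1/2) with hy | hy
  · rcases strips h1 h2 h3 h4 hy hb ht with h | h
    · exact hF h
    · exact hH h
  · have h := strips (x := p 2) (y := 1 - p 1) (z := 1 - p 0) (by linarith) (by linarith)
      (by linarith) (by linarith) (by linarith) ht ?_
    · rcases h with h | h
      · exact hF' h
      · exact hH' h
    · rcases hb with ⟨a, b⟩ | ⟨a, b⟩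
      · refine .inr ⟨?_, ?_⟩ <;> linarith
      · refine .inl ⟨?_, ?_⟩ <;> linarith

theorem image_PB : trap 0 2 0 (-3/7) 1 (-13/14) ⊆ PB '' tetra := by
  rintro ⟨U, X⟩ ⟨a, b, c, d⟩
  simp only at a b c d
  refine ⟨!₂[X + 3/7 * U, X + 3/7 * U + U/2, U/2], ?_, ?_⟩
  · apply point_mem_tetra <;> linarith
  · simp only [PB, coordMap_point, Prod.mk.injEq]; constructor <;> ring

theorem image_PC : trap 0 2 (-6/7) (13/14) (1/7) (3/7) ⊆ PC '' tetra := by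
  rintro ⟨U, X⟩ ⟨a, b, c, d⟩
  simp only at a b c d
  refine ⟨!₂[U/2 + ((X - U/2) + 6/7 * (1 - U/2)), U/2 + ((1 - U/2)/7 - (X - U/2)), 1 - U/2],
    ?_, ?_⟩
  · apply point_mem_tetra <;> linarith
  · simp only [PC, coordMap_point, Prod.mk.injEq]; constructor <;> ring

theorem image_strip (a : ℝ) (ha : 1 < a) :
    trap 0 1 (1 - a) (-1) 0 1 ⊆ coordMap 0 1 0 1 0 (-a) '' tetra := by
  rintro ⟨t, X⟩ ⟨h1, h2, h3, h4⟩
  simp only at h1 h2 h3 h4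
  have hden : 0 < a - 1 + 2 * t := by linarith
  set m := (t - X) / (a - 1 + 2 * t) with hm
  have hm0 : 0 ≤ m := div_nonneg (by linarith) hden.le
  have hm1 : m ≤ 1 := (div_le_one hden).2 (by linarith)
  have hmX : m * (a - 1 + 2 * t) = t - X := div_mul_cancel₀ _ hden.ne'
  refine ⟨!₂[t + m * (1 - 2 * t), t, m], ?_, ?_⟩
  · apply point_mem_tetra <;>
      nlinarith [mul_nonneg hm0 h1, mul_nonneg hm0 (sub_nonneg.2 h2),
        mul_nonneg (sub_nonneg.2 hm1) h1, mul_nonneg (sub_nonneg.2 hm1) (sub_nonneg.2 h2)]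
  · simp only [coordMap_point, Prod.mk.injEq]
    exact ⟨by ring, by linarith⟩

theorem surj_coord0 (a b : ℝ) : Function.Surjective (coordMap 0 1 0 1 a b) := fun ⟨t, s⟩ =>
  ⟨!₂[s - a * t, t, 0], by simp only [coordMap_point, Prod.mk.injEq]; constructor <;> ring⟩

theorem surj_PB : Function.Surjective PB := fun ⟨U, X⟩ =>
  ⟨!₂[X, U + X, 0], by simp only [PB, coordMap_point, Prod.mk.injEq]; constructor <;> ring⟩

theorem surj_PC : Function.Surjective PC := fun ⟨U, X⟩ =>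
  ⟨!₂[X, U - X, 0], by simp only [PC, coordMap_point, Prod.mk.injEq]; constructor <;> ring⟩

/-- The relative-area bounds of the eight cylinders. -/
noncomputable def bd : Fin 4 → ℝ :=
  ![6889/77175 / 1, 6889/77175 / 1,
    ((16129/4776408 + 28127/4264650 + 32/7569) * (4/3)) / (4/3),
    ((620195/71731413 + 1678/45927) * 2) / 2]

/-- The four membership maps. -/
noncomputable def mp : Fin 4 → E3 →ₗ[ℝ] ℝ × ℝ := ![PB, PC, PF, PH]
/-- The four planar bases. -/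
def bs : Fin 4 → Set (ℝ × ℝ) := ![SB, SC, SF, SH]

theorem goods (i : Fin 4) :
    Good {x | mp i x ∈ bs i} (bd i) ∧ Good {x | mp i (rho x) ∈ bs i} (bd i) := by
  have mS : MeasurableSet SB ∧ MeasurableSet SC ∧ MeasurableSet SF ∧ MeasurableSet SH :=
    ⟨measurableSet_trap .., measurableSet_trap ..,
      (measurableSet_trap ..).union ((measurableSet_trap ..).union
        ((measurableSet_trap ..).union (measurableSet_trap ..))),
      (measurableSet_trap ..).union (measurableSet_trap ..)⟩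
  have vB : (!₂[(6:ℝ), -1, 7] : E3) ≠ 0 := ne_zero_of_z (by norm_num)
  have vC : (!₂[(6:ℝ), 1, 7] : E3) ≠ 0 := ne_zero_of_z (by norm_num)
  have vF : (!₂[(4:ℝ), 0, 3] : E3) ≠ 0 := ne_zero_of_z (by norm_num)
  have vH : (!₂[(2:ℝ), 0, 1] : E3) ≠ 0 := ne_zero_of_z (by norm_num)
  have kB : PB !₂[(6:ℝ), -1, 7] = 0 := by
    simp only [PB, coordMap_point, Prod.mk_eq_zero]; constructor <;> norm_num
  have kC : PC !₂[(6:ℝ), 1, 7] = 0 := by
    simp only [PC, coordMap_point, Prod.mk_eq_zero]; constructor <;> norm_num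
  have kF : PF !₂[(4:ℝ), 0, 3] = 0 := by
    simp only [PF, coordMap_point, Prod.mk_eq_zero]; constructor <;> norm_num
  have kH : PH !₂[(2:ℝ), 0, 1] = 0 := by
    simp only [PH, coordMap_point, Prod.mk_eq_zero]; constructor <;> norm_num
  have tB : volume (trap 0 2 0 (-3/7) 1 (-13/14)) = ENNReal.ofReal 1 := by
    rw [volume_trap] <;> norm_num
  have tC : volume (trap 0 2 (-6/7) (13/14) (1/7) (3/7)) = ENNReal.ofReal 1 := by
    rw [volume_trap] <;> norm_num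
  have tF : volume (trap 0 1 (1 - 4/3) (-1) 0 1) = ENNReal.ofReal (4/3) := by
    rw [volume_trap] <;> norm_num
  have tH : volume (trap 0 1 (1 - 2) (-1) 0 1) = ENNReal.ofReal 2 := by
    rw [volume_trap] <;> norm_num
  have iF : trap 0 1 (1 - 4/3) (-1) 0 1 ⊆ PF '' tetra := by
    have := image_strip (4/3) (by norm_num)
    rwa [show (-(4/3 : ℝ)) = -4/3 by norm_num] at this
  have iH : trap 0 1 (1 - 2) (-1) 0 1 ⊆ PH '' tetra := image_strip 2 (by norm_num)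
  fin_cases i <;>
    simp only [mp, bs, bd, Fin.zero_eta, Fin.mk_one, Fin.reduceFinMk, Matrix.cons_val]
  · exact ⟨good_of_map PB surj_PB vB kB mS.1 (by norm_num) volume_SB one_pos tB image_PB,
      good_rho PB surj_PB vB kB mS.1 (by norm_num) volume_SB one_pos tB image_PB⟩
  · exact ⟨good_of_map PC surj_PC vC kC mS.2.1 (by norm_num) volume_SC one_pos tC image_PC,
      good_rho PC surj_PC vC kC mS.2.1 (by norm_num) volume_SC one_pos tC image_PC⟩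
  · exact ⟨good_of_map PF (surj_coord0 _ _) vF kF mS.2.2.1 (by norm_num) volume_SF (by norm_num)
        tF iF,
      good_rho PF (surj_coord0 _ _) vF kF mS.2.2.1 (by norm_num) volume_SF (by norm_num) tF iF⟩
  · exact ⟨good_of_map PH (surj_coord0 _ _) vH kH mS.2.2.2 (by norm_num) volume_SH (by norm_num)
        tH iH,
      good_rho PH (surj_coord0 _ _) vH kH mS.2.2.2 (by norm_num) volume_SH (by norm_num) tH iH⟩

theorem eight_covering :
    ∃ (u : Fin 8 → E3) (B : (i : Fin 8) → Set (perp (u i))),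
      (∀ i, IsBase (u i) (B i)) ∧ tetra ⊆ ⋃ i, cylinder (u i) (B i) ∧
      ∑ i, area (B i) / area (shadow tetra (u i)) ≤ 4759/10000 := by
  let C : Fin 8 → Set E3 :=
    ![{x | mp 0 x ∈ bs 0}, {x | mp 1 x ∈ bs 1}, {x | mp 2 x ∈ bs 2}, {x | mp 3 x ∈ bs 3},
      {x | mp 0 (rho x) ∈ bs 0}, {x | mp 1 (rho x) ∈ bs 1}, {x | mp 2 (rho x) ∈ bs 2},
      {x | mp 3 (rho x) ∈ bs 3}]
  let r : Fin 8 → ℝ := ![bd 0, bd 1, bd 2, bd 3, bd 0, bd 1, bd 2, bd 3]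
  have hg : ∀ i, Good (C i) (r i) := by
    intro i
    fin_cases i
    exacts [(goods 0).1, (goods 1).1, (goods 2).1, (goods 3).1,
      (goods 0).2, (goods 1).2, (goods 2).2, (goods 3).2]
  choose u B hbase hsub hrat using hg
  refine ⟨u, B, hbase, fun p hp => Set.mem_iUnion.2 ?_, (Finset.sum_le_sum fun i _ => hrat i).trans ?_⟩
  · rcases cover hp with h | h | h | h | h | h | h | h
    exacts [⟨0, hsub 0 h⟩, ⟨1, hsub 1 h⟩, ⟨2, hsub 2 h⟩, ⟨3, hsub 3 h⟩, ⟨4, hsub 4 h⟩,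
      ⟨5, hsub 5 h⟩, ⟨6, hsub 6 h⟩, ⟨7, hsub 7 h⟩]
  · simp only [r, bd, Fin.sum_univ_eight, Matrix.cons_val]
    norm_num

end Vale.Agent.P243.Eight
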